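import Vale.Agent.P155.H878.Q1Stmt
import Vale.Agent.P155.L.Cycle

/-!
# P155, literal Q1: the successor map enumerates the loops
-/

namespace Vale.Agent.P155.Q1

open Vale.Agent.P155 Function

variable {V : Finset Pt} {ω : Conf}

theorem suc_not_white {v : Pt} (h : ¬ White v) : SW.suc ω v = ω.2 v := by
  unfold SW.suc
  rw [if_neg h]

theorem suc_mem (hω : ω ∈ DD V) {v : Pt} (hv : v ∈ V) : SW.suc ω v ∈ V := by
  unfold SW.suc
  split_ifs
  exacts [L.mem1 hω hv, L.mem2 hω hv]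

theorem suc_adj (hω : ω ∈ DD V) {v : Pt} (hv : v ∈ V) : Adj v (SW.suc ω v) := by
  unfold SW.suc
  split_ifs
  exacts [L.adj1 hω hv, L.adj2 hω hv]

theorem suc_off (hω : ω ∈ DD V) {v : Pt} (hv : v ∉ V) : SW.suc ω v = v := by
  unfold SW.suc
  split_ifs
  exacts [L.off1 hω hv, L.off2 hω hv]

theorem suc_white_iff (hω : ω ∈ DD V) {v : Pt} (hv : v ∈ V) : White (SW.suc ω v) ↔ ¬ White v := by
  have h := L.adj_even (suc_adj hω hv)
  unfold White
  rw [← Int.not_even_iff_odd, ← Int.not_even_iff_odd, h]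

theorem suc_inj (hω : ω ∈ DD V) : Injective (SW.suc ω) := by
  intro v w h
  by_cases hv : v ∈ V
  · by_cases hw : w ∈ V
    · have h1 := suc_white_iff hω hv
      have h2 := suc_white_iff hω hw
      rw [h] at h1
      rw [h1, not_iff_not] at h2
      unfold SW.suc at h
      by_cases hc : White v
      · rw [if_pos hc, if_pos (h2.1 hc)] at h
        have := congrArg ω.1 h
        rwa [L.inv1 hω, L.inv1 hω] at this
      · rw [if_neg hc, if_neg (fun hh => hc (h2.2 hh))] at h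
        have := congrArg ω.2 h
        rwa [L.inv2 hω, L.inv2 hω] at this
    · rw [suc_off hω hw] at h
      exact absurd (h ▸ suc_mem hω hv) hw
  · by_cases hw : w ∈ V
    · rw [suc_off hω hv] at h
      exact absurd (h ▸ suc_mem hω hw) hv
    · rwa [suc_off hω hv, suc_off hω hw] at h

theorem iter_mem (hω : ω ∈ DD V) {v : Pt} (hv : v ∈ V) (i : ℕ) : (SW.suc ω)^[i] v ∈ V := by
  induction i with
  | zero => exact hv
  | succ n ih => rw [iterate_succ_apply']; exact suc_mem hω ih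

theorem iter_adj (hω : ω ∈ DD V) {v : Pt} (hv : v ∈ V) (i : ℕ) :
    Adj ((SW.suc ω)^[i] v) ((SW.suc ω)^[i + 1] v) := by
  rw [iterate_succ_apply']
  exact suc_adj hω (iter_mem hω hv i)

theorem iter_comp (ω : Conf) (v : Pt) (i : ℕ) : (SW.suc ω)^[i] v ∈ comp ω v := SW.same_iter ω v i

theorem suc_periodic (hω : ω ∈ DD V) {v : Pt} (hv : v ∈ V) : v ∈ periodicPts (SW.suc ω) := by
  classical
  obtain ⟨i, j, hij, h⟩ : ∃ i j : ℕ, i ≠ j ∧ (SW.suc ω)^[i] v = (SW.suc ω)^[j] v := by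
    by_contra hcon
    push Not at hcon
    have hinj : Injective (fun n : ℕ => (⟨(SW.suc ω)^[n] v, iter_mem hω hv n⟩ : V)) := by
      intro a b hab
      by_contra hne
      exact hcon a b hne (congrArg Subtype.val hab)
    exact not_injective_infinite_finite _ hinj
  wlog hlt : i < j generalizing i j
  · exact this j i hij.symm h.symm (lt_of_le_of_ne (not_lt.1 hlt) hij.symm)
  refine ⟨j - i, Nat.sub_pos_of_lt hlt, ?_⟩
  have h2 : (SW.suc ω)^[i] ((SW.suc ω)^[j - i] v) = (SW.suc ω)^[i] v := by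
    rw [← iterate_add_apply, Nat.add_sub_cancel' hlt.le, ← h]
  exact ((suc_inj hω).iterate i) h2

/-- the orbit is the whole component -/
theorem comp_eq_orbit (hω : ω ∈ DD V) {v : Pt} (hv : v ∈ V) :
    comp ω v = (fun i => (SW.suc ω)^[i] v) '' Set.Iio (minimalPeriod (SW.suc ω) v) := by
  have hp := suc_periodic hω hv
  have hpos : 0 < minimalPeriod (SW.suc ω) v := minimalPeriod_pos_of_mem_periodicPts hp
  have hall : ∀ i, (SW.suc ω)^[i] v ∈
      (fun i => (SW.suc ω)^[i] v) '' Set.Iio (minimalPeriod (SW.suc ω) v) := by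
    intro i
    refine ⟨i % minimalPeriod (SW.suc ω) v, Nat.mod_lt _ hpos, ?_⟩
    exact iterate_mod_minimalPeriod_eq
  apply Set.Subset.antisymm
  · refine L.comp_subset_of_closed (hall 0) ?_ ?_
    · rintro _ ⟨i, -, rfl⟩
      by_cases hw : White ((SW.suc ω)^[i] v)
      · have : ω.1 ((SW.suc ω)^[i] v) = (SW.suc ω)^[i + 1] v := by
          rw [iterate_succ_apply', SW.suc_white hw]
        rw [this]; exact hall _
      · -- predecessor
        obtain ⟨j, hj⟩ : ∃ j, (SW.suc ω)^[j + 1] v = (SW.suc ω)^[i] v := by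
          refine ⟨i + minimalPeriod (SW.suc ω) v - 1, ?_⟩
          rw [show i + minimalPeriod (SW.suc ω) v - 1 + 1 = i + minimalPeriod (SW.suc ω) v by omega,
            iterate_add_apply, iterate_minimalPeriod]
        have hw' : White ((SW.suc ω)^[j] v) := by
          by_contra hc
          apply hw
          rw [← hj, iterate_succ_apply', suc_white_iff hω (iter_mem hω hv j)]
          exact hc
        have : ω.1 ((SW.suc ω)^[i] v) = (SW.suc ω)^[j] v := by
          rw [← hj, iterate_succ_apply', SW.suc_white hw', L.inv1 hω]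
        rw [this]; exact hall _
    · rintro _ ⟨i, -, rfl⟩
      by_cases hw : White ((SW.suc ω)^[i] v)
      · obtain ⟨j, hj⟩ : ∃ j, (SW.suc ω)^[j + 1] v = (SW.suc ω)^[i] v := by
          refine ⟨i + minimalPeriod (SW.suc ω) v - 1, ?_⟩
          rw [show i + minimalPeriod (SW.suc ω) v - 1 + 1 = i + minimalPeriod (SW.suc ω) v by omega,
            iterate_add_apply, iterate_minimalPeriod]
        have hw' : ¬ White ((SW.suc ω)^[j] v) := by
          intro hc
          rw [← hj, iterate_succ_apply', suc_white_iff hω (iter_mem hω hv j)] at hw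
          exact hw hc
        have : ω.2 ((SW.suc ω)^[i] v) = (SW.suc ω)^[j] v := by
          rw [← hj, iterate_succ_apply', suc_not_white hw', L.inv2 hω]
        rw [this]; exact hall _
      · have : ω.2 ((SW.suc ω)^[i] v) = (SW.suc ω)^[i + 1] v := by
          rw [iterate_succ_apply', suc_not_white hw]
        rw [this]; exact hall _
  · rintro _ ⟨i, -, rfl⟩
    exact iter_comp ω v i

theorem ncard_comp (hω : ω ∈ DD V) {v : Pt} (hv : v ∈ V) :
    (comp ω v).ncard = minimalPeriod (SW.suc ω) v := by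
  rw [comp_eq_orbit hω hv, Set.InjOn.ncard_image]
  · have : (Set.Iio (minimalPeriod (SW.suc ω) v) : Set ℕ) =
        (Finset.range (minimalPeriod (SW.suc ω) v) : Set ℕ) := by ext; simp
    rw [this, Set.ncard_coe_finset, Finset.card_range]
  · intro i hi j hj h
    exact (iterate_eq_iterate_iff_of_lt_minimalPeriod hi hj).1 h

theorem iter_per (hω : ω ∈ DD V) {v : Pt} (hv : v ∈ V) :
    (SW.suc ω)^[(comp ω v).ncard] v = v := by
  rw [ncard_comp hω hv]
  exact iterate_minimalPeriod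

theorem ncard_pos (hω : ω ∈ DD V) {v : Pt} (hv : v ∈ V) : 0 < (comp ω v).ncard := by
  rw [ncard_comp hω hv]
  exact minimalPeriod_pos_of_mem_periodicPts (suc_periodic hω hv)

theorem iter_injOn (hω : ω ∈ DD V) {v : Pt} (hv : v ∈ V) {i j : ℕ}
    (hi : i < (comp ω v).ncard) (hj : j < (comp ω v).ncard)
    (h : (SW.suc ω)^[i] v = (SW.suc ω)^[j] v) : i = j := by
  rw [ncard_comp hω hv] at hi hj
  exact (iterate_eq_iterate_iff_of_lt_minimalPeriod hi hj).1 h

theorem exists_iter (hω : ω ∈ DD V) {v u : Pt} (hv : v ∈ V) (hu : u ∈ comp ω v) :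
    ∃ i < (comp ω v).ncard, (SW.suc ω)^[i] v = u := by
  rw [ncard_comp hω hv]
  rw [comp_eq_orbit hω hv] at hu
  obtain ⟨i, hi, rfl⟩ := hu
  exact ⟨i, hi, rfl⟩

/-- the vertices of the loop through `v` in cyclic order -/
noncomputable def cycP (ω : Conf) (v : Pt) (j : ℤ) : Pt :=
  (SW.suc ω)^[(j % ((comp ω v).ncard : ℤ)).toNat] v

theorem cyc_eq (δ : ℝ) (a : ℂ) (ω : Conf) (v : Pt) (j : ℤ) : cyc δ a ω v j = pt δ a (cycP ω v j) :=
  rfl

theorem cycP_nat (hω : ω ∈ DD V) {v : Pt} (hv : v ∈ V) (i : ℕ) :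
    cycP ω v i = (SW.suc ω)^[i] v := by
  unfold cycP
  have : ((i : ℤ) % ((comp ω v).ncard : ℤ)).toNat = i % (comp ω v).ncard := by
    rw [← Int.natCast_mod, Int.toNat_natCast]
  rw [this, ncard_comp hω hv]
  exact iterate_mod_minimalPeriod_eq

theorem cycP_per (ω : Conf) (v : Pt) (j : ℤ) : cycP ω v (j + ((comp ω v).ncard : ℕ)) = cycP ω v j := by
  unfold cycP
  rw [Int.add_emod_right]

theorem cycP_add_mul (ω : Conf) (v : Pt) (j : ℤ) (k : ℤ) :
    cycP ω v (j + k * ((comp ω v).ncard : ℕ)) = cycP ω v j := by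
  unfold cycP
  rw [Int.add_mul_emod_self_right]

/-- `cycP (j + i) = suc^[i] (cycP j)` -/
theorem cycP_add (hω : ω ∈ DD V) {v : Pt} (hv : v ∈ V) (j : ℤ) (i : ℕ) :
    cycP ω v (j + i) = (SW.suc ω)^[i] (cycP ω v j) := by
  have hm : 0 < (comp ω v).ncard := ncard_pos hω hv
  -- shift `j` to a natural number
  obtain ⟨k, hk⟩ : ∃ k : ℤ, 0 ≤ j + k * ((comp ω v).ncard : ℕ) := by
    refine ⟨|j|, ?_⟩
    have h1 : (1 : ℤ) ≤ ((comp ω v).ncard : ℕ) := by exact_mod_cast hm
    have h2 : |j| * 1 ≤ |j| * (((comp ω v).ncard : ℕ) : ℤ) :=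
      mul_le_mul_of_nonneg_left h1 (abs_nonneg j)
    have h3 := neg_abs_le j
    linarith
  obtain ⟨l, hl⟩ := Int.eq_ofNat_of_zero_le hk
  rw [← cycP_add_mul ω v (j + i) k, ← cycP_add_mul ω v j k,
    show j + (i : ℤ) + k * ((comp ω v).ncard : ℕ) = ((l + i : ℕ) : ℤ) by push_cast; rw [← hl]; ring,
    hl, cycP_nat hω hv, cycP_nat hω hv, add_comm, iterate_add_apply]

theorem cycP_succ (hω : ω ∈ DD V) {v : Pt} (hv : v ∈ V) (j : ℤ) :
    cycP ω v (j + 1) = SW.suc ω (cycP ω v j) := by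
  have := cycP_add hω hv j 1
  simpa using this

theorem cycP_mem (hω : ω ∈ DD V) {v : Pt} (hv : v ∈ V) (j : ℤ) : cycP ω v j ∈ V :=
  iter_mem hω hv _

theorem cycP_comp (ω : Conf) (v : Pt) (j : ℤ) : cycP ω v j ∈ comp ω v := iter_comp ω v _

theorem cycP_adj (hω : ω ∈ DD V) {v : Pt} (hv : v ∈ V) (j : ℤ) :
    Adj (cycP ω v j) (cycP ω v (j + 1)) := by
  rw [cycP_succ hω hv]
  exact suc_adj hω (cycP_mem hω hv j)

theorem cycP_inj (hω : ω ∈ DD V) {v : Pt} (hv : v ∈ V) {i j : ℤ}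
    (h : cycP ω v i = cycP ω v j) : (((comp ω v).ncard : ℕ) : ℤ) ∣ i - j := by
  have hm : (0 : ℤ) < (((comp ω v).ncard : ℕ) : ℤ) := by exact_mod_cast ncard_pos hω hv
  unfold cycP at h
  have h1 := iter_injOn hω hv (i := (i % ((comp ω v).ncard : ℤ)).toNat)
    (j := (j % ((comp ω v).ncard : ℤ)).toNat) ?_ ?_ h
  · have h2 : i % ((comp ω v).ncard : ℤ) = j % ((comp ω v).ncard : ℤ) := by
      have a1 := Int.emod_nonneg i hm.ne'
      have a2 := Int.emod_nonneg j hm.ne'
      have := congrArg (fun n : ℕ => (n : ℤ)) h1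
      simpa [Int.toNat_of_nonneg a1, Int.toNat_of_nonneg a2] using this
    exact Int.ModEq.dvd (show j ≡ i [ZMOD _] from h2.symm)
  · have a1 := Int.emod_nonneg i hm.ne'
    have a2 := Int.emod_lt_of_pos i hm
    omega
  · have a1 := Int.emod_nonneg j hm.ne'
    have a2 := Int.emod_lt_of_pos j hm
    omega

theorem exists_cycP (hω : ω ∈ DD V) {v u : Pt} (hv : v ∈ V) (hu : u ∈ comp ω v) :
    ∃ j : ℤ, cycP ω v j = u := by
  obtain ⟨i, -, hi⟩ := exists_iter hω hv hu
  exact ⟨i, by rw [cycP_nat hω hv, hi]⟩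

theorem dist_pt {δ : ℝ} (hδ : 0 < δ) (a : ℂ) {u v : Pt} (h : Adj u v) :
    dist (pt δ a u) (pt δ a v) = δ := by
  have hc : pt δ a u - pt δ a v =
      δ * (((u.1 - v.1 : ℤ) : ℂ) + ((u.2 - v.2 : ℤ) : ℂ) * Complex.I) := by
    unfold pt
    push_cast
    ring
  rw [dist_eq_norm, hc, norm_mul, Complex.norm_real, Real.norm_of_nonneg hδ.le]
  have hn : ‖(((u.1 - v.1 : ℤ) : ℂ) + ((u.2 - v.2 : ℤ) : ℂ) * Complex.I)‖ = 1 := by
    rw [Adj] at h
    have hcase : (|u.1 - v.1| = 1 ∧ u.2 - v.2 = 0) ∨ (u.1 - v.1 = 0 ∧ |u.2 - v.2| = 1) := by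
      rcases abs_cases (u.1 - v.1) with ⟨h1, _⟩ | ⟨h1, _⟩ <;>
        rcases abs_cases (u.2 - v.2) with ⟨h2, _⟩ | ⟨h2, _⟩ <;> rw [h1, h2] at h <;> omega
    rcases hcase with ⟨h1, h2⟩ | ⟨h1, h2⟩
    · rw [h2]
      simp only [Int.cast_zero, zero_mul, add_zero]
      rw [Complex.norm_intCast]
      exact_mod_cast h1
    · rw [h1]
      simp only [Int.cast_zero, zero_add, norm_mul, Complex.norm_I, mul_one]
      rw [Complex.norm_intCast]
      exact_mod_cast h2
  rw [hn, mul_one]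

end Vale.Agent.P155.Q1
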