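import Vale.Agent.P155.H878.Q1Stmt

/-!
# P155, literal Q1: what is needed from the block TIGHT

Everything is stated for Temperleyan approximations `S` of `Ω` and for fixed macroscopic
rectangles; `p, q : Pt → ℤ` are the two coordinates, in one of the two orders
(`Prod.fst, Prod.snd`: horizontal crossings; `Prod.snd, Prod.fst`: vertical crossings).
-/

namespace Vale.Agent.P155.Q1

open Topology Filter MeasureTheory TopologicalSpace Vale.Agent.P155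

/-- `v, suc v, …, suc^m v` is a strand of a loop which crosses the lattice rectangle
`{p0 ≤ p ≤ p1, q0 ≤ q ≤ q1}` in the `p` direction (in either sense). -/
structure Strand (p q : Pt → ℤ) (ω : Conf) (p0 p1 q0 q1 : ℤ) (v : Pt) (m : ℕ) : Prop where
  loop : ω.1 v ≠ ω.2 v
  qmem : ∀ j ≤ m, q0 ≤ q ((SW.suc ω)^[j] v) ∧ q ((SW.suc ω)^[j] v) ≤ q1
  pmem : ∀ j, 0 < j → j < m → p0 < p ((SW.suc ω)^[j] v) ∧ p ((SW.suc ω)^[j] v) < p1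
  ends : (p v = p0 ∧ p ((SW.suc ω)^[m] v) = p1) ∨ (p v = p1 ∧ p ((SW.suc ω)^[m] v) = p0)

/-- The highest edge of the strand in the column `X` (edges from `p = X` to `p = X + 1`). -/
noncomputable def topS (p q : Pt → ℤ) (ω : Conf) (v : Pt) (m : ℕ) (X : ℤ) : ℤ :=
  sSup {Y : ℤ | ∃ j < m, q ((SW.suc ω)^[j] v) = Y ∧ q ((SW.suc ω)^[j + 1] v) = Y ∧
    min (p ((SW.suc ω)^[j] v)) (p ((SW.suc ω)^[j + 1] v)) = X ∧
    max (p ((SW.suc ω)^[j] v)) (p ((SW.suc ω)^[j + 1] v)) = X + 1}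

/-- The coordinate functions of `ℂ` in the same order as `p, q`. -/
structure Dir where
  p : Pt → ℤ
  q : Pt → ℤ
  P : ℂ → ℝ
  Q : ℂ → ℝ

/-- horizontal crossings -/
def hor : Dir := ⟨Prod.fst, Prod.snd, Complex.re, Complex.im⟩

/-- vertical crossings -/
def ver : Dir := ⟨Prod.snd, Prod.fst, Complex.im, Complex.re⟩

/-- the closed rectangle `{r0 ≤ P ≤ r1, s0 ≤ Q ≤ s1}` -/
def Dir.rect (d : Dir) (r0 r1 s0 s1 : ℝ) : Set ℂ :=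
  {z | r0 ≤ d.P z ∧ d.P z ≤ r1 ∧ s0 ≤ d.Q z ∧ d.Q z ≤ s1}

/-- lattice coordinate of the real number `r` in direction `P` -/
noncomputable def Dir.lp (d : Dir) (δ : ℝ) (a : ℂ) (r : ℝ) : ℤ := ⌊(r - d.P a) / δ⌋

/-- lattice coordinate of the real number `s` in direction `Q` -/
noncomputable def Dir.lq (d : Dir) (δ : ℝ) (a : ℂ) (s : ℝ) : ℤ := ⌊(s - d.Q a) / δ⌋

/-- the strand `(v, m)` crosses the rectangle `{r0 ≤ P ≤ r1, s0 ≤ Q ≤ s1}` in direction `P` -/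
def Dir.Crosses (d : Dir) (δ : ℝ) (a : ℂ) (ω : Conf) (r0 r1 s0 s1 : ℝ) (v : Pt) (m : ℕ) : Prop :=
  Strand d.p d.q ω (d.lp δ a r0) (d.lp δ a r1) (d.lq δ a s0) (d.lq δ a s1) v m

/-- **CROSS**: the number of strands crossing a rectangle inside `Ω` is tight. -/
def CROSS (d : Dir) : Prop :=
  ∀ Ω : Set ℂ, IsOpen Ω → Bornology.IsBounded Ω → Ω.Nonempty → SimplyConnectedSpace Ω →
  ∀ S : TempApprox Ω, ∀ r0 r1 s0 s1 : ℝ, r0 < r1 → s0 < s1 → d.rect r0 r1 s0 s1 ⊆ Ω →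
  ∀ ε : ℝ, 0 < ε → ∃ M : ℕ, ∀ᶠ n in atTop,
    Pr (S.T n).V (fun ω => M < Set.ncard {v | ∃ m, d.Crosses (S.δ n) (S.a n) ω r0 r1 s0 s1 v m}) ≤ ε

/-- **FAT**: a loop with a strand crossing the rectangle `R = {r0 ≤ P ≤ r1, s0 ≤ Q ≤ s1}` inside
`Ω` surrounds a macroscopic area in any slightly larger rectangle
`{r0' ≤ P ≤ r1', s0' ≤ Q ≤ s1'} ⊆ Ω`. -/
def FAT (d : Dir) : Prop :=
  ∀ Ω : Set ℂ, IsOpen Ω → Bornology.IsBounded Ω → Ω.Nonempty → SimplyConnectedSpace Ω →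
  ∀ S : TempApprox Ω, ∀ r0 r1 s0 s1 r0' r1' s0' s1' : ℝ, r0 < r1 → s0 < s1 →
  r0' < r0 → r1 < r1' → s0' < s0 → s1 < s1' → d.rect r0' r1' s0' s1' ⊆ Ω →
  ∀ ε : ℝ, 0 < ε → ∃ α : ℝ, 0 < α ∧ ∀ᶠ n in atTop,
    Pr (S.T n).V (fun ω => ∃ v m, d.Crosses (S.δ n) (S.a n) ω r0 r1 s0 s1 v m ∧
      (S.δ n) ^ 2 * Set.ncard {f : Pt | surr ω (comp ω v) f ∧
        sqr (S.δ n) (S.a n) f ⊆ d.rect r0' r1' s0' s1'} < α) ≤ ε

/-- **TOP**: the tops of two different strands of one loop, crossing the rectangle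
`{r0 ≤ P ≤ r1, s0 ≤ Q ≤ s1}` inside `Ω`, are macroscopically far in `L¹` of the middle columns
`r0' ≤ P ≤ r1'`. -/
def TOP (d : Dir) : Prop :=
  ∀ Ω : Set ℂ, IsOpen Ω → Bornology.IsBounded Ω → Ω.Nonempty → SimplyConnectedSpace Ω →
  ∀ S : TempApprox Ω, ∀ r0 r0' r1' r1 s0 s1 : ℝ, r0 < r0' → r0' < r1' → r1' < r1 → s0 < s1 →
  d.rect r0 r1 s0 s1 ⊆ Ω →
  ∀ ε : ℝ, 0 < ε → ∃ α : ℝ, 0 < α ∧ ∀ᶠ n in atTop,
    Pr (S.T n).V (fun ω => ∃ v m v' m', d.Crosses (S.δ n) (S.a n) ω r0 r1 s0 s1 v m ∧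
      d.Crosses (S.δ n) (S.a n) ω r0 r1 s0 s1 v' m' ∧ v ≠ v' ∧ Same ω v v' ∧
      (S.δ n) ^ 2 * ∑ X ∈ Finset.Ico (d.lp (S.δ n) (S.a n) r0') (d.lp (S.δ n) (S.a n) r1'),
        |(topS d.p d.q ω v m X : ℝ) - topS d.p d.q ω v' m' X| < α) ≤ ε

/-- **BD**: no macroscopic piece of a loop stays near the boundary. -/
def BD : Prop :=
  ∀ Ω : Set ℂ, IsOpen Ω → Bornology.IsBounded Ω → Ω.Nonempty → SimplyConnectedSpace Ω →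
  ∀ S : TempApprox Ω, ∀ ρ : ℝ, 0 < ρ → ∀ ε : ℝ, 0 < ε → ∃ η : ℝ, 0 < η ∧ ∀ᶠ n in atTop,
    Pr (S.T n).V (fun ω => ∃ v m, ω.1 v ≠ ω.2 v ∧
      (∀ j ≤ m, Metric.infDist (pt (S.δ n) (S.a n) ((SW.suc ω)^[j] v)) (frontier Ω) ≤ η) ∧
      ∃ i ≤ m, ∃ j ≤ m, ρ ≤ dist (pt (S.δ n) (S.a n) ((SW.suc ω)^[i] v))
        (pt (S.δ n) (S.a n) ((SW.suc ω)^[j] v))) ≤ ε

/-- **BDL**: no macroscopic loop is contained in a small neighbourhood of the boundary. -/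
def BDL : Prop :=
  ∀ Ω : Set ℂ, IsOpen Ω → Bornology.IsBounded Ω → Ω.Nonempty → SimplyConnectedSpace Ω →
  ∀ S : TempApprox Ω, ∀ ρ : ℝ, 0 < ρ → ∀ ε : ℝ, 0 < ε → ∃ η : ℝ, 0 < η ∧ ∀ᶠ n in atTop,
    Pr (S.T n).V (fun ω => ∃ v, ω.1 v ≠ ω.2 v ∧
      (∀ u ∈ comp ω v, Metric.infDist (pt (S.δ n) (S.a n) u) (frontier Ω) ≤ η) ∧
      ∃ x ∈ comp ω v, ∃ y ∈ comp ω v, ρ ≤ dist (pt (S.δ n) (S.a n) x)
        (pt (S.δ n) (S.a n) y)) ≤ ε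

end Vale.Agent.P155.Q1
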