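import Vale.Agent.P155.H878.Hit

/-!
# P155, literal Q1: coordinates, polygonal curves
-/

namespace Vale.Agent.P155.Q1

open Topology Filter MeasureTheory TopologicalSpace Vale.Agent.P155 LatCycle

theorem poly_near (x : ℤ → ℂ) (t : ℝ) : dist (poly x t) (x ⌊t⌋) ≤ dist (x (⌊t⌋ + 1)) (x ⌊t⌋) := by
  unfold poly
  rw [dist_eq_norm, dist_eq_norm, add_sub_cancel_left, norm_mul, Complex.norm_real,
    Real.norm_of_nonneg (sub_nonneg.2 (Int.floor_le t))]
  have h1 : t - ⌊t⌋ ≤ 1 := by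
    have := Int.lt_floor_add_one t
    linarith
  exact mul_le_of_le_one_left (norm_nonneg _) h1

theorem cyc_step {V : Finset Pt} {ω : Conf} (hω : ω ∈ DD V) {δ : ℝ} (hδ : 0 < δ) (a : ℂ) {v : Pt}
    (hv : v ∈ V) (j : ℤ) : dist (cyc δ a ω v (j + 1)) (cyc δ a ω v j) = δ := by
  rw [cyc_eq, cyc_eq, dist_comm]
  exact dist_pt hδ a (cycP_adj hω hv j)

/-- a loop of large diameter has two vertices far apart -/
theorem exists_far {V : Finset Pt} {ω : Conf} (hω : ω ∈ DD V) {δ : ℝ} (hδ : 0 < δ) (a : ℂ) {v : Pt}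
    (hv : v ∈ V) {ε : ℝ} (hε : 0 < ε) (hδε : 4 * δ < ε) (h : ε ≤ (lcurve δ a ω v).diam) :
    ∃ i < (comp ω v).ncard, ∃ i' < (comp ω v).ncard, ε / 2 ≤ dist (pt δ a ((SW.suc ω)^[i] v))
      (pt δ a ((SW.suc ω)^[i'] v)) := by
  by_contra hcon
  push Not at hcon
  have hvert : ∀ i i' : ℤ, dist (cyc δ a ω v i) (cyc δ a ω v i') < ε / 2 := by
    intro i i'
    obtain ⟨k, hk, hk'⟩ := exists_iter hω hv (cycP_comp ω v i)
    obtain ⟨l, hl, hl'⟩ := exists_iter hω hv (cycP_comp ω v i')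
    rw [cyc_eq, cyc_eq, ← hk', ← hl']
    exact hcon k hk l hl
  have hd : (lcurve δ a ω v).diam ≤ ε / 2 + 2 * δ := by
    refine Metric.diam_le_of_forall_dist_le (by positivity) ?_
    rintro _ ⟨s, rfl⟩ _ ⟨t, rfl⟩
    obtain ⟨s, rfl⟩ := QuotientAddGroup.mk_surjective s
    obtain ⟨t, rfl⟩ := QuotientAddGroup.mk_surjective t
    have e1 := polyLoop_coe (comp ω v).ncard (cyc δ a ω v) (cyc_periodic δ a ω v) s
    have e2 := polyLoop_coe (comp ω v).ncard (cyc δ a ω v) (cyc_periodic δ a ω v) t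
    have h1 := poly_near (cyc δ a ω v) ((comp ω v).ncard * s)
    have h2 := poly_near (cyc δ a ω v) ((comp ω v).ncard * t)
    rw [cyc_step hω hδ a hv] at h1 h2
    have h3 := hvert ⌊((comp ω v).ncard : ℝ) * s⌋ ⌊((comp ω v).ncard : ℝ) * t⌋
    have h4 := dist_triangle4 (poly (cyc δ a ω v) ((comp ω v).ncard * s))
      (cyc δ a ω v ⌊((comp ω v).ncard : ℝ) * s⌋) (cyc δ a ω v ⌊((comp ω v).ncard : ℝ) * t⌋)
      (poly (cyc δ a ω v) ((comp ω v).ncard * t))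
    rw [dist_comm (cyc δ a ω v ⌊((comp ω v).ncard : ℝ) * t⌋)] at h4
    show dist ((polyLoop (comp ω v).ncard (cyc δ a ω v) (cyc_periodic δ a ω v)).c (s : S1))
      ((polyLoop (comp ω v).ncard (cyc δ a ω v) (cyc_periodic δ a ω v)).c (t : S1)) ≤ _
    rw [e1, e2]
    linarith
  linarith

theorem pt_re (δ : ℝ) (a : ℂ) (v : Pt) : (pt δ a v).re = a.re + δ * v.1 := by
  simp [pt]

theorem pt_im (δ : ℝ) (a : ℂ) (v : Pt) : (pt δ a v).im = a.im + δ * v.2 := by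
  simp [pt]

end Vale.Agent.P155.Q1
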