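import Vale.Agent.P155.H878.Match

/-!
# P155, literal Q1: the deterministic theorem `det : DET` is in `Match.lean`
-/
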