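import Vale.Agent.P155.H878.Coord
import Vale.Agent.P155.K.Bridge

/-!
# P155, literal Q1: `STR` and `CNT`
-/

namespace Vale.Agent.P155.Q1

open Topology Filter MeasureTheory TopologicalSpace Vale.Agent.P155 LatCycle

/-! ### a discrete intermediate value theorem -/

theorem exists_cross_up {x : ℕ → ℤ} {m : ℕ} {p0 p1 : ℤ} (h01 : p0 < p1)
    (hst : ∀ i, i < m → |x (i + 1) - x i| ≤ 1) (h0 : x 0 ≤ p0) (h1 : p1 ≤ x m) :
    ∃ i m', i + m' ≤ m ∧ 0 < m' ∧ x i = p0 ∧ x (i + m') = p1 ∧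
      ∀ k, 0 < k → k < m' → p0 < x (i + k) ∧ x (i + k) < p1 := by
  classical
  have hex : ∃ i, p1 ≤ x i := ⟨m, h1⟩
  set B := Nat.find hex with hB
  have hB1 : p1 ≤ x B := Nat.find_spec hex
  have hBm : B ≤ m := Nat.find_min' hex h1
  have hBmin : ∀ i, i < B → x i < p1 := fun i hi => not_le.1 (Nat.find_min hex hi)
  have hB0 : 0 < B := by
    rcases Nat.eq_zero_or_pos B with h | h
    · rw [h] at hB1
      omega
    · exact h
  have hBe : x B = p1 := by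
    obtain ⟨b, hb⟩ : ∃ b, B = b + 1 := ⟨B - 1, by omega⟩
    have h2 := hBmin b (by omega)
    have h3 := hst b (by omega)
    rw [← hb] at h3
    have h4 := (abs_le.1 h3).2
    omega
  set A := Nat.findGreatest (fun i => x i ≤ p0) B with hA
  have hA1 : x A ≤ p0 := Nat.findGreatest_spec (P := fun i => x i ≤ p0) (Nat.zero_le B) h0
  have hAB : A ≤ B := Nat.findGreatest_le B
  have hAB' : A < B := by
    rcases hAB.lt_or_eq with h | h
    · exact h
    · rw [h] at hA1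
      omega
  have hAmax : ∀ i, A < i → i ≤ B → p0 < x i := fun i h2 h3 =>
    not_le.1 (Nat.findGreatest_is_greatest h2 h3)
  have hAe : x A = p0 := by
    have h2 := hAmax (A + 1) (by omega) (by omega)
    have h3 := (abs_le.1 (hst A (by omega))).2
    omega
  refine ⟨A, B - A, by omega, by omega, hAe, ?_, ?_⟩
  · rw [show A + (B - A) = B by omega]
    exact hBe
  · intro k hk hk'
    exact ⟨hAmax _ (by omega) (by omega), hBmin _ (by omega)⟩

theorem exists_cross_down {x : ℕ → ℤ} {m : ℕ} {p0 p1 : ℤ} (h01 : p0 < p1)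
    (hst : ∀ i, i < m → |x (i + 1) - x i| ≤ 1) (h0 : p1 ≤ x 0) (h1 : x m ≤ p0) :
    ∃ i m', i + m' ≤ m ∧ 0 < m' ∧ x i = p1 ∧ x (i + m') = p0 ∧
      ∀ k, 0 < k → k < m' → p0 < x (i + k) ∧ x (i + k) < p1 := by
  obtain ⟨i, m', h2, h3, h4, h5, h6⟩ := exists_cross_up (x := fun i => - x i) (m := m) (p0 := -p1)
    (p1 := -p0) (by omega) (fun i hi => by
      have := hst i hi
      rw [show -x (i + 1) - -x i = -(x (i + 1) - x i) by ring, abs_neg]
      exact this) (by simpa using h0) (by simpa using h1)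
  refine ⟨i, m', h2, h3, by simpa using h4, by simpa using h5, ?_⟩
  intro k hk hk'
  have h8 : -p1 < -x (i + k) ∧ -x (i + k) < -p0 := h6 k hk hk'
  omega

/-! ### coordinates -/

theorem P_pt {d : Dir} (hd : d = hor ∨ d = ver) (δ : ℝ) (a : ℂ) (v : Pt) :
    d.P (pt δ a v) = d.P a + δ * d.p v := by
  rcases hd with rfl | rfl
  exacts [pt_re δ a v, pt_im δ a v]

theorem Q_pt {d : Dir} (hd : d = hor ∨ d = ver) (δ : ℝ) (a : ℂ) (v : Pt) :
    d.Q (pt δ a v) = d.Q a + δ * d.q v := by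
  rcases hd with rfl | rfl
  exacts [pt_im δ a v, pt_re δ a v]

theorem adj_p {d : Dir} (hd : d = hor ∨ d = ver) {u v : Pt} (h : Adj u v) :
    |d.p v - d.p u| ≤ 1 := by
  have h1 := abs_nonneg (u.1 - v.1)
  have h2 := abs_nonneg (u.2 - v.2)
  unfold Adj at h
  rcases hd with rfl | rfl
  · show |v.1 - u.1| ≤ 1
    rw [abs_sub_comm]
    omega
  · show |v.2 - u.2| ≤ 1
    rw [abs_sub_comm]
    omega

/-- a piece of a loop which stays in the `Q` range and passes from one side to the other contains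
a crossing strand -/
theorem exists_crosses {V : Finset Pt} {ω : Conf} (hω : ω ∈ DD V) {δ : ℝ} (hδ : 0 < δ) (a : ℂ)
    {d : Dir} (hd : d = hor ∨ d = ver) {r0 r1 s0 s1 : ℝ} (hr : r0 + δ < r1) {v : Pt}
    (hv : ω.1 v ≠ ω.2 v) {m : ℕ}
    (hQ : ∀ i ≤ m, s0 ≤ d.Q (pt δ a ((SW.suc ω)^[i] v)) ∧ d.Q (pt δ a ((SW.suc ω)^[i] v)) ≤ s1)
    (hP : (d.P (pt δ a v) ≤ r0 ∧ r1 ≤ d.P (pt δ a ((SW.suc ω)^[m] v))) ∨
      (r1 ≤ d.P (pt δ a v) ∧ d.P (pt δ a ((SW.suc ω)^[m] v)) ≤ r0)) :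
    ∃ i m', i + m' ≤ m ∧ 0 < m' ∧ d.Crosses δ a ω r0 r1 s0 s1 ((SW.suc ω)^[i] v) m' := by
  have hvV : v ∈ V := mem_V_of_loop hω hv
  set p0 := d.lp δ a r0 with hp0
  set p1 := d.lp δ a r1 with hp1
  have h01 : p0 < p1 := by
    rw [hp0, hp1]
    unfold Dir.lp
    have h1 : (r0 - d.P a) / δ + 1 < (r1 - d.P a) / δ := by
      rw [div_add_one hδ.ne', div_lt_div_iff_of_pos_right hδ]
      linarith
    have h2 := Int.floor_add_one ((r0 - d.P a) / δ)
    have h3 := Int.floor_le_floor h1.le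
    omega
  have hle : ∀ {u : Pt} {r : ℝ}, d.P (pt δ a u) ≤ r → d.p u ≤ d.lp δ a r := by
    intro u r h
    rw [P_pt hd] at h
    unfold Dir.lp
    rw [Int.le_floor, le_div_iff₀ hδ]
    linarith
  have hge : ∀ {u : Pt} {r : ℝ}, r ≤ d.P (pt δ a u) → d.lp δ a r ≤ d.p u := by
    intro u r h
    rw [P_pt hd] at h
    unfold Dir.lp
    have h1 : (r - d.P a) / δ ≤ d.p u := by
      rw [div_le_iff₀ hδ]
      linarith
    exact_mod_cast (Int.floor_le _).trans h1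
  have hqle : ∀ {u : Pt} {s : ℝ}, d.Q (pt δ a u) ≤ s → d.q u ≤ d.lq δ a s := by
    intro u r h
    rw [Q_pt hd] at h
    unfold Dir.lq
    rw [Int.le_floor, le_div_iff₀ hδ]
    linarith
  have hqge : ∀ {u : Pt} {s : ℝ}, s ≤ d.Q (pt δ a u) → d.lq δ a s ≤ d.q u := by
    intro u r h
    rw [Q_pt hd] at h
    unfold Dir.lq
    have h1 : (r - d.Q a) / δ ≤ d.q u := by
      rw [div_le_iff₀ hδ]
      linarith
    exact_mod_cast (Int.floor_le _).trans h1
  have hst : ∀ i, i < m → |d.p ((SW.suc ω)^[i + 1] v) - d.p ((SW.suc ω)^[i] v)| ≤ 1 := fun i _ =>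
    adj_p hd (iter_adj hω hvV i)
  have key : ∃ i m', i + m' ≤ m ∧ 0 < m' ∧
      ((d.p ((SW.suc ω)^[i] v) = p0 ∧ d.p ((SW.suc ω)^[i + m'] v) = p1) ∨
        (d.p ((SW.suc ω)^[i] v) = p1 ∧ d.p ((SW.suc ω)^[i + m'] v) = p0)) ∧
      ∀ k, 0 < k → k < m' → p0 < d.p ((SW.suc ω)^[i + k] v) ∧ d.p ((SW.suc ω)^[i + k] v) < p1 := by
    rcases hP with ⟨h1, h2⟩ | ⟨h1, h2⟩
    · obtain ⟨i, m', h3, h4, h5, h6, h7⟩ := exists_cross_up (x := fun i => d.p ((SW.suc ω)^[i] v))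
        h01 hst (hle h1) (hge h2)
      exact ⟨i, m', h3, h4, Or.inl ⟨h5, h6⟩, h7⟩
    · obtain ⟨i, m', h3, h4, h5, h6, h7⟩ := exists_cross_down (x := fun i => d.p ((SW.suc ω)^[i] v))
        h01 hst (hge h1) (hle h2)
      exact ⟨i, m', h3, h4, Or.inr ⟨h5, h6⟩, h7⟩
  obtain ⟨i, m', h3, h4, h5, h6⟩ := key
  refine ⟨i, m', h3, h4, ?_⟩
  have hit : ∀ k, (SW.suc ω)^[k] ((SW.suc ω)^[i] v) = (SW.suc ω)^[i + k] v := by
    intro k
    rw [add_comm, Function.iterate_add_apply]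
  refine ⟨?_, ?_, ?_, ?_⟩
  · exact P155.L.loop_ne hω (comp_mem_Loops hv) (iter_comp ω v i)
  · intro k hk
    rw [hit]
    exact ⟨hqge (hQ _ (by omega)).1, hqle (hQ _ (by omega)).2⟩
  · intro k hk hk'
    rw [hit]
    exact h6 k hk hk'
  · rw [hit]
    exact h5

theorem pt_mem_region {T : Temp} {δ : ℝ} (hδ : 0 < δ) (a : ℂ) {v : Pt} (hv : v ∈ T.V) :
    pt δ a v ∈ region δ a T.faceSet := by
  obtain ⟨f, hf, h1, h2, h3, h4⟩ := (A1.mem_V.1 hv).1
  have : ∃ F ∈ T.faceSet, corner v F := by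
    refine ⟨(min v.1 (2 * f.1 + 1), min v.2 (2 * f.2 + 1)), ⟨f, hf, ?_⟩, ?_⟩
    · simp only
      omega
    · unfold corner
      simp only
      omega
  obtain ⟨F, hF, hc⟩ := this
  unfold region
  rw [Set.mem_iUnion₂]
  exact ⟨F, hF, pt_mem_sqr hδ hc⟩

/-! ### the finite family of rectangles -/

def fam (Ω : Set ℂ) (κ : ℝ) (h : ℚ) : Set RR :=
  {R | (R.d = hor ∨ R.d = ver) ∧ (∃ k l : ℤ, R.r0 = k * h ∧ R.r1 = (k + 1) * h ∧ R.s0 = l * h ∧
    R.s1 = (l + 20) * h) ∧ R.big ⊆ Ω ∧ Metric.diam R.big ≤ κ}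

theorem exists_PQ {d : Dir} (hd : d = hor ∨ d = ver) (x y : ℝ) : ∃ z : ℂ, d.P z = x ∧ d.Q z = y := by
  rcases hd with rfl | rfl
  exacts [⟨⟨x, y⟩, rfl, rfl⟩, ⟨⟨y, x⟩, rfl, rfl⟩]

theorem abs_P_le {d : Dir} (hd : d = hor ∨ d = ver) (z : ℂ) : |d.P z| ≤ ‖z‖ := by
  rcases hd with rfl | rfl
  exacts [Complex.abs_re_le_norm z, Complex.abs_im_le_norm z]

theorem abs_Q_le {d : Dir} (hd : d = hor ∨ d = ver) (z : ℂ) : |d.Q z| ≤ ‖z‖ := by
  rcases hd with rfl | rfl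
  exacts [Complex.abs_im_le_norm z, Complex.abs_re_le_norm z]

theorem dist_le_PQ {d : Dir} (hd : d = hor ∨ d = ver) (z w : ℂ) :
    dist z w ≤ |d.P z - d.P w| + |d.Q z - d.Q w| := by
  have h := Complex.norm_le_abs_re_add_abs_im (z - w)
  rw [dist_eq_norm]
  rcases hd with rfl | rfl
  · exact h
  · rw [add_comm]
    exact h

theorem fam_finite {Ω : Set ℂ} (hb : Bornology.IsBounded Ω) (κ : ℝ) {h : ℚ} (hh : 0 < h) :
    (fam Ω κ h).Finite := by
  obtain ⟨C, hC⟩ := hb.subset_closedBall (0 : ℂ)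
  obtain ⟨K, hK⟩ := exists_nat_ge (C / h)
  have hhR : (0 : ℝ) < h := by exact_mod_cast hh
  have hfin : ((fun p : Bool × ℤ × ℤ => (⟨if p.1 then hor else ver, p.2.1 * h, (p.2.1 + 1) * h,
      p.2.2 * h, (p.2.2 + 20) * h⟩ : RR)) ''
      (Set.univ ×ˢ (Set.Icc (-(K : ℤ)) K ×ˢ Set.Icc (-(K : ℤ)) K))).Finite := by
    apply Set.Finite.image
    exact Set.finite_univ.prod ((Set.finite_Icc _ _).prod (Set.finite_Icc _ _))
  refine hfin.subset ?_
  rintro ⟨d, r0, r1, s0, s1⟩ ⟨hd, ⟨k, l, h1, h2, h3, h4⟩, hbig, -⟩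
  simp only at hd h1 h2 h3 h4
  subst h1 h2 h3 h4
  obtain ⟨z, hz1, hz2⟩ := exists_PQ hd ((k : ℝ) * h) ((l : ℝ) * h)
  have hz : z ∈ Ω := by
    apply hbig
    unfold RR.big Dir.rect
    simp only [Set.mem_ofPred_eq, hz1, hz2]
    push_cast
    refine ⟨?_, ?_, ?_, ?_⟩ <;> nlinarith
  have hzC : ‖z‖ ≤ C := by simpa using hC hz
  have hk : |(k : ℝ)| ≤ K := by
    have e1 := (abs_P_le hd z).trans hzC
    rw [hz1, abs_mul, abs_of_pos hhR, ← le_div_iff₀ hhR] at e1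
    exact e1.trans hK
  have hl : |(l : ℝ)| ≤ K := by
    have e1 := (abs_Q_le hd z).trans hzC
    rw [hz2, abs_mul, abs_of_pos hhR, ← le_div_iff₀ hhR] at e1
    exact e1.trans hK
  rw [abs_le] at hk hl
  obtain ⟨b, hb⟩ : ∃ b : Bool, (if b = true then hor else ver) = d := by
    rcases hd with rfl | rfl
    exacts [⟨true, rfl⟩, ⟨false, rfl⟩]
  refine ⟨(b, k, l), ⟨trivial, ⟨?_, ?_⟩, ?_, ?_⟩, ?_⟩
  · exact_mod_cast hk.1
  · exact_mod_cast hk.2
  · exact_mod_cast hl.1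
  · exact_mod_cast hl.2
  · simp only [RR.mk.injEq, and_true]
    exact hb

/-- rectangles of the family around a point deep inside `Ω` -/
theorem mem_fam {Ω : Set ℂ} {κ : ℝ} {h : ℚ} (hh : 0 < h) {d : Dir} (hd : d = hor ∨ d = ver) {z : ℂ}
    (hball : Metric.closedBall z (16 * h) ⊆ Ω) (hκ : 32 * (h : ℝ) ≤ κ) {k l : ℤ}
    (hk1 : d.P z - 2 * h ≤ k * h) (hk2 : (k : ℝ) * h ≤ d.P z + h)
    (hl1 : d.Q z - 10 * h ≤ l * h) (hl2 : (l : ℝ) * h ≤ d.Q z - 9 * h) :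
    (⟨d, k * h, (k + 1) * h, l * h, (l + 20) * h⟩ : RR) ∈ fam Ω κ h := by
  have hhR : (0 : ℝ) < h := by exact_mod_cast hh
  have hsub : (⟨d, k * h, (k + 1) * h, l * h, (l + 20) * h⟩ : RR).big ⊆
      Metric.closedBall z (16 * h) := by
    intro w hw
    unfold RR.big Dir.rect at hw
    simp only [Set.mem_ofPred_eq] at hw
    push_cast at hw
    obtain ⟨w1, w2, w3, w4⟩ := hw
    rw [Metric.mem_closedBall]
    refine (dist_le_PQ hd w z).trans ?_
    have e1 : |d.P w - d.P z| ≤ 3 * h := abs_le.2 ⟨by linarith, by linarith⟩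
    have e2 : |d.Q w - d.Q z| ≤ 12 * h := abs_le.2 ⟨by linarith, by linarith⟩
    linarith
  refine ⟨hd, ⟨k, l, rfl, rfl, rfl, rfl⟩, hsub.trans hball, ?_⟩
  refine (Metric.diam_mono hsub Metric.isBounded_closedBall).trans ?_
  refine (Metric.diam_closedBall (by positivity)).trans ?_
  linarith

theorem mem_of_infDist {Ω : Set ℂ} {S : TempApprox Ω} {n : ℕ → ℕ} {ω : ℕ → Conf}
    {G : ℕ → NonemptyCompacts ℂ} (hg : Good Ω S n ω G) {η : ℝ} (hη : 0 < η) :
    ∀ᶠ j in atTop, ∀ v ∈ (S.T (n j)).V,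
      η < Metric.infDist (pt (S.δ (n j)) (S.a (n j)) v) (frontier Ω) →
      pt (S.δ (n j)) (S.a (n j)) v ∈ Ω := by
  filter_upwards [hg.lim.eventually (S.outer η hη)] with j hj v hv hd
  by_contra hcon
  obtain ⟨y, hy, hyd⟩ := Metric.mem_thickening_iff.1 (hj (pt_mem_region (S.pos _) _ hv))
  obtain ⟨w, hw, hwd⟩ := K.segment_frontier hy hcon
  have h1 := Metric.infDist_le_dist_of_mem (x := pt (S.δ (n j)) (S.a (n j)) v) hw
  rw [dist_eq_norm] at h1 hyd
  linarith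

/-- pieces of loops at distance `> η` from the boundary -/
theorem str : STR := by
  classical
  intro Ω S n ω G hg η ρ κ hη hρ hκ
  obtain ⟨h, hh0, hh1⟩ := exists_rat_btwn
    (show (0 : ℝ) < min (min (η / 32) (κ / 64)) (ρ / 64) by positivity)
  have hh : 0 < h := by exact_mod_cast hh0
  have hhη : (h : ℝ) < η / 32 := hh1.trans_le ((min_le_left _ _).trans (min_le_left _ _))
  have hhκ : (h : ℝ) < κ / 64 := hh1.trans_le ((min_le_left _ _).trans (min_le_right _ _))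
  have hhρ : (h : ℝ) < ρ / 64 := hh1.trans_le (min_le_right _ _)
  refine ⟨fam Ω κ h, fam_finite hg.bdd κ hh, ?_, ?_⟩
  · rintro ⟨d, r0, r1, s0, s1⟩ ⟨hd, ⟨k, l, h1, h2, h3, h4⟩, hbig, hdi⟩
    simp only at hd h1 h2 h3 h4
    refine ⟨hd, ?_, ?_, hbig, hdi⟩
    · show r0 < r1
      rw [h1, h2]
      linarith
    · show s0 < s1
      rw [h3, h4]
      linarith
  filter_upwards [hg.delta_lt (show (0 : ℝ) < h / 2 by positivity), mem_of_infDist hg hη]
    with j hδj hin v m hv hdeep hfar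
  have hω := hg.mem j
  have hδ := S.pos (n j)
  set δ := S.δ (n j) with hδdef
  set a := S.a (n j) with hadef
  have hvV : v ∈ (S.T (n j)).V := mem_V_of_loop hω hv
  -- the points
  set X : ℕ → ℂ := fun k => pt δ a ((SW.suc (ω j))^[k] v) with hX
  have hstep : ∀ k, dist (X (k + 1)) (X k) ≤ δ := fun k => by
    rw [dist_comm]
    exact (dist_pt hδ a (iter_adj hω hvV k)).le
  obtain ⟨c, hc, i', hi', hii, hd⟩ : ∃ i ≤ m, ∃ i' ≤ m, i < i' ∧ ρ ≤ dist (X i) (X i') := by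
    obtain ⟨i, hi, i', hi', hd⟩ := hfar
    rcases lt_trichotomy i i' with h1 | h1 | h1
    · exact ⟨i, hi, i', hi', h1, hd⟩
    · rw [h1, dist_self] at hd
      linarith
    · exact ⟨i', hi', i, hi, h1, by rw [dist_comm]; exact hd⟩
  have hit : ∀ c k, (SW.suc (ω j))^[k] ((SW.suc (ω j))^[c] v) = (SW.suc (ω j))^[c + k] v := by
    intro c k
    rw [add_comm, Function.iterate_add_apply]
  have hne : ∀ c, (ω j).1 ((SW.suc (ω j))^[c] v) ≠ (ω j).2 ((SW.suc (ω j))^[c] v) := fun c =>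
    P155.L.loop_ne hω (comp_mem_Loops hv) (iter_comp (ω j) v c)
  have hk0d := hdeep c hc
  have hci : c ≤ i' := hii.le
  have hfar2 : ρ / 4 ≤ dist (X i') (X c) := by
    rw [dist_comm]
    linarith
  set z := X c with hz
  have hball : Metric.closedBall z (16 * h) ⊆ Ω := by
    have h1 := hg.ball_sub (k := 0) (w := z) (hin _ (iter_mem hω hvV c) hk0d)
      (r := 16 * h) (by positivity) (by
        rw [hg.zero]
        refine lt_of_lt_of_le ?_ hk0d.le
        linarith)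
    exact h1.trans Set.sdiff_subset
  have hex2 : ∃ k, 4 * (h : ℝ) ≤ |(X (c + k)).re - z.re| ∨ 4 * (h : ℝ) ≤ |(X (c + k)).im - z.im| := by
    refine ⟨i' - c, ?_⟩
    rw [show c + (i' - c) = i' by omega]
    by_contra hcon
    push Not at hcon
    have h1 := Complex.norm_le_abs_re_add_abs_im (X i' - z)
    rw [← dist_eq_norm, Complex.sub_re, Complex.sub_im] at h1
    linarith [hcon.1, hcon.2]
  set j0 := Nat.find hex2 with hj0
  have hj1 : 4 * (h : ℝ) ≤ |(X (c + j0)).re - z.re| ∨ 4 * (h : ℝ) ≤ |(X (c + j0)).im - z.im| :=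
    Nat.find_spec hex2
  have hj2 : j0 ≤ i' - c := by
    apply Nat.find_min' hex2
    rw [show c + (i' - c) = i' by omega]
    by_contra hcon
    push Not at hcon
    have h1 := Complex.norm_le_abs_re_add_abs_im (X i' - z)
    rw [← dist_eq_norm, Complex.sub_re, Complex.sub_im] at h1
    linarith [hcon.1, hcon.2]
  have hj3 : ∀ k, k < j0 → |(X (c + k)).re - z.re| < 4 * h ∧ |(X (c + k)).im - z.im| < 4 * h := by
    intro k hk
    have := Nat.find_min hex2 hk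
    push Not at this
    exact this
  have hj4 : 0 < j0 := by
    rcases Nat.eq_zero_or_pos j0 with h0 | h0
    · rw [h0, add_zero] at hj1
      rw [← hz] at hj1
      simp only [sub_self, abs_zero] at hj1
      rcases hj1 with h1 | h1 <;> linarith
    · exact h0
  have hj5 : ∀ k, k ≤ j0 → |(X (c + k)).re - z.re| ≤ 5 * h ∧ |(X (c + k)).im - z.im| ≤ 5 * h := by
    intro k hk
    rcases hk.lt_or_eq with h1 | h1
    · obtain ⟨h2, h3⟩ := hj3 k h1
      constructor <;> linarith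
    · obtain ⟨h2, h3⟩ := hj3 (j0 - 1) (by omega)
      have h4 := hstep (c + (j0 - 1))
      rw [show c + (j0 - 1) + 1 = c + k by omega, dist_eq_norm] at h4
      have h5 := (Complex.abs_re_le_norm (X (c + k) - X (c + (j0 - 1)))).trans h4
      have h6 := (Complex.abs_im_le_norm (X (c + k) - X (c + (j0 - 1)))).trans h4
      rw [Complex.sub_re] at h5
      rw [Complex.sub_im] at h6
      rw [abs_lt] at h2 h3
      rw [abs_le] at h5 h6 ⊢
      rw [abs_le]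
      refine ⟨⟨?_, ?_⟩, ?_, ?_⟩ <;> linarith [h2.1, h2.2, h3.1, h3.2, h5.1, h5.2, h6.1, h6.2]
  -- the direction
  obtain ⟨d, hd', hdP, hdQ⟩ : ∃ d : Dir, (d = hor ∨ d = ver) ∧
      4 * (h : ℝ) ≤ |d.P (X (c + j0)) - d.P z| ∧ ∀ k ≤ j0, |d.Q (X (c + k)) - d.Q z| ≤ 5 * h := by
    rcases hj1 with h1 | h1
    · exact ⟨hor, Or.inl rfl, h1, fun k hk => (hj5 k hk).2⟩
    · exact ⟨ver, Or.inr rfl, h1, fun k hk => (hj5 k hk).1⟩
  -- the rectangle
  set l : ℤ := ⌊d.Q z / h⌋ - 9 with hl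
  have hl1 : d.Q z - 10 * h ≤ l * h := by
    have h1 := Int.lt_floor_add_one (d.Q z / h)
    rw [div_lt_iff₀ hh0] at h1
    rw [hl]
    push_cast
    linarith
  have hl2 : (l : ℝ) * h ≤ d.Q z - 9 * h := by
    have h1 := Int.floor_le (d.Q z / h)
    rw [le_div_iff₀ hh0] at h1
    rw [hl]
    push_cast
    linarith
  have hQ : ∀ k ≤ j0, (((l : ℚ) * h : ℚ) : ℝ) ≤ d.Q (pt δ a ((SW.suc (ω j))^[k] ((SW.suc (ω j))^[c] v))) ∧
      d.Q (pt δ a ((SW.suc (ω j))^[k] ((SW.suc (ω j))^[c] v))) ≤ ((((l : ℚ) + 20) * h : ℚ) : ℝ) := by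
    intro k hk
    rw [hit]
    have h1 := abs_le.1 (hdQ k hk)
    push_cast
    constructor
    · show (l : ℝ) * h ≤ d.Q (X (c + k))
      linarith [h1.1]
    · show d.Q (X (c + k)) ≤ ((l : ℝ) + 20) * h
      linarith [h1.2]
  obtain ⟨k, hk1, hk2, hP⟩ : ∃ k : ℤ, d.P z - 2 * h ≤ k * h ∧ (k : ℝ) * h ≤ d.P z + h ∧
      ((d.P z ≤ (k : ℝ) * h ∧ ((k : ℝ) + 1) * h ≤ d.P (X (c + j0))) ∨
        (((k : ℝ) + 1) * h ≤ d.P z ∧ d.P (X (c + j0)) ≤ (k : ℝ) * h)) := by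
    rcases le_total 0 (d.P (X (c + j0)) - d.P z) with h1 | h1
    · rw [abs_of_nonneg h1] at hdP
      refine ⟨⌈d.P z / h⌉, ?_, ?_, Or.inl ⟨?_, ?_⟩⟩
      · have h2 := Int.le_ceil (d.P z / h)
        rw [div_le_iff₀ hh0] at h2
        linarith
      · have h2 := Int.ceil_lt_add_one (d.P z / h)
        rw [← sub_lt_iff_lt_add, lt_div_iff₀ hh0] at h2
        linarith
      · have h2 := Int.le_ceil (d.P z / h)
        rw [div_le_iff₀ hh0] at h2
        linarith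
      · have h2 := Int.ceil_lt_add_one (d.P z / h)
        rw [← sub_lt_iff_lt_add, lt_div_iff₀ hh0] at h2
        linarith
    · rw [abs_of_nonpos h1] at hdP
      refine ⟨⌊d.P z / h⌋ - 1, ?_, ?_, Or.inr ⟨?_, ?_⟩⟩
      · have h2 := Int.lt_floor_add_one (d.P z / h)
        rw [div_lt_iff₀ hh0] at h2
        push_cast
        linarith
      · have h2 := Int.floor_le (d.P z / h)
        rw [le_div_iff₀ hh0] at h2
        push_cast
        linarith
      · have h2 := Int.floor_le (d.P z / h)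
        rw [le_div_iff₀ hh0] at h2
        push_cast
        linarith
      · have h2 := Int.lt_floor_add_one (d.P z / h)
        rw [div_lt_iff₀ hh0] at h2
        push_cast
        linarith
  have hmem := mem_fam hh hd' hball (κ := κ) (by linarith) hk1 hk2 hl1 hl2
  obtain ⟨i2, m', h3, h4, h5⟩ := exists_crosses hω hδ a hd' (r0 := (((k : ℚ) * h : ℚ) : ℝ))
    (r1 := ((((k : ℚ) + 1) * h : ℚ) : ℝ)) (by push_cast; linarith) (hne c) hQ (by
      rw [hit]
      push_cast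
      exact hP)
  rw [hit] at h5
  exact ⟨_, hmem, c + i2, m', by omega, h4, h5⟩

theorem cnt : CNT := by
  classical
  intro Ω S n ω G hg v hdeep ρ hρ
  obtain ⟨η, hη, hdeep⟩ := hdeep
  obtain ⟨F, hF, hF2, hF3⟩ := str Ω S n ω G hg η ρ 1 hη hρ one_pos
  have hM : ∀ R ∈ F, ∃ M : ℕ, ∀ᶠ j in atTop,
      Set.ncard {v | ∃ m, R.d.Crosses (S.δ (n j)) (S.a (n j)) (ω j) R.r0 R.r1 R.s0 R.s1 v m} ≤ M := by
    intro R hR
    obtain ⟨h1, h2, h3, h4, h5⟩ := hF2 R hR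
    refine hg.cross R.d h1 R.r0 R.r1 R.s0 R.s1 h2 h3 (Set.Subset.trans ?_ h4)
    intro w hw
    obtain ⟨w1, w2, w3, w4⟩ := hw
    have e : (R.r0 : ℝ) < R.r1 := by exact_mod_cast h2
    unfold RR.big Dir.rect
    simp only [Set.mem_ofPred_eq]
    push_cast
    refine ⟨?_, ?_, ?_, ?_⟩ <;> linarith
  choose! M hM using hM
  refine ⟨∑ R ∈ hF.toFinset, M R, ?_⟩
  have hall : ∀ᶠ j in atTop, ∀ R ∈ F, Set.ncard {v | ∃ m, R.d.Crosses (S.δ (n j)) (S.a (n j)) (ω j)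
      R.r0 R.r1 R.s0 R.s1 v m} ≤ M R := (eventually_all_finite hF).2 hM
  filter_upwards [hF3, hall, hdeep] with j hj hMj hdeepj A hA hdis
  have hω := hg.mem j
  -- choose the rectangle and the starting point
  have hch : ∀ p ∈ A, ∃ R ∈ F, ∃ i < p.2, ∃ m', R.d.Crosses (S.δ (n j)) (S.a (n j)) (ω j)
      R.r0 R.r1 R.s0 R.s1 ((SW.suc (ω j))^[i] p.1) m' := by
    intro p hp
    have hpv := (hA p hp).2.1
    obtain ⟨R, hR, i, m', h1, h2, h3⟩ := hj p.1 p.2 (hA p hp).1 (fun i _ => hdeepj _ (by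
      have := iter_comp (ω j) p.1 i
      rwa [P155.L.comp_eq_of_mem hω hpv] at this)) (hA p hp).2.2
    exact ⟨R, hR, i, by omega, m', h3⟩
  have : Nonempty RR := ⟨⟨hor, 0, 0, 0, 0⟩⟩
  choose! Rf hRf idx hidx mf hmf using hch
  have hcard : A.card ≤ ∑ R ∈ hF.toFinset, (A.filter (fun p => Rf p = R)).card := by
    refine le_of_eq (Finset.card_eq_sum_card_fiberwise ?_)
    intro p hp
    exact hF.mem_toFinset.2 (hRf p hp)
  refine hcard.trans (Finset.sum_le_sum fun R hR => ?_)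
  refine le_trans ?_ (hMj R (hF.mem_toFinset.1 hR))
  have hfin : {v | ∃ m, R.d.Crosses (S.δ (n j)) (S.a (n j)) (ω j) R.r0 R.r1 R.s0 R.s1 v m}.Finite := by
    apply (S.T (n j)).V.finite_toSet.subset
    rintro v ⟨m, hm⟩
    exact mem_V_of_loop hω hm.loop
  rw [Set.ncard_eq_toFinset_card _ hfin]
  apply Finset.card_le_card_of_injOn (fun p => (SW.suc (ω j))^[idx p] p.1)
  · intro p hp
    obtain ⟨h1, h2⟩ := Finset.mem_filter.1 hp
    rw [SetLike.mem_coe, hfin.mem_toFinset]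
    refine ⟨mf p, ?_⟩
    have := hmf p h1
    rw [h2] at this
    exact this
  · intro p hp p' hp' he
    by_contra hne
    exact hdis p (Finset.mem_filter.1 hp).1 p' (Finset.mem_filter.1 hp').1 hne _
      (hidx p (Finset.mem_filter.1 hp).1) _ (hidx p' (Finset.mem_filter.1 hp').1) he

end Vale.Agent.P155.Q1
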