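import Vale.Agent.P155.H878.Deep
import Vale.Agent.P155.U902.TL7
import Vale.Agent.P155.TC657.CPT2
import Vale.Agent.P155.Q276.Circle

/-!
# P155, literal Q1: the loops around a hole converge to its boundary (`M1`)
-/

namespace Vale.Agent.P155.Q1

open Topology Filter MeasureTheory TopologicalSpace Vale.Agent.P155 LatCycle Q276

theorem strand_of_Y {V : Finset Pt} {ω : Conf} (hω : ω ∈ DD V) {v : Pt} (hv : ω.1 v ≠ ω.2 v)
    {p q : Pt → ℤ} {p0 p1 q0 q1 l : ℤ} {m : ℕ}
    (h : StrandY p q (cycP ω v) p0 p1 q0 q1 l m) :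
    Strand p q ω p0 p1 q0 q1 (cycP ω v l) m where
  loop := P155.L.ne_of_mem_comp hω hv (cycP_comp _ _ _)
  qmem i hi := by
    rw [← cycP_add hω (mem_V_of_loop hω hv)]
    exact h.qmem i hi
  pmem i h1 h2 := by
    rw [← cycP_add hω (mem_V_of_loop hω hv)]
    exact h.pmem i h1 h2
  ends := by
    rw [← cycP_add hω (mem_V_of_loop hω hv)]
    exact h.ends

theorem topY_eq {V : Finset Pt} {ω : Conf} (hω : ω ∈ DD V) {v : Pt} (hv : v ∈ V)
    (p q : Pt → ℤ) (l : ℤ) (m : ℕ) (X : ℤ) :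
    topY p q (cycP ω v) l m X = topS p q ω (cycP ω v l) m X := by
  unfold topY topS
  congr 1
  ext Y
  have e : ∀ i : ℕ, cycP ω v (l + i + 1) = (SW.suc ω)^[i + 1] (cycP ω v l) := by
    intro i
    rw [← cycP_add hω hv]
    congr 1
    push_cast
    ring
  have e' : ∀ i : ℕ, cycP ω v (l + i) = (SW.suc ω)^[i] (cycP ω v l) :=
    fun i => cycP_add hω hv l i
  simp only [e, e']

variable {Ω : Set ℂ} {S : TempApprox Ω} {n : ℕ → ℕ} {ω : ℕ → Conf} {G : ℕ → NonemptyCompacts ℂ}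

/-- `γ ∘ θ` restricted to a crossing interval of `g` -/
theorem Conv.follow (hg : Good Ω S n ω G) {v : ℕ → Pt} {γ J : PL} {θ : ℕ → ℝ → ℝ}
    (h : Conv S n ω v γ θ) (hv : ∀ j, (ω j).1 (v j) ≠ (ω j).2 (v j)) {g : ℝ → ℝ}
    (hgc : Continuous g) (hgJ : ∀ t : ℝ, γ.c (t : S1) = J.c (g t : S1)) {s t p q : ℝ} (N : ℤ)
    (hc : Cr g s t (p + N) (q + N)) :
    Follow (fun x : ℝ => J.c (x : S1)) p q (fun j => S.δ (n j)) (fun j => S.a (n j))
      (fun j => cycP (ω j) (v j)) (fun x => g x - N) s t θ where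
  adj j l := cycP_adj (hg.mem j) (mem_V_of_loop (hg.mem j) (hv j)) l
  st := hc.lt
  gc := hgc.sub continuous_const
  gmem x hx := by
    rcases hc with hc | hc
    · have := hc.mem x hx
      exact ⟨by linarith [this.1], by linarith [this.2]⟩
    · have := hc.mem x hx
      exact ⟨by linarith [this.1], by linarith [this.2]⟩
  gends := by
    rcases hc with hc | hc
    · exact Or.inl ⟨by rw [hc.left]; ring, by rw [hc.right]; ring⟩
    · exact Or.inr ⟨by rw [hc.left]; ring, by rw [hc.right]; ring⟩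
  cont := h.cont
  mono := h.mono
  surj := h.surj
  close ε hε := by
    filter_upwards [h.close ε hε] with j hj x _
    have h1 := hj x
    rw [hgJ] at h1
    have e : ((g (θ j x) - N : ℝ) : S1) = (g (θ j x) : S1) := by
      have := coe_add_int (g (θ j x)) (-N)
      rw [← this]
      congr 1
      push_cast
      ring
    show dist _ (J.c ((g (θ j x) - N : ℝ) : S1)) ≤ ε
    rw [e]
    exact h1

theorem coe_inj {J : PL} (hJ : Function.Injective J.c) {x y : ℝ} (h : J.c (x : S1) = J.c (y : S1))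
    (hxy : |x - y| < 1) : x = y := by
  obtain ⟨N, hN⟩ := Q276.coe_eq_iff.1 (hJ h)
  have : |(N : ℝ)| < 1 := by
    rw [hN] at hxy
    simpa using hxy
  have h0 : N = 0 := by
    have : |N| < 1 := by exact_mod_cast this
    exact Int.abs_lt_one_iff.1 this
  rw [hN, h0]
  simp

/-- **No double cover.** -/
theorem no_double (hTL : TL) (hg : Good Ω S n ω G) {v : ℕ → Pt} {γ J : PL}
    {θ : ℕ → ℝ → ℝ} (h : Conv S n ω v γ θ) (hv : ∀ j, (ω j).1 (v j) ≠ (ω j).2 (v j))
    (hdeep : DeepL S n ω v)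
    (hJ : Function.Injective J.c) {g : ℝ → ℝ} (hgc : Continuous g)
    (hgJ : ∀ t : ℝ, γ.c (t : S1) = J.c (g t : S1)) : ¬ Double g := by
  rintro ⟨a, b, a', b', p, q, N, hba, hb1, hpq, hqp, hc1, hc2⟩
  set K0 : ℝ → ℂ := fun x => J.c (x : S1) with hK0
  have hK0c : Continuous K0 := J.c.continuous.comp (AddCircle.continuous_mk' 1)
  have hinj : ∀ x ∈ Set.Icc p q, ∀ y ∈ Set.Icc p q, K0 x = K0 y → x = y := by
    intro x hx y hy he
    refine coe_inj hJ he ?_
    rw [abs_lt]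
    constructor <;> linarith [hx.1, hx.2, hy.1, hy.2]
  -- a point of the arc in `Ω`
  obtain ⟨θ1, hθ1, hθΩ⟩ : ∃ x ∈ Set.Icc p q, K0 x ∈ Ω := by
    have hends : γ.c (a : S1) ≠ γ.c (b : S1) := by
      rw [hgJ, hgJ]
      intro he
      rcases hc1 with hc | hc
      · rw [hc.left, hc.right] at he
        have := hinj p ⟨le_rfl, hpq.le⟩ q ⟨hpq.le, le_rfl⟩ he
        linarith
      · rw [hc.left, hc.right] at he
        have := hinj q ⟨hpq.le, le_rfl⟩ p ⟨le_rfl, hpq.le⟩ he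
        linarith
    obtain ⟨R, ⟨hdir, hr, hsR, hbig, hdiam⟩, hfr⟩ := arc_strand hg h hv hdeep hc1.lt
      (dist_pos.2 hends) one_pos le_rfl
    -- the piece of the curve meets `R.big`
    have hmeet : ∃ t ∈ Set.Icc a b, γ.c (t : S1) ∈ R.big := by
      by_contra hcon
      push Not at hcon
      have hcomp : IsCompact ((fun t : ℝ => γ.c (t : S1)) '' Set.Icc a b) :=
        isCompact_Icc.image (γ.c.continuous.comp (AddCircle.continuous_mk' 1))
      have hcl : IsClosed R.big := isClosed_rect hdir _ _ _ _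
      have hdisj : Disjoint ((fun t : ℝ => γ.c (t : S1)) '' Set.Icc a b) R.big := by
        rw [Set.disjoint_left]
        rintro _ ⟨t, ht, rfl⟩ h1
        exact hcon t ht h1
      obtain ⟨r, hr0, hrd⟩ := Metric.exists_pos_forall_lt_edist hcomp hcl hdisj
      have hrr : (0 : ℝ) < (R.r1 : ℝ) - R.r0 := by
        have : (R.r0 : ℝ) < R.r1 := by exact_mod_cast hr
        linarith
      obtain ⟨j, ⟨i, m, hi0, hi1, hcr⟩, h1, h2⟩ := (hfr.and_eventually
        ((h.vert (NNReal.coe_pos.2 hr0)).and (hg.delta_lt hrr))).exists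
      have hmem := cross_mem_big hdir hr (S.pos (n j)) h2 hcr (Nat.zero_le m)
      rw [Function.iterate_zero, id_eq] at hmem
      have h3 := hrd (γ.c (θ j i : S1)) ⟨θ j i, ⟨hi0, ?_⟩, rfl⟩ _ hmem
      · rw [edist_comm, edist_dist] at h3
        have h4 := h1 i
        have h5 := ENNReal.ofReal_le_ofReal h4
        rw [ENNReal.ofReal_coe_nnreal] at h5
        exact absurd h3 (not_lt.2 h5)
      · refine ((h.mono j).monotone ?_).trans hi1
        push_cast
        have : (0 : ℝ) ≤ m := Nat.cast_nonneg m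
        linarith
    obtain ⟨t, ht, htR⟩ := hmeet
    refine ⟨g t, ?_, ?_⟩
    · rcases hc1 with hc | hc
      · exact hc.mem t ht
      · exact hc.mem t ht
    · show J.c (g t : S1) ∈ Ω
      rw [← hgJ]
      exact hbig htR
  -- an interior point
  obtain ⟨x0, hx0, hx0Ω⟩ : ∃ x ∈ Set.Ioo p q, K0 x ∈ Ω := by
    have hopen : IsOpen (K0 ⁻¹' Ω) := hg.opn.preimage hK0c
    have hcl : θ1 ∈ closure (Set.Ioo p q) := by
      rw [closure_Ioo hpq.ne]
      exact hθ1
    obtain ⟨x, hx1, hx2⟩ := mem_closure_iff.1 hcl _ hopen hθΩ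
    exact ⟨x, hx2, hx1⟩
  -- a small square
  obtain ⟨r, hr0, hrΩ⟩ := Metric.isOpen_iff.1 hg.opn _ hx0Ω
  obtain ⟨η, hη0, hη⟩ := Metric.continuousAt_iff.1 (hK0c.continuousAt (x := x0)) (r / 8)
    (by positivity : (0 : ℝ) < r / 8)
  set e := min (η / 2) (min (x0 - p) (q - x0)) with he
  have he0 : 0 < e := lt_min (by positivity) (lt_min (by linarith [hx0.1]) (by linarith [hx0.2]))
  have e1 : e ≤ η / 2 := min_le_left _ _
  have e2 : e ≤ x0 - p := (min_le_right _ _).trans (min_le_left _ _)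
  have e3 : e ≤ q - x0 := (min_le_right _ _).trans (min_le_right _ _)
  set p' := x0 - e with hp'
  set q' := x0 + e with hq'
  have hpq' : p' < q' := by linarith
  have hnear : ∀ x ∈ Set.Icc p' q', dist (K0 x) (K0 x0) < r / 8 := by
    intro x hx
    apply hη
    rw [Real.dist_eq, abs_lt]
    constructor <;> linarith [hx.1, hx.2]
  have hneK : K0 p' ≠ K0 q' := by
    intro hh
    have := hinj p' ⟨by linarith, by linarith⟩ q' ⟨by linarith, by linarith⟩ hh
    linarith
  -- the direction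
  obtain ⟨d, hd, hdne, hdP, hdQ, hrect⟩ : ∃ d : Dir, (d = hor ∨ d = ver) ∧
      d.P (K0 p') ≠ d.P (K0 q') ∧
      (∀ z w : ℂ, |d.P z - d.P w| ≤ dist z w) ∧ (∀ z w : ℂ, |d.Q z - d.Q w| ≤ dist z w) ∧
      (∀ z w : ℂ, dist z w ≤ |d.P z - d.P w| + |d.Q z - d.Q w|) := by
    have hre : ∀ z w : ℂ, |z.re - w.re| ≤ dist z w := by
      intro z w
      rw [dist_eq_norm, ← Complex.sub_re]
      exact Complex.abs_re_le_norm _
    have him : ∀ z w : ℂ, |z.im - w.im| ≤ dist z w := by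
      intro z w
      rw [dist_eq_norm, ← Complex.sub_im]
      exact Complex.abs_im_le_norm _
    have hsum : ∀ z w : ℂ, dist z w ≤ |z.re - w.re| + |z.im - w.im| := by
      intro z w
      rw [dist_eq_norm, ← Complex.sub_re, ← Complex.sub_im]
      exact Complex.norm_le_abs_re_add_abs_im _
    by_cases hh : (K0 p').re = (K0 q').re
    · refine ⟨ver, Or.inr rfl, ?_, him, hre, ?_⟩
      · intro h2
        exact hneK (Complex.ext hh h2)
      · intro z w
        rw [add_comm]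
        exact hsum z w
    · exact ⟨hor, Or.inl rfl, hh, hre, him, hsum⟩
  obtain ⟨s0, hs0, hs0'⟩ := exists_rat_btwn (show d.Q (K0 x0) - r / 4 < d.Q (K0 x0) - r / 8 by
    linarith)
  obtain ⟨s1, hs1, hs1'⟩ := exists_rat_btwn (show d.Q (K0 x0) + r / 8 < d.Q (K0 x0) + r / 4 by
    linarith)
  have hs01 : s0 < s1 := by
    have : (s0 : ℝ) < s1 := by linarith
    exact_mod_cast this
  obtain ⟨r0, r0', r1', r1, h01, h02, h03, hmin, hmax, hTLc⟩ := hTL d hd K0 p' q' hpq' hK0c hdne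
    s0 s1 (by
      intro x hx
      have h1 := (hdQ (K0 x) (K0 x0)).trans (hnear x hx).le
      rw [abs_le] at h1
      constructor <;> linarith [h1.1, h1.2])
  have hPp := (hdP (K0 p') (K0 x0)).trans (hnear p' ⟨le_rfl, hpq'.le⟩).le
  have hPq := (hdP (K0 q') (K0 x0)).trans (hnear q' ⟨hpq'.le, le_rfl⟩).le
  rw [abs_le] at hPp hPq
  have hr0' : d.P (K0 x0) - r / 8 < r0 := by
    refine lt_of_le_of_lt ?_ hmin
    exact le_min (by linarith [hPp.1]) (by linarith [hPq.1])
  have hr1' : (r1 : ℝ) < d.P (K0 x0) + r / 8 := by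
    refine lt_of_lt_of_le hmax ?_
    exact max_le (by linarith [hPp.2]) (by linarith [hPq.2])
  have hsub : d.rect r0 r1 s0 s1 ⊆ Ω := by
    rintro w ⟨w1, w2, w3, w4⟩
    apply hrΩ
    rw [Metric.mem_ball]
    have h1 := hrect w (K0 x0)
    have h2 : |d.P w - d.P (K0 x0)| ≤ r / 8 := by
      rw [abs_le]
      constructor <;> linarith
    have h3 : |d.Q w - d.Q (K0 x0)| ≤ r / 4 := by
      rw [abs_le]
      constructor <;> linarith
    linarith
  obtain ⟨α, hα, htop⟩ := hg.top d hd r0 r0' r1' r1 s0 s1 h01 h02 h03 hs01 hsub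
  -- the two crossing intervals
  have hc1' : Cr g a b (p + (0 : ℤ)) (q + (0 : ℤ)) := by simpa using hc1
  obtain ⟨s, t, hs, ht, hc3⟩ := hc1'.sub hgc.continuousOn (p' := p' + (0 : ℤ))
    (q' := q' + (0 : ℤ)) (by push_cast; linarith) (by push_cast; linarith)
    (by push_cast; linarith)
  obtain ⟨s', t', hs', ht', hc4⟩ := hc2.sub hgc.continuousOn (p' := p' + N)
    (q' := q' + N) (by linarith) (by linarith) (by linarith)
  have hF1 := h.follow hg hv hgc hgJ 0 hc3
  have hF2 := h.follow hg hv hgc hgJ N hc4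
  have hδ0 : Tendsto (fun j => S.δ (n j)) atTop (𝓝 0) := S.mesh.comp hg.lim
  have hfin := hTLc (fun j => S.δ (n j)) (fun j => S.a (n j)) (fun j => S.pos (n j)) hδ0 _ _ _ _ _ _
    _ _ _ _ hF1 hF2 α hα
  obtain ⟨j, ⟨l, m, l', m', hY1, hl1, hl2, hY2, hl3, hl4, hsum⟩, htopj⟩ := (hfin.and htop).exists
  have hω := hg.mem j
  have hvV := mem_V_of_loop hω (hv j)
  have hm0 : (0 : ℝ) ≤ m := Nat.cast_nonneg m
  have hm0' : (0 : ℝ) ≤ m' := Nat.cast_nonneg m'
  have hl2' : θ j l ≤ t := ((h.mono j).monotone (by linarith)).trans hl2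
  have hl4' : θ j l' ≤ t' := ((h.mono j).monotone (by linarith)).trans hl4
  have hlt : θ j l < θ j l' := by linarith
  have hlt' : θ j l' < θ j l + 1 := by linarith
  rw [← h.per j, (h.mono j).lt_iff_lt] at hlt'
  rw [(h.mono j).lt_iff_lt] at hlt
  have g1 : l < l' := by exact_mod_cast hlt
  have g2 : l' < l + ((comp (ω j) (v j)).ncard : ℕ) := by exact_mod_cast hlt'
  have hne : cycP (ω j) (v j) l ≠ cycP (ω j) (v j) l' := by
    intro hh
    have h1 := cycP_inj hω hvV hh.symm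
    have h2 := Int.le_of_dvd (by omega) h1
    omega
  have hsame : Same (ω j) (cycP (ω j) (v j) l) (cycP (ω j) (v j) l') := by
    have h1 := P155.L.comp_eq_of_mem hω (cycP_comp (ω j) (v j) l)
    have h2 := cycP_comp (ω j) (v j) l'
    rw [← h1] at h2
    exact h2
  have h5 := htopj _ m _ m' (strand_of_Y hω (hv j) hY1) (strand_of_Y hω (hv j) hY2) hne hsame
  simp only [topY_eq hω hvV] at hsum
  linarith

theorem m1 : M1 := by
  intro Ω S n ω G hg k hk z hz hin J hJ v hv hl hs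
  refine tendsto_of_subseq_tendsto fun ns hns => ?_
  have hg1 := hg.sub hns
  have hd1 := hg1.deep_hole hk hz hin (v := v ∘ ns) (fun j => hv (ns j)) (fun j => hl (ns j))
    (fun j => hs (ns j))
  obtain ⟨φ, hφ, γ, θ, hconv⟩ := TC.cpt cnt Ω S _ _ G hg1 (v ∘ ns) (fun j => hv (ns j)) hd1
  have hg2 := hg1.sub hφ.tendsto_atTop
  have hd2 := hg2.deep_hole hk hz hin (v := (v ∘ ns) ∘ φ) (fun j => hv (ns (φ j)))
    (fun j => hl (ns (φ j))) (fun j => hs (ns (φ j)))
  refine ⟨φ, ?_⟩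
  have h1 := TC.cpt' Ω S _ _ G hg2 _ γ θ (fun j => hv (ns (φ j))) hconv
  have hr : Set.range γ.c = frontier (connectedComponentIn (Ω \ (G k : Set ℂ)) z) :=
    hconv.range_eq hg2 (fun j => hv (ns (φ j))) hd2 hk (fun j => hl (ns (φ j))) hz
      (fun j => hs (ns (φ j)))
  have hdist : dist γ J = 0 := by
    rcases circle_pl hJ.1 (hr.trans hJ.2.symm) with h2 | ⟨g, hgc, hgJ, -, hdbl⟩
    · exact h2
    · exact absurd hdbl (no_double TLb.tl hg2 hconv (fun j => hv (ns (φ j))) hd2 hJ.1 hgc hgJ)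
  have h3 : ∀ j, dist (lcurve (S.δ (n (ns (φ j)))) (S.a (n (ns (φ j)))) (ω (ns (φ j)))
      (v (ns (φ j)))) J = dist (lcurve (S.δ (n (ns (φ j)))) (S.a (n (ns (φ j)))) (ω (ns (φ j)))
      (v (ns (φ j)))) γ := by
    intro j
    refine le_antisymm ?_ ?_
    · refine (dist_triangle _ γ _).trans ?_
      rw [hdist, add_zero]
    · refine (dist_triangle _ J _).trans ?_
      rw [dist_comm J γ, hdist, add_zero]
  simp only [h3]
  exact h1

end Vale.Agent.P155.Q1
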