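import Vale.Agent.P155.H878.TightIface
import Vale.Agent.P155.K.Cell

/-!
# P155, literal Q1: interface of the deterministic theorem (DET)

`Good` = a sequence of configurations whose gaskets converge and which satisfies, with fixed
constants, the conditions coming from CROSS, FAT, TOP and SAME.
-/

namespace Vale.Agent.P155.Q1

open Topology Filter MeasureTheory TopologicalSpace Vale.Agent.P155

/-- `z` is surrounded by the loop `L` (drawn in the grid `a + δ ℤ²`) -/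
def surrZ (δ : ℝ) (a : ℂ) (ω : Conf) (L : Set Pt) (z : ℂ) : Prop := surr ω L (K.cell δ a z)

/-- A sequence of configurations (`ω j` on the polygon number `n j`) with all the properties of a
typical sequence. -/
structure Good (Ω : Set ℂ) (S : TempApprox Ω) (n : ℕ → ℕ) (ω : ℕ → Conf)
    (G : ℕ → NonemptyCompacts ℂ) : Prop where
  opn : IsOpen Ω
  bdd : Bornology.IsBounded Ω
  lim : Tendsto n atTop atTop
  mem : ∀ j, ω j ∈ DD (S.T (n j)).V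
  gasket : ∀ k, Tendsto (fun j => toNC (gasket (S.δ (n j)) (S.a (n j)) (S.T (n j)) k (ω j))) atTop
    (𝓝 (G k))
  zero : (G 0 : Set ℂ) = frontier Ω
  null : ∀ k, volume ((G k : Set ℂ) ∩ Ω) = 0
  cross : ∀ d, d = hor ∨ d = ver → ∀ r0 r1 s0 s1 : ℚ, r0 < r1 → s0 < s1 →
    d.rect r0 r1 s0 s1 ⊆ Ω → ∃ M : ℕ, ∀ᶠ j in atTop,
      Set.ncard {v | ∃ m, d.Crosses (S.δ (n j)) (S.a (n j)) (ω j) r0 r1 s0 s1 v m} ≤ M
  fat : ∀ d, d = hor ∨ d = ver → ∀ r0 r1 s0 s1 r0' r1' s0' s1' : ℚ, r0 < r1 → s0 < s1 →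
    r0' < r0 → r1 < r1' → s0' < s0 → s1 < s1' → d.rect r0' r1' s0' s1' ⊆ Ω →
    ∃ α : ℝ, 0 < α ∧ ∀ᶠ j in atTop, ∀ v m,
      d.Crosses (S.δ (n j)) (S.a (n j)) (ω j) r0 r1 s0 s1 v m →
      α ≤ (S.δ (n j)) ^ 2 * Set.ncard {f : Pt | surr (ω j) (comp (ω j) v) f ∧
        sqr (S.δ (n j)) (S.a (n j)) f ⊆ d.rect r0' r1' s0' s1'}
  top : ∀ d, d = hor ∨ d = ver → ∀ r0 r0' r1' r1 s0 s1 : ℚ, r0 < r0' → r0' < r1' → r1' < r1 →
    s0 < s1 → d.rect r0 r1 s0 s1 ⊆ Ω → ∃ α : ℝ, 0 < α ∧ ∀ᶠ j in atTop, ∀ v m v' m',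
      d.Crosses (S.δ (n j)) (S.a (n j)) (ω j) r0 r1 s0 s1 v m →
      d.Crosses (S.δ (n j)) (S.a (n j)) (ω j) r0 r1 s0 s1 v' m' → v ≠ v' → Same (ω j) v v' →
      α ≤ (S.δ (n j)) ^ 2 * ∑ X ∈ Finset.Ico (d.lp (S.δ (n j)) (S.a (n j)) r0')
        (d.lp (S.δ (n j)) (S.a (n j)) r1'),
        |(topS d.p d.q (ω j) v m X : ℝ) - topS d.p d.q (ω j) v' m' X|
  same : ∀ k, 1 ≤ k → ∀ z z', z ∈ Ω \ (G k : Set ℂ) → z' ∈ Ω \ (G k : Set ℂ) →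
    connectedComponentIn (Ω \ G k) z ≠ connectedComponentIn (Ω \ G k) z' →
    ∀ᶠ j in atTop, ¬ ∃ L ∈ Loops (ω j), level (ω j) L = k ∧
      surrZ (S.δ (n j)) (S.a (n j)) (ω j) L z ∧ surrZ (S.δ (n j)) (S.a (n j)) (ω j) L z'

/-- A rational rectangle with a direction. -/
structure RR where
  d : Dir
  r0 : ℚ
  r1 : ℚ
  s0 : ℚ
  s1 : ℚ

/-- The rectangle enlarged by `r1 - r0` on all sides. -/
def RR.big (R : RR) : Set ℂ :=
  R.d.rect (R.r0 - (R.r1 - R.r0) : ℚ) (R.r1 + (R.r1 - R.r0) : ℚ) (R.s0 - (R.r1 - R.r0) : ℚ)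
    (R.s1 + (R.r1 - R.r0) : ℚ)

/-- the piece of length `m` starting at `v` has two points at distance `≥ ρ` -/
def Far {Ω : Set ℂ} (S : TempApprox Ω) (n : ℕ) (ω : Conf) (ρ : ℝ) (v : Pt) (m : ℕ) : Prop :=
  ∃ i ≤ m, ∃ i' ≤ m, ρ ≤ dist (pt (S.δ n) (S.a n) ((SW.suc ω)^[i] v))
    (pt (S.δ n) (S.a n) ((SW.suc ω)^[i'] v))

/-- the piece of length `m` starting at `v` is at distance `> η` from the boundary -/
def DeepP {Ω : Set ℂ} (S : TempApprox Ω) (n : ℕ) (ω : Conf) (η : ℝ) (v : Pt) (m : ℕ) : Prop :=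
  ∀ i ≤ m, η < Metric.infDist (pt (S.δ n) (S.a n) ((SW.suc ω)^[i] v)) (frontier Ω)

/-- the loops through `v j` are at distance `> η` from the boundary -/
def DeepL {Ω : Set ℂ} (S : TempApprox Ω) (n : ℕ → ℕ) (ω : ℕ → Conf) (v : ℕ → Pt) : Prop :=
  ∃ η : ℝ, 0 < η ∧ ∀ᶠ j in atTop, ∀ u ∈ comp (ω j) (v j),
    η < Metric.infDist (pt (S.δ (n j)) (S.a (n j)) u) (frontier Ω)

/-- **STR** (D2): every piece of a loop of diameter `≥ ρ` and at distance `> η` from the boundary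
contains a strand crossing one of finitely many small rational rectangles. -/
def STR : Prop := ∀ Ω S n ω G, Good Ω S n ω G → ∀ η ρ κ : ℝ, 0 < η → 0 < ρ → 0 < κ →
  ∃ F : Set RR, F.Finite ∧ (∀ R ∈ F, (R.d = hor ∨ R.d = ver) ∧ R.r0 < R.r1 ∧ R.s0 < R.s1 ∧
      R.big ⊆ Ω ∧ Metric.diam R.big ≤ κ) ∧
    ∀ᶠ j in atTop, ∀ v m, (ω j).1 v ≠ (ω j).2 v → DeepP S (n j) (ω j) η v m →
      Far S (n j) (ω j) ρ v m →
      ∃ R ∈ F, ∃ i m', i + m' ≤ m ∧ 0 < m' ∧ R.d.Crosses (S.δ (n j)) (S.a (n j)) (ω j)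
        R.r0 R.r1 R.s0 R.s1 ((SW.suc (ω j))^[i] v) m'

/-- **CNT** (D2'): the number of disjoint pieces of diameter `≥ ρ` of the loops through `v j` is
bounded. -/
def CNT : Prop := ∀ Ω S n ω G, Good Ω S n ω G → ∀ v : ℕ → Pt, DeepL S n ω v →
  ∀ ρ : ℝ, 0 < ρ → ∃ M : ℕ, ∀ᶠ j in atTop,
  ∀ A : Finset (Pt × ℕ),
    (∀ p ∈ A, (ω j).1 p.1 ≠ (ω j).2 p.1 ∧ p.1 ∈ comp (ω j) (v j) ∧
      Far S (n j) (ω j) ρ p.1 p.2) →
    (∀ p ∈ A, ∀ p' ∈ A, p ≠ p' → ∀ i < p.2, ∀ i' < p'.2,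
      (SW.suc (ω j))^[i] p.1 ≠ (SW.suc (ω j))^[i'] p'.1) → A.card ≤ M

/-- The curves of the loops through `v j` converge, after the time changes `θ j`, to `γ`
(`θ j` = time of the limit as a function of the index on the lattice loop). -/
structure Conv {Ω : Set ℂ} (S : TempApprox Ω) (n : ℕ → ℕ) (ω : ℕ → Conf) (v : ℕ → Pt) (γ : PL)
    (θ : ℕ → ℝ → ℝ) : Prop where
  cont : ∀ j, Continuous (θ j)
  mono : ∀ j, StrictMono (θ j)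
  per : ∀ j t, θ j (t + (comp (ω j) (v j)).ncard) = θ j t + 1
  close : ∀ ε : ℝ, 0 < ε → ∀ᶠ j in atTop, ∀ t : ℝ,
    dist (poly (cyc (S.δ (n j)) (S.a (n j)) (ω j) (v j)) t) (γ.c (θ j t : S1)) ≤ ε

/-- **CPT** (D3): along a subsequence, the curves of loops converge. -/
def CPT : Prop := ∀ Ω S n ω G, Good Ω S n ω G → ∀ v : ℕ → Pt,
  (∀ j, (ω j).1 (v j) ≠ (ω j).2 (v j)) → DeepL S n ω v →
  ∃ φ : ℕ → ℕ, StrictMono φ ∧ ∃ γ θ, Conv S (n ∘ φ) (ω ∘ φ) (v ∘ φ) γ θ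

/-- (D3') convergence in the sense of `Conv` implies convergence in `PL` -/
def CPT' : Prop := ∀ Ω S n ω G, Good Ω S n ω G → ∀ v : ℕ → Pt, ∀ γ θ,
  (∀ j, (ω j).1 (v j) ≠ (ω j).2 (v j)) → Conv S n ω v γ θ →
  Tendsto (fun j => dist (lcurve (S.δ (n j)) (S.a (n j)) (ω j) (v j)) γ) atTop (𝓝 0)

/-- the strand of the lattice sequence `y` between the indices `l` and `l + m` crosses the
rectangle -/
structure StrandY (p q : Pt → ℤ) (y : ℤ → Pt) (p0 p1 q0 q1 l : ℤ) (m : ℕ) : Prop where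
  qmem : ∀ i : ℕ, i ≤ m → q0 ≤ q (y (l + i)) ∧ q (y (l + i)) ≤ q1
  pmem : ∀ i : ℕ, 0 < i → i < m → p0 < p (y (l + i)) ∧ p (y (l + i)) < p1
  ends : (p (y l) = p0 ∧ p (y (l + m)) = p1) ∨ (p (y l) = p1 ∧ p (y (l + m)) = p0)

/-- the highest edge of the strand in the column `X` -/
noncomputable def topY (p q : Pt → ℤ) (y : ℤ → Pt) (l : ℤ) (m : ℕ) (X : ℤ) : ℤ :=
  sSup {Y : ℤ | ∃ i : ℕ, i < m ∧ q (y (l + i)) = Y ∧ q (y (l + i + 1)) = Y ∧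
    min (p (y (l + i))) (p (y (l + i + 1))) = X ∧ max (p (y (l + i))) (p (y (l + i + 1))) = X + 1}

/-- The lattice paths `y j : ℤ → Pt` (in the grids `A j + δ j ℤ²`), on the index intervals
`{x | θ j x ∈ [s,t]}`, follow the curve `K ∘ g`, where `g : [s,t] → [a,b]` is continuous and joins
the end points. -/
structure Follow (K : ℝ → ℂ) (a b : ℝ) (δ : ℕ → ℝ) (A : ℕ → ℂ) (y : ℕ → ℤ → Pt) (g : ℝ → ℝ)
    (s t : ℝ) (θ : ℕ → ℝ → ℝ) : Prop where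
  adj : ∀ j l, Adj (y j l) (y j (l + 1))
  st : s < t
  gc : Continuous g
  gmem : ∀ x ∈ Set.Icc s t, g x ∈ Set.Icc a b
  gends : (g s = a ∧ g t = b) ∨ (g s = b ∧ g t = a)
  cont : ∀ j, Continuous (θ j)
  mono : ∀ j, StrictMono (θ j)
  surj : ∀ j, Function.Surjective (θ j)
  close : ∀ ε : ℝ, 0 < ε → ∀ᶠ j in atTop, ∀ x : ℝ, θ j x ∈ Set.Icc s t →
    dist (poly (fun l => pt (δ j) (A j) (y j l)) x) (K (g (θ j x))) ≤ ε

/-- **TL** (D6, D7): for a curve `K` on `[a,b]` which moves in direction `P` there are rational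
`r0 < r0' < r1' < r1` such that any two families of lattice paths following `K` contain strands
crossing `{r0 ≤ P ≤ r1, s0 ≤ Q ≤ s1}` whose tops are close in `L¹` of the middle columns. -/
def TL : Prop := ∀ d, d = hor ∨ d = ver → ∀ (K : ℝ → ℂ) (a b : ℝ), a < b → Continuous K →
  d.P (K a) ≠ d.P (K b) → ∀ s0 s1 : ℚ, (∀ x ∈ Set.Icc a b, (s0 : ℝ) < d.Q (K x) ∧ d.Q (K x) < s1) →
  ∃ r0 r0' r1' r1 : ℚ, r0 < r0' ∧ r0' < r1' ∧ r1' < r1 ∧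
    min (d.P (K a)) (d.P (K b)) < r0 ∧ (r1 : ℝ) < max (d.P (K a)) (d.P (K b)) ∧
    ∀ (δ : ℕ → ℝ) (A : ℕ → ℂ), (∀ j, 0 < δ j) → Tendsto δ atTop (𝓝 0) →
    ∀ y g s t θ y' g' s' t' θ', Follow K a b δ A y g s t θ → Follow K a b δ A y' g' s' t' θ' →
    ∀ α : ℝ, 0 < α → ∀ᶠ j in atTop, ∃ l m l' m',
      StrandY d.p d.q (y j) (d.lp (δ j) (A j) r0) (d.lp (δ j) (A j) r1) (d.lq (δ j) (A j) s0)
        (d.lq (δ j) (A j) s1) l m ∧ s ≤ θ j l ∧ θ j (l + m) ≤ t ∧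
      StrandY d.p d.q (y' j) (d.lp (δ j) (A j) r0) (d.lp (δ j) (A j) r1) (d.lq (δ j) (A j) s0)
        (d.lq (δ j) (A j) s1) l' m' ∧ s' ≤ θ' j l' ∧ θ' j (l' + m') ≤ t' ∧
      (δ j) ^ 2 * ∑ X ∈ Finset.Ico (d.lp (δ j) (A j) r0') (d.lp (δ j) (A j) r1'),
        |(topY d.p d.q (y j) l m X : ℝ) - topY d.p d.q (y' j) l' m' X| < α

/-- **EXI**: a point off the gasket of level `k` is surrounded by a loop of level `k`. -/
def EXI : Prop := ∀ Ω S n ω G, Good Ω S n ω G → ∀ k, 1 ≤ k → ∀ z ∈ Ω \ (G k : Set ℂ),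
  ∀ᶠ j in atTop, ∃ v, (ω j).1 v ≠ (ω j).2 v ∧ level (ω j) (comp (ω j) v) = k ∧
    surrZ (S.δ (n j)) (S.a (n j)) (ω j) (comp (ω j) v) z

/-- **SCC**: points of the same hole are surrounded by the same loop. -/
def SCC : Prop := ∀ Ω S n ω G, Good Ω S n ω G → ∀ k, 1 ≤ k → ∀ z ∈ Ω \ (G k : Set ℂ),
  ∀ z' ∈ connectedComponentIn (Ω \ G k) z, ∀ᶠ j in atTop, ∀ L ∈ Loops (ω j),
    level (ω j) L = k → surrZ (S.δ (n j)) (S.a (n j)) (ω j) L z →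
    surrZ (S.δ (n j)) (S.a (n j)) (ω j) L z'

/-- **M1**: the loops around a given point of a hole converge to the boundary of the hole. -/
def M1 : Prop := ∀ Ω S n ω G, Good Ω S n ω G → ∀ k, 1 ≤ k →
  ∀ z ∈ Ω \ (G k : Set ℂ), frontier (connectedComponentIn (Ω \ G k) z) ⊆ Ω →
  ∀ J : PL, IsJordan J (frontier (connectedComponentIn (Ω \ G k) z)) →
  ∀ v : ℕ → Pt, (∀ j, (ω j).1 (v j) ≠ (ω j).2 (v j)) →
  (∀ j, level (ω j) (comp (ω j) (v j)) = k) →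
  (∀ j, surrZ (S.δ (n j)) (S.a (n j)) (ω j) (comp (ω j) (v j)) z) →
  Tendsto (fun j => dist (lcurve (S.δ (n j)) (S.a (n j)) (ω j) (v j)) J) atTop (𝓝 0)

/-- **M2**: every macroscopic loop which is not contained in a neighbourhood of the boundary
surrounds (infinitely often) a point of a hole of its level. -/
def M2 : Prop := ∀ Ω S n ω G Γ, Good Ω S n ω G → HoleLoops Ω G Γ → ∀ ε η : ℝ, 0 < ε → 0 < η →
  ∀ v : ℕ → Pt, (∀ j, (ω j).1 (v j) ≠ (ω j).2 (v j)) →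
  (∀ j, ε ≤ (lcurve (S.δ (n j)) (S.a (n j)) (ω j) (v j)).diam) →
  (∀ j, ∃ u ∈ comp (ω j) (v j), η < Metric.infDist (pt (S.δ (n j)) (S.a (n j)) u) (frontier Ω)) →
  ∃ k, 1 ≤ k ∧ ∃ z ∈ Ω \ (G k : Set ℂ), ∃ᶠ j in atTop,
    level (ω j) (comp (ω j) (v j)) = k ∧
    surrZ (S.δ (n j)) (S.a (n j)) (ω j) (comp (ω j) (v j)) z

/-- no macroscopic loop is contained in a small neighbourhood of the boundary -/
def BdL {Ω : Set ℂ} (S : TempApprox Ω) (n : ℕ → ℕ) (ω : ℕ → Conf) : Prop :=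
  ∀ ρ : ℝ, 0 < ρ → ∃ η : ℝ, 0 < η ∧ ∀ᶠ j in atTop, ∀ v, (ω j).1 v ≠ (ω j).2 v →
    (∃ x ∈ comp (ω j) v, ∃ y ∈ comp (ω j) v,
      ρ ≤ dist (pt (S.δ (n j)) (S.a (n j)) x) (pt (S.δ (n j)) (S.a (n j)) y)) →
    ∃ u ∈ comp (ω j) v, η < Metric.infDist (pt (S.δ (n j)) (S.a (n j)) u) (frontier Ω)

/-- **DET**: the loops of a good sequence converge to the hole loops, in the local topology, and
in the full topology if `BdL` holds. -/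
def DET : Prop := ∀ Ω S n ω G Γ, Good Ω S n ω G → HoleLoops Ω G Γ →
  (∀ ε : ℝ, 0 < ε → ∀ᶠ j in atTop, closeL Ω ε (LL (S.δ (n j)) (S.a (n j)) (ω j)) Γ) ∧
  (BdL S n ω → Tendsto (fun j => LL (S.δ (n j)) (S.a (n j)) (ω j)) atTop (𝓝 Γ))

end Vale.Agent.P155.Q1
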