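import Vale.Agent.P155.H878.Lat

/-!
# P155, literal Q1: compact sets off the limit gasket; `EXI` and `SCC`
-/

namespace Vale.Agent.P155.Q1

open Topology Filter MeasureTheory TopologicalSpace Vale.Agent.P155 LatCycle

variable {Ω : Set ℂ} {S : TempApprox Ω} {n : ℕ → ℕ} {ω : ℕ → Conf} {G : ℕ → NonemptyCompacts ℂ}

namespace Good

variable (hg : Good Ω S n ω G)

include hg

theorem delta_tendsto : Tendsto (fun j => S.δ (n j)) atTop (𝓝 0) := S.mesh.comp hg.lim

theorem delta_lt {ε : ℝ} (hε : 0 < ε) : ∀ᶠ j in atTop, S.δ (n j) < ε :=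
  (tendsto_order.1 hg.delta_tendsto).2 ε hε

theorem coe_gasket (j k : ℕ) :
    ((toNC (P155.gasket (S.δ (n j)) (S.a (n j)) (S.T (n j)) k (ω j)) : NonemptyCompacts ℂ) : Set ℂ)
      = P155.gasket (S.δ (n j)) (S.a (n j)) (S.T (n j)) k (ω j) :=
  KConn.coe_toNC_gasket (S.pos _) _ _ _ (hg.mem j)

/-- the distances to the gaskets converge uniformly -/
theorem infDist_le {ε : ℝ} (hε : 0 < ε) (k : ℕ) : ∀ᶠ j in atTop, ∀ z,
    |Metric.infDist z (G k) -
      Metric.infDist z (P155.gasket (S.δ (n j)) (S.a (n j)) (S.T (n j)) k (ω j))| ≤ ε := by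
  filter_upwards [(Metric.tendsto_nhds.1 (hg.gasket k)) ε hε] with j hj z
  rw [← hg.coe_gasket j k]
  set A := toNC (P155.gasket (S.δ (n j)) (S.a (n j)) (S.T (n j)) k (ω j)) with hA
  have h1 : LipschitzWith 1 (fun K : NonemptyCompacts ℂ => Metric.infDist z (K : Set ℂ)) :=
    Metric.lipschitz_infDist_set z
  have h2 := h1.dist_le_mul (G k) A
  rw [Real.dist_eq] at h2
  have h3 : dist (G k) A < ε := by rw [dist_comm]; exact hj
  simpa using h2.trans (by simpa using h3.le)

theorem mono_gasket (j : ℕ) {k l : ℕ} (h : k ≤ l) :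
    P155.gasket (S.δ (n j)) (S.a (n j)) (S.T (n j)) k (ω j) ⊆
      P155.gasket (S.δ (n j)) (S.a (n j)) (S.T (n j)) l (ω j) :=
  KConn.gasket_mono _ _ _ _ h

/-- compact subsets of `Ω` off the limit gasket are eventually inside the polygons of level `k` -/
theorem compact_sub {C : Set ℂ} (hC : IsCompact C) {k : ℕ} (h : C ⊆ Ω \ (G k : Set ℂ)) :
    ∀ᶠ j in atTop, C ⊆ interior (region (S.δ (n j)) (S.a (n j)) (Ok (S.T (n j)) k (ω j))) := by
  rcases C.eq_empty_or_nonempty with rfl | hne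
  · simp
  -- the distance from `C` to the gasket is at least `2 r`
  obtain ⟨r, hr, hd⟩ : ∃ r > 0, ∀ z ∈ C, 2 * r ≤ Metric.infDist z (G k) := by
    obtain ⟨z0, hz0, hmin⟩ := hC.exists_isMinOn hne
      (Metric.continuous_infDist_pt (G k : Set ℂ)).continuousOn
    have hpos : 0 < Metric.infDist z0 (G k) := by
      rw [← (G k).isCompact.isClosed.notMem_iff_infDist_pos (G k).nonempty]
      exact (h hz0).2
    refine ⟨Metric.infDist z0 (G k) / 2, by linarith, fun z hz => ?_⟩
    have := hmin hz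
    have h2 : Metric.infDist z0 (G k) ≤ Metric.infDist z (G k) := this
    linarith
  have h1 := hg.infDist_le hr k
  have h2 := hg.lim.eventually (S.cara₁ C (fun z hz => (h hz).1) hC)
  filter_upwards [h1, h2] with j h1 h2 z hz
  by_contra hcon
  have hzg : z ∈ P155.gasket (S.δ (n j)) (S.a (n j)) (S.T (n j)) k (ω j) :=
    ⟨interior_subset (h2 hz), hcon⟩
  have h3 := Metric.infDist_zero_of_mem hzg
  have h4 := h1 z
  rw [h3, sub_zero] at h4
  have h5 := (abs_le.1 h4).2
  have h6 := hd z hz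
  linarith

theorem isOpen_off (k : ℕ) : IsOpen (Ω \ (G k : Set ℂ)) := hg.opn.sdiff (G k).isCompact.isClosed

/-- any two points of a hole are joined by a compact connected subset of the hole -/
theorem exists_conn {k : ℕ} {z z' : ℂ} (hz : z ∈ Ω \ (G k : Set ℂ))
    (hz' : z' ∈ connectedComponentIn (Ω \ (G k : Set ℂ)) z) :
    ∃ C : Set ℂ, IsCompact C ∧ IsConnected C ∧ z ∈ C ∧ z' ∈ C ∧
      C ⊆ connectedComponentIn (Ω \ (G k : Set ℂ)) z := by
  have hopen : IsOpen (connectedComponentIn (Ω \ (G k : Set ℂ)) z) :=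
    (hg.isOpen_off k).connectedComponentIn
  have hconn : IsConnected (connectedComponentIn (Ω \ (G k : Set ℂ)) z) :=
    isConnected_connectedComponentIn_iff.2 hz
  have hpath : IsPathConnected (connectedComponentIn (Ω \ (G k : Set ℂ)) z) :=
    (hopen.isConnected_iff_isPathConnected).1 hconn
  obtain ⟨γ, hγ⟩ := hpath.joinedIn z (mem_connectedComponentIn hz) z' hz'
  refine ⟨Set.range γ, isCompact_range γ.continuous,
    isConnected_range γ.continuous, ⟨0, γ.source⟩, ⟨1, γ.target⟩, ?_⟩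
  rintro _ ⟨t, rfl⟩
  exact hγ t

end Good

theorem exi : EXI := by
  intro Ω S n ω G hg k hk z hz
  have h1 := hg.compact_sub (isCompact_singleton (x := z)) (k := k)
    (by rintro w rfl; exact hz)
  filter_upwards [h1] with j hj
  have h2 : K.cell (S.δ (n j)) (S.a (n j)) z ∈ Ok (S.T (n j)) k (ω j) :=
    (KConn.mem_interior_region_iff (S.pos _)).1 (hj rfl) _ (mem_sqr_cell (S.pos _) z)
  rw [KConn.Ok_eq_iUnion hk (hg.mem j), Set.mem_iUnion₂] at h2
  obtain ⟨A, ⟨hA, hl⟩, hzA⟩ := h2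
  obtain ⟨v, hv, rfl⟩ := hA
  exact ⟨v, hv, hl, hzA⟩

theorem scc : SCC := by
  intro Ω S n ω G hg k hk z hz z' hz'
  obtain ⟨C, hCc, hCconn, h1, h2, hC⟩ := hg.exists_conn hz hz'
  have h3 := hg.compact_sub hCc (k := k)
    (fun w hw => connectedComponentIn_subset _ _ (hC hw))
  filter_upwards [h3] with j hj L hL hl hs
  exact surrZ_const (S.pos _) (hg.mem j) hk hCconn hj hL hl h1 h2 hs

end Vale.Agent.P155.Q1
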