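import Mathlib

/-!
# P155, literal Q1: the space of loops and of loop collections

* `PL`: parametrised loops, with the pseudo-distance `d` of the problem (infimum over all
  homeomorphisms of the circle, of either orientation, of the sup distance);
* `Loop`: loops modulo distance `0`;
* `LoopColl`: multisets of nonconstant loops with finitely many members of diameter `> ε`;
* `close ε Γ Γ'`: some partial bijection covers every loop of diameter `> ε` on either side and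
  matches loops at distance `≤ ε`; the topology of `LoopColl` is the one whose neighbourhoods of
  `Γ` are generated by these relations.
-/

namespace Vale.Agent.P155.Q1

open Topology Filter

/-- The circle. -/
abbrev S1 : Type := AddCircle (1 : ℝ)

/-- Parametrised loops. -/
@[ext] structure PL where
  c : C(S1, ℂ)

/-- Distance of loops: infimum over reparametrisations. -/
noncomputable def ldist (γ γ' : PL) : ℝ := ⨅ φ : S1 ≃ₜ S1, dist γ.c (γ'.c.comp (φ : C(S1, S1)))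

theorem ldist_nonneg (γ γ' : PL) : 0 ≤ ldist γ γ' := Real.iInf_nonneg fun _ => dist_nonneg

theorem bdd (γ γ' : PL) :
    BddBelow (Set.range fun φ : S1 ≃ₜ S1 => dist γ.c (γ'.c.comp (φ : C(S1, S1)))) :=
  ⟨0, by rintro _ ⟨φ, rfl⟩; exact dist_nonneg⟩

theorem ldist_le (γ γ' : PL) (φ : S1 ≃ₜ S1) :
    ldist γ γ' ≤ dist γ.c (γ'.c.comp (φ : C(S1, S1))) := ciInf_le (bdd γ γ') φ

theorem ldist_le_dist (γ γ' : PL) : ldist γ γ' ≤ dist γ.c γ'.c := by
  have := ldist_le γ γ' (Homeomorph.refl S1)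
  exact this

theorem dist_comp_homeo (f g : C(S1, ℂ)) (φ : S1 ≃ₜ S1) :
    dist (f.comp (φ : C(S1, S1))) (g.comp (φ : C(S1, S1))) = dist f g := by
  have key : ∀ (f g : C(S1, ℂ)) (φ : S1 ≃ₜ S1),
      dist (f.comp (φ : C(S1, S1))) (g.comp (φ : C(S1, S1))) ≤ dist f g := by
    intro f g φ
    rw [ContinuousMap.dist_le dist_nonneg]
    intro x
    exact ContinuousMap.dist_apply_le_dist (φ x)
  refine le_antisymm (key f g φ) ?_
  have := key (f.comp (φ : C(S1, S1))) (g.comp (φ : C(S1, S1))) φ.symm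
  have e : ∀ f : C(S1, ℂ), (f.comp (φ : C(S1, S1))).comp (φ.symm : C(S1, S1)) = f := by
    intro f
    ext x
    simp
  rwa [e, e] at this

theorem ldist_symm_le (γ γ' : PL) : ldist γ γ' ≤ ldist γ' γ := by
  refine le_ciInf fun φ => ?_
  refine (ldist_le γ γ' φ.symm).trans (le_of_eq ?_)
  rw [dist_comm γ'.c, ← dist_comp_homeo γ.c (γ'.c.comp (φ.symm : C(S1, S1))) φ]
  congr 1
  ext x
  simp

theorem ldist_comm (γ γ' : PL) : ldist γ γ' = ldist γ' γ :=
  le_antisymm (ldist_symm_le _ _) (ldist_symm_le _ _)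

theorem exists_lt {γ γ' : PL} {ε : ℝ} (h : ldist γ γ' < ε) :
    ∃ φ : S1 ≃ₜ S1, dist γ.c (γ'.c.comp (φ : C(S1, S1))) < ε := by
  have : (⨅ φ : S1 ≃ₜ S1, dist γ.c (γ'.c.comp (φ : C(S1, S1)))) < ε := h
  exact exists_lt_of_ciInf_lt this

theorem ldist_triangle (a b c : PL) : ldist a c ≤ ldist a b + ldist b c := by
  refine le_of_forall_pos_le_add fun ε hε => ?_
  obtain ⟨φ, hφ⟩ := exists_lt (show ldist a b < ldist a b + ε / 2 by linarith)
  obtain ⟨ψ, hψ⟩ := exists_lt (show ldist b c < ldist b c + ε / 2 by linarith)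
  have h1 := ldist_le a c (φ.trans ψ)
  have h2 : dist a.c (c.c.comp ((φ.trans ψ : S1 ≃ₜ S1) : C(S1, S1))) ≤
      dist a.c (b.c.comp (φ : C(S1, S1))) +
      dist (b.c.comp (φ : C(S1, S1))) ((c.c.comp (ψ : C(S1, S1))).comp (φ : C(S1, S1))) := by
    exact dist_triangle _ _ _
  rw [dist_comp_homeo] at h2
  linarith

noncomputable instance : PseudoMetricSpace PL where
  dist := ldist
  dist_self γ := le_antisymm ((ldist_le_dist γ γ).trans (dist_self _).le) (ldist_nonneg γ γ)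
  dist_comm := ldist_comm
  dist_triangle := ldist_triangle

theorem dist_def (γ γ' : PL) : dist γ γ' = ldist γ γ' := rfl

/-- Loops: parametrised loops at distance `0` are identified. -/
abbrev Loop : Type := SeparationQuotient PL

/-- Diameter of the range of a parametrised loop. -/
noncomputable def PL.diam (γ : PL) : ℝ := Metric.diam (Set.range γ.c)

theorem isCompact_rng (γ : PL) : IsCompact (Set.range γ.c) := isCompact_range γ.c.continuous

theorem PL.diam_nonneg (γ : PL) : 0 ≤ γ.diam := Metric.diam_nonneg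

theorem PL.dist_le_diam (γ : PL) (s t : S1) : dist (γ.c s) (γ.c t) ≤ γ.diam :=
  Metric.dist_le_diam_of_mem (isCompact_rng γ).isBounded ⟨s, rfl⟩ ⟨t, rfl⟩

theorem PL.diam_le (γ γ' : PL) : γ.diam ≤ γ'.diam + 2 * dist γ γ' := by
  refine le_of_forall_pos_le_add fun ε hε => ?_
  obtain ⟨φ, hφ⟩ := exists_lt (show ldist γ γ' < ldist γ γ' + ε / 2 by linarith)
  refine Metric.diam_le_of_forall_dist_le ?_ ?_
  · have := γ'.diam_nonneg
    have := ldist_nonneg γ γ'
    rw [dist_def]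
    linarith
  · rintro _ ⟨s, rfl⟩ _ ⟨t, rfl⟩
    have h1 : dist (γ.c s) (γ'.c (φ s)) ≤ dist γ.c (γ'.c.comp (φ : C(S1, S1))) :=
      ContinuousMap.dist_apply_le_dist (f := γ.c) (g := γ'.c.comp (φ : C(S1, S1))) s
    have h2 : dist (γ.c t) (γ'.c (φ t)) ≤ dist γ.c (γ'.c.comp (φ : C(S1, S1))) :=
      ContinuousMap.dist_apply_le_dist (f := γ.c) (g := γ'.c.comp (φ : C(S1, S1))) t
    have h3 := γ'.dist_le_diam (φ s) (φ t)
    have h4 : dist (γ.c s) (γ.c t) ≤
        dist (γ.c s) (γ'.c (φ s)) + dist (γ'.c (φ s)) (γ'.c (φ t)) + dist (γ'.c (φ t)) (γ.c t) :=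
      dist_triangle4 _ _ _ _
    rw [dist_comm (γ'.c (φ t))] at h4
    rw [dist_def]
    linarith

/-- Diameter of a loop. -/
noncomputable def Loop.diam : Loop → ℝ :=
  SeparationQuotient.lift PL.diam (by
    intro γ γ' h
    have h0 : dist γ γ' = 0 := Metric.inseparable_iff.1 h
    have h1 := PL.diam_le γ γ'
    have h2 := PL.diam_le γ' γ
    rw [dist_comm γ' γ] at h2
    rw [h0] at h1 h2
    linarith)

@[simp] theorem Loop.diam_mk (γ : PL) : Loop.diam (SeparationQuotient.mk γ) = γ.diam := rfl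

theorem Loop.diam_nonneg (γ : Loop) : 0 ≤ γ.diam := by
  obtain ⟨γ, rfl⟩ := SeparationQuotient.surjective_mk γ
  exact γ.diam_nonneg

theorem Loop.diam_le (γ γ' : Loop) : γ.diam ≤ γ'.diam + 2 * dist γ γ' := by
  obtain ⟨γ, rfl⟩ := SeparationQuotient.surjective_mk γ
  obtain ⟨γ', rfl⟩ := SeparationQuotient.surjective_mk γ'
  rw [SeparationQuotient.dist_mk]
  exact PL.diam_le γ γ'

/-- Loop collections: multisets of nonconstant loops, finitely many of diameter `> ε` for every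
`ε > 0`. -/
@[ext] structure LoopColl where
  mult : Loop → ℕ
  nonconst : ∀ γ, mult γ ≠ 0 → 0 < γ.diam
  fin : ∀ ε : ℝ, 0 < ε → {γ | mult γ ≠ 0 ∧ ε < γ.diam}.Finite

/-- The members of a loop collection, counted with multiplicity. -/
abbrev LoopColl.Inst (Γ : LoopColl) : Type := Σ γ : Loop, Fin (Γ.mult γ)

/-- Some partial bijection (given by the relation `R`: `R x y` iff `x` and `y` are matched) covers
every loop of diameter `> ε` on either side and matches loops at distance `≤ ε`. -/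
def close (ε : ℝ) (Γ Γ' : LoopColl) : Prop :=
  ∃ R : Γ.Inst → Γ'.Inst → Prop,
    (∀ x y y', R x y → R x y' → y = y') ∧ (∀ x x' y, R x y → R x' y → x = x') ∧
    (∀ x, ε < x.1.diam → ∃ y, R x y) ∧ (∀ y, ε < y.1.diam → ∃ x, R x y) ∧
    ∀ x y, R x y → dist x.1 y.1 ≤ ε

theorem close_refl {ε : ℝ} (hε : 0 ≤ ε) (Γ : LoopColl) : close ε Γ Γ :=
  ⟨fun x y => x = y, fun _ _ _ h h' => h.symm.trans h', fun _ _ _ h h' => h.trans h'.symm,
    fun x _ => ⟨x, rfl⟩, fun x _ => ⟨x, rfl⟩, fun x y h => by simpa [h] using hε⟩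

theorem close_symm {ε : ℝ} {Γ Γ' : LoopColl} (h : close ε Γ Γ') : close ε Γ' Γ := by
  obtain ⟨R, h1, h2, h3, h4, h5⟩ := h
  exact ⟨fun x y => R y x, fun x y y' h h' => h2 y y' x h h', fun x x' y h h' => h1 y x x' h h',
    h4, h3, fun x y h => by rw [dist_comm]; exact h5 y x h⟩

theorem close_trans {ε ε' : ℝ} (hε : 0 ≤ ε) (hε' : 0 ≤ ε') {Γ Γ' Γ'' : LoopColl}
    (h : close ε Γ Γ') (h' : close ε' Γ' Γ'') : close (2 * (ε + ε')) Γ Γ'' := by
  obtain ⟨R, h1, h2, h3, h4, h5⟩ := h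
  obtain ⟨R', k1, k2, k3, k4, k5⟩ := h'
  refine ⟨fun x z => ∃ y, R x y ∧ R' y z, ?_, ?_, ?_, ?_, ?_⟩
  · rintro x z z' ⟨y, hy, hz⟩ ⟨y', hy', hz'⟩
    rw [h1 x y' y hy' hy] at hz'
    exact k1 y z z' hz hz'
  · rintro x x' z ⟨y, hy, hz⟩ ⟨y', hy', hz'⟩
    rw [k2 y' y z hz' hz] at hy'
    exact h2 x x' y hy hy'
  · intro x hx
    obtain ⟨y, hy⟩ := h3 x (by linarith)
    have e1 := Loop.diam_le x.1 y.1
    have e2 := h5 x y hy
    obtain ⟨z, hz⟩ := k3 y (by linarith)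
    exact ⟨z, y, hy, hz⟩
  · intro z hz
    obtain ⟨y, hy⟩ := k4 z (by linarith)
    have e1 := Loop.diam_le z.1 y.1
    have e2 := k5 y z hy
    rw [dist_comm] at e2
    obtain ⟨x, hx⟩ := h4 y (by linarith)
    exact ⟨x, y, hx, hy⟩
  · rintro x z ⟨y, hy, hz⟩
    have e1 := h5 x y hy
    have e2 := k5 y z hz
    have e3 := dist_triangle x.1 y.1 z.1
    linarith

theorem close_mono {ε ε' : ℝ} (h : ε ≤ ε') {Γ Γ' : LoopColl} (hc : close ε Γ Γ') :
    close ε' Γ Γ' := by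
  obtain ⟨R, h1, h2, h3, h4, h5⟩ := hc
  exact ⟨R, h1, h2, fun x hx => h3 x (h.trans_lt hx), fun y hy => h4 y (h.trans_lt hy),
    fun x y hxy => (h5 x y hxy).trans h⟩

/-- The filter basis of entourages. -/
def basis : FilterBasis (LoopColl × LoopColl) where
  sets := {s | ∃ ε : ℝ, 0 < ε ∧ s = {p | close ε p.1 p.2}}
  nonempty := ⟨_, 1, one_pos, rfl⟩
  inter_sets := by
    rintro _ _ ⟨ε, hε, rfl⟩ ⟨ε', hε', rfl⟩
    refine ⟨_, ⟨min ε ε', lt_min hε hε', rfl⟩, fun p hp => ?_⟩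
    exact ⟨close_mono (min_le_left _ _) hp, close_mono (min_le_right _ _) hp⟩

/-- The uniform structure of `LoopColl`. -/
instance : UniformSpace LoopColl := UniformSpace.ofCore
  (UniformSpace.Core.mkOfBasis basis
    (by
      rintro _ ⟨ε, hε, rfl⟩ Γ
      exact close_refl hε.le Γ)
    (by
      rintro _ ⟨ε, hε, rfl⟩
      exact ⟨_, ⟨ε, hε, rfl⟩, fun p hp => close_symm hp⟩)
    (by
      rintro _ ⟨ε, hε, rfl⟩
      refine ⟨_, ⟨ε / 4, by positivity, rfl⟩, ?_⟩
      rintro ⟨Γ, Γ''⟩ hp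
      obtain ⟨Γ', h1, h2⟩ := hp
      have := close_trans (by positivity) (by positivity) h1 h2
      exact close_mono (by linarith) this))

theorem uniformity_eq : uniformity LoopColl = basis.filter := rfl

theorem hasBasis : (uniformity LoopColl).HasBasis (fun ε : ℝ => 0 < ε)
    (fun ε => {p | close ε p.1 p.2}) := by
  rw [uniformity_eq]
  refine ⟨fun s => ?_⟩
  rw [FilterBasis.mem_filter_iff]
  constructor
  · rintro ⟨_, ⟨ε, hε, rfl⟩, h⟩
    exact ⟨ε, hε, h⟩
  · rintro ⟨ε, hε, h⟩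
    exact ⟨_, ⟨ε, hε, rfl⟩, h⟩

/-- Convergence of loop collections is the convergence of the problem. -/
theorem tendsto_iff {ι : Type*} {l : Filter ι} {u : ι → LoopColl} {Γ : LoopColl} :
    Tendsto u l (𝓝 Γ) ↔ ∀ ε : ℝ, 0 < ε → ∀ᶠ n in l, close ε (u n) Γ := by
  have hb : (𝓝 Γ).HasBasis (fun ε : ℝ => 0 < ε) (fun ε => {Γ' | close ε Γ Γ'}) :=
    nhds_basis_uniformity' hasBasis
  rw [hb.tendsto_right_iff]
  exact forall₂_congr fun ε _ => eventually_congr (Eventually.of_forall fun n =>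
    ⟨close_symm, close_symm⟩)

/-- Borel sets. -/
instance : MeasurableSpace LoopColl := borel _

instance : BorelSpace LoopColl := ⟨rfl⟩

/-- The collection formed by a finite family of loops (constant ones are dropped). -/
noncomputable def ofFamily {ι : Type*} (s : Set ι) (hs : s.Finite) (c : ι → Loop) : LoopColl where
  mult γ := open Classical in if 0 < γ.diam then Set.ncard {i | i ∈ s ∧ c i = γ} else 0
  nonconst := by
    intro γ h
    by_contra h0
    simp [h0] at h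
  fin := by
    intro ε hε
    refine (hs.image c).subset ?_
    rintro γ ⟨h1, -⟩
    have hne : Set.ncard {i | i ∈ s ∧ c i = γ} ≠ 0 := by
      intro h0
      apply h1
      split_ifs <;> simp [h0]
    obtain ⟨i, hi⟩ := Set.nonempty_of_ncard_ne_zero hne
    exact ⟨i, hi.1, hi.2⟩

/-! ## The local topology

Loops which are contained in the `ε`-neighbourhood of the boundary of `Ω` are ignored. -/

/-- Largest distance of a point of the loop to the boundary of `Ω`. -/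
noncomputable def PL.depth (Ω : Set ℂ) (γ : PL) : ℝ :=
  ⨆ t : S1, Metric.infDist (γ.c t) (frontier Ω)

theorem PL.depth_bdd (Ω : Set ℂ) (γ : PL) :
    BddAbove (Set.range fun t : S1 => Metric.infDist (γ.c t) (frontier Ω)) :=
  (isCompact_range ((Metric.continuous_infDist_pt _).comp γ.c.continuous)).bddAbove

theorem PL.le_depth (Ω : Set ℂ) (γ : PL) (t : S1) :
    Metric.infDist (γ.c t) (frontier Ω) ≤ γ.depth Ω := le_ciSup (PL.depth_bdd Ω γ) t

theorem PL.depth_le (Ω : Set ℂ) (γ γ' : PL) : γ.depth Ω ≤ γ'.depth Ω + dist γ γ' := by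
  refine le_of_forall_pos_le_add fun ε hε => ?_
  obtain ⟨φ, hφ⟩ := exists_lt (show ldist γ γ' < ldist γ γ' + ε by linarith)
  refine ciSup_le fun t => ?_
  have h1 : dist (γ.c t) (γ'.c (φ t)) ≤ dist γ.c (γ'.c.comp (φ : C(S1, S1))) :=
    ContinuousMap.dist_apply_le_dist (f := γ.c) (g := γ'.c.comp (φ : C(S1, S1))) t
  have h2 : Metric.infDist (γ.c t) (frontier Ω) ≤
      Metric.infDist (γ'.c (φ t)) (frontier Ω) + dist (γ.c t) (γ'.c (φ t)) :=
    Metric.infDist_le_infDist_add_dist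
  have h3 := PL.le_depth Ω γ' (φ t)
  rw [dist_def]
  linarith

/-- Largest distance of a point of the loop to the boundary of `Ω`. -/
noncomputable def Loop.depth (Ω : Set ℂ) : Loop → ℝ :=
  SeparationQuotient.lift (PL.depth Ω) (by
    intro γ γ' h
    have h0 : dist γ γ' = 0 := Metric.inseparable_iff.1 h
    have h1 := PL.depth_le Ω γ γ'
    have h2 := PL.depth_le Ω γ' γ
    rw [dist_comm γ' γ] at h2
    rw [h0] at h1 h2
    linarith)

@[simp] theorem Loop.depth_mk (Ω : Set ℂ) (γ : PL) :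
    Loop.depth Ω (SeparationQuotient.mk γ) = γ.depth Ω := rfl

theorem Loop.depth_le (Ω : Set ℂ) (γ γ' : Loop) : γ.depth Ω ≤ γ'.depth Ω + dist γ γ' := by
  obtain ⟨γ, rfl⟩ := SeparationQuotient.surjective_mk γ
  obtain ⟨γ', rfl⟩ := SeparationQuotient.surjective_mk γ'
  rw [SeparationQuotient.dist_mk]
  exact PL.depth_le Ω γ γ'

/-- Some partial bijection matches loops at distance `≤ ε` and covers, on either side, every loop
of diameter `> ε` which is not contained in the `ε`-neighbourhood of the boundary of `Ω`. -/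
def closeL (Ω : Set ℂ) (ε : ℝ) (Γ Γ' : LoopColl) : Prop :=
  ∃ R : Γ.Inst → Γ'.Inst → Prop,
    (∀ x y y', R x y → R x y' → y = y') ∧ (∀ x x' y, R x y → R x' y → x = x') ∧
    (∀ x, ε < x.1.diam → ε < x.1.depth Ω → ∃ y, R x y) ∧
    (∀ y, ε < y.1.diam → ε < y.1.depth Ω → ∃ x, R x y) ∧
    ∀ x y, R x y → dist x.1 y.1 ≤ ε

theorem closeL_of_close {Ω : Set ℂ} {ε : ℝ} {Γ Γ' : LoopColl} (h : close ε Γ Γ') :
    closeL Ω ε Γ Γ' := by
  obtain ⟨R, h1, h2, h3, h4, h5⟩ := h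
  exact ⟨R, h1, h2, fun x hx _ => h3 x hx, fun y hy _ => h4 y hy, h5⟩

theorem closeL_symm {Ω : Set ℂ} {ε : ℝ} {Γ Γ' : LoopColl} (h : closeL Ω ε Γ Γ') :
    closeL Ω ε Γ' Γ := by
  obtain ⟨R, h1, h2, h3, h4, h5⟩ := h
  exact ⟨fun x y => R y x, fun x y y' h h' => h2 y y' x h h', fun x x' y h h' => h1 y x x' h h',
    h4, h3, fun x y h => by rw [dist_comm]; exact h5 y x h⟩

theorem closeL_trans {Ω : Set ℂ} {ε ε' : ℝ} (hε : 0 ≤ ε) (hε' : 0 ≤ ε') {Γ Γ' Γ'' : LoopColl}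
    (h : closeL Ω ε Γ Γ') (h' : closeL Ω ε' Γ' Γ'') : closeL Ω (2 * (ε + ε')) Γ Γ'' := by
  obtain ⟨R, h1, h2, h3, h4, h5⟩ := h
  obtain ⟨R', k1, k2, k3, k4, k5⟩ := h'
  refine ⟨fun x z => ∃ y, R x y ∧ R' y z, ?_, ?_, ?_, ?_, ?_⟩
  · rintro x z z' ⟨y, hy, hz⟩ ⟨y', hy', hz'⟩
    rw [h1 x y' y hy' hy] at hz'
    exact k1 y z z' hz hz'
  · rintro x x' z ⟨y, hy, hz⟩ ⟨y', hy', hz'⟩
    rw [k2 y' y z hz' hz] at hy'
    exact h2 x x' y hy hy'
  · intro x hx hx'
    obtain ⟨y, hy⟩ := h3 x (by linarith) (by linarith)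
    have e1 := Loop.diam_le x.1 y.1
    have e2 := h5 x y hy
    have e3 := Loop.depth_le Ω x.1 y.1
    obtain ⟨z, hz⟩ := k3 y (by linarith) (by linarith)
    exact ⟨z, y, hy, hz⟩
  · intro z hz hz'
    obtain ⟨y, hy⟩ := k4 z (by linarith) (by linarith)
    have e1 := Loop.diam_le z.1 y.1
    have e2 := k5 y z hy
    have e3 := Loop.depth_le Ω z.1 y.1
    rw [dist_comm] at e2
    obtain ⟨x, hx⟩ := h4 y (by linarith) (by linarith)
    exact ⟨x, y, hx, hy⟩
  · rintro x z ⟨y, hy, hz⟩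
    have e1 := h5 x y hy
    have e2 := k5 y z hz
    have e3 := dist_triangle x.1 y.1 z.1
    linarith

theorem closeL_mono {Ω : Set ℂ} {ε ε' : ℝ} (h : ε ≤ ε') {Γ Γ' : LoopColl}
    (hc : closeL Ω ε Γ Γ') : closeL Ω ε' Γ Γ' := by
  obtain ⟨R, h1, h2, h3, h4, h5⟩ := hc
  exact ⟨R, h1, h2, fun x hx hx' => h3 x (h.trans_lt hx) (h.trans_lt hx'),
    fun y hy hy' => h4 y (h.trans_lt hy) (h.trans_lt hy'), fun x y hxy => (h5 x y hxy).trans h⟩

/-- The filter basis of the local entourages. -/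
def basisL (Ω : Set ℂ) : FilterBasis (LoopColl × LoopColl) where
  sets := {s | ∃ ε : ℝ, 0 < ε ∧ s = {p | closeL Ω ε p.1 p.2}}
  nonempty := ⟨_, 1, one_pos, rfl⟩
  inter_sets := by
    rintro _ _ ⟨ε, hε, rfl⟩ ⟨ε', hε', rfl⟩
    refine ⟨_, ⟨min ε ε', lt_min hε hε', rfl⟩, fun p hp => ?_⟩
    exact ⟨closeL_mono (min_le_left _ _) hp, closeL_mono (min_le_right _ _) hp⟩

/-- The local uniform structure of `LoopColl`. -/
@[reducible] def locU (Ω : Set ℂ) : UniformSpace LoopColl := UniformSpace.ofCore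
  (UniformSpace.Core.mkOfBasis (basisL Ω)
    (by
      rintro _ ⟨ε, hε, rfl⟩ Γ
      exact closeL_of_close (close_refl hε.le Γ))
    (by
      rintro _ ⟨ε, hε, rfl⟩
      exact ⟨_, ⟨ε, hε, rfl⟩, fun p hp => closeL_symm hp⟩)
    (by
      rintro _ ⟨ε, hε, rfl⟩
      refine ⟨_, ⟨ε / 4, by positivity, rfl⟩, ?_⟩
      rintro ⟨Γ, Γ''⟩ hp
      obtain ⟨Γ', h1, h2⟩ := hp
      have := closeL_trans (by positivity) (by positivity) h1 h2
      exact closeL_mono (by linarith) this))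

/-- The local topology of `LoopColl`. -/
@[reducible] def locT (Ω : Set ℂ) : TopologicalSpace LoopColl := (locU Ω).toTopologicalSpace

theorem hasBasisL (Ω : Set ℂ) : (@uniformity LoopColl (locU Ω)).HasBasis (fun ε : ℝ => 0 < ε)
    (fun ε => {p | closeL Ω ε p.1 p.2}) := by
  have e : @uniformity LoopColl (locU Ω) = (basisL Ω).filter := rfl
  rw [e]
  refine ⟨fun s => ?_⟩
  rw [FilterBasis.mem_filter_iff]
  constructor
  · rintro ⟨_, ⟨ε, hε, rfl⟩, h⟩
    exact ⟨ε, hε, h⟩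
  · rintro ⟨ε, hε, h⟩
    exact ⟨_, ⟨ε, hε, rfl⟩, h⟩

theorem tendsto_iffL {Ω : Set ℂ} {ι : Type*} {l : Filter ι} {u : ι → LoopColl} {Γ : LoopColl} :
    Tendsto u l (@nhds _ (locT Ω) Γ) ↔ ∀ ε : ℝ, 0 < ε → ∀ᶠ n in l, closeL Ω ε (u n) Γ := by
  have hb : (@nhds _ (locT Ω) Γ).HasBasis (fun ε : ℝ => 0 < ε)
      (fun ε => {Γ' | closeL Ω ε Γ Γ'}) := @nhds_basis_uniformity' _ _ (locU Ω) _ _ (hasBasisL Ω) Γ
  rw [hb.tendsto_right_iff]
  exact forall₂_congr fun ε _ => eventually_congr (Eventually.of_forall fun n =>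
    ⟨closeL_symm, closeL_symm⟩)

/-- the local topology is coarser -/
theorem continuous_of_locT {Ω : Set ℂ} {F : LoopColl → ℝ} (hF : @Continuous _ _ (locT Ω) _ F) :
    Continuous F := by
  rw [continuous_iff_continuousAt]
  intro Γ
  have h1 : Tendsto F (@nhds _ (locT Ω) Γ) (𝓝 (F Γ)) := @Continuous.tendsto _ _ (locT Ω) _ F hF Γ
  refine h1.comp ?_
  show Tendsto id (𝓝 Γ) (@nhds _ (locT Ω) Γ)
  rw [tendsto_iffL]
  intro ε hε
  exact ((tendsto_iff (u := id) (l := 𝓝 Γ) (Γ := Γ)).1 tendsto_id ε hε).mono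
    fun _ h => closeL_of_close h

end Vale.Agent.P155.Q1
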