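import Vale.Agent.P155.H878.M1

/-!
# P155, literal Q1: the matching, and the deterministic theorem (`DET`)
-/

namespace Vale.Agent.P155.Q1

open Topology Filter MeasureTheory TopologicalSpace Vale.Agent.P155 LatCycle

/-- two parametrisations of a Jordan curve are at distance zero -/
theorem jordan_unique {γ J : PL} {A : Set ℂ} (h : IsJordan γ A) (h' : IsJordan J A) :
    dist γ J = 0 := by
  have e1 : Topology.IsClosedEmbedding γ.c := γ.c.continuous.isClosedEmbedding h.1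
  have e2 : Topology.IsClosedEmbedding J.c := J.c.continuous.isClosedEmbedding h'.1
  have hr : Set.range γ.c = Set.range J.c := h.2.trans h'.2.symm
  let φ : S1 ≃ₜ S1 := (e1.isEmbedding.toHomeomorph.trans (Homeomorph.setCongr hr)).trans
    e2.isEmbedding.toHomeomorph.symm
  have hφ : ∀ x, J.c (φ x) = γ.c x := by
    intro x
    have : e2.isEmbedding.toHomeomorph (φ x) =
        (Homeomorph.setCongr hr) (e1.isEmbedding.toHomeomorph x) := by
      simp [φ]
    exact congrArg Subtype.val this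
  refine le_antisymm ?_ dist_nonneg
  rw [dist_def]
  refine (ldist_le γ J φ).trans (le_of_eq ?_)
  have : J.c.comp (φ : C(S1, S1)) = γ.c := by
    ext x
    exact hφ x
  rw [this, dist_self]

theorem jordan_diam_pos {γ : PL} (h : Function.Injective γ.c) : 0 < γ.diam := by
  have hne : ((0 : ℝ) : S1) ≠ ((1 / 2 : ℝ) : S1) := by
    intro he
    rw [eq_comm, AddCircle.coe_zero, AddCircle.coe_eq_zero_iff] at he
    obtain ⟨n, hn⟩ := he
    have h1 : (2 * n : ℝ) = 1 := by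
      simp at hn
      linarith
    have h2 : (2 * n : ℤ) = 1 := by exact_mod_cast h1
    omega
  have h1 := γ.dist_le_diam ((0 : ℝ) : S1) ((1 / 2 : ℝ) : S1)
  have h2 : 0 < dist (γ.c ((0 : ℝ) : S1)) (γ.c ((1 / 2 : ℝ) : S1)) :=
    dist_pos.2 fun he => hne (h he)
  linarith

/-- the members of a loop collection given by a family of loops -/
theorem exists_inst (Γ : LoopColl) {A : Type*} (a : A → Loop)
    (hfin : ∀ γ, {i | a i = γ}.Finite) (hm : ∀ γ, Γ.mult γ = Set.ncard {i | a i = γ}) :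
    ∃ e : Γ.Inst ≃ A, ∀ x, a (e x) = x.1 := by
  have h1 : ∀ γ, Nonempty (Fin (Γ.mult γ) ≃ {i // a i = γ}) := by
    intro γ
    have : Finite {i // a i = γ} := hfin γ
    have h2 : Nat.card {i // a i = γ} = Γ.mult γ := by
      rw [hm]
      exact Nat.card_coe_set_eq _
    rw [← h2]
    exact ⟨(Finite.equivFin _).symm⟩
  refine ⟨(Equiv.sigmaCongrRight fun γ => (h1 γ).some).trans (Equiv.sigmaFiberEquiv a), ?_⟩
  rintro ⟨γ, i⟩
  exact ((h1 γ).some i).2

theorem diam_frontier_le {U : Set ℂ} (hU : Bornology.IsBounded U) :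
    Metric.diam (frontier U) ≤ Metric.diam U := by
  rw [← Metric.diam_closure U]
  exact Metric.diam_mono frontier_subset_closure hU.closure

/-- the members of the limit collection are the holes -/
theorem exists_holes {Ω : Set ℂ} (hb : Bornology.IsBounded Ω) {G : ℕ → NonemptyCompacts ℂ}
    {Γ : LoopColl} (h : HoleLoops Ω G Γ) :
    ∃ (J : {p : ℕ × Set ℂ // 1 ≤ p.1 ∧ IsHole Ω (G p.1) p.2} → PL)
      (e : Γ.Inst ≃ {p : ℕ × Set ℂ // 1 ≤ p.1 ∧ IsHole Ω (G p.1) p.2}),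
      (∀ p, IsJordan (J p) (frontier p.1.2)) ∧ ∀ x, SeparationQuotient.mk (J (e x)) = x.1 := by
  choose J hJ using fun p : {p : ℕ × Set ℂ // 1 ≤ p.1 ∧ IsHole Ω (G p.1) p.2} =>
    h.jordan p.1.1 p.1.2 p.2.1 p.2.2
  have hdiam : ∀ p : {p : ℕ × Set ℂ // 1 ≤ p.1 ∧ IsHole Ω (G p.1) p.2},
      (J p).diam ≤ Metric.diam p.1.2 := by
    intro p
    unfold PL.diam
    rw [(hJ p).2]
    refine diam_frontier_le (hb.subset ?_)
    obtain ⟨z, hz, he⟩ := p.2.2
    rw [he]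
    exact (connectedComponentIn_subset _ _).trans fun w hw => hw.1
  obtain ⟨e, he⟩ := exists_inst Γ (fun p : {p : ℕ × Set ℂ // 1 ≤ p.1 ∧ IsHole Ω (G p.1) p.2} =>
    SeparationQuotient.mk (J p)) (by
      intro γ
      rcases eq_or_ne {p : {p : ℕ × Set ℂ // 1 ≤ p.1 ∧ IsHole Ω (G p.1) p.2} |
        SeparationQuotient.mk (J p) = γ} ∅ with h0 | h0
      · rw [h0]
        exact Set.finite_empty
      · obtain ⟨p0, hp0⟩ := Set.nonempty_iff_ne_empty.2 h0
        have hpos : 0 < γ.diam := by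
          rw [← show SeparationQuotient.mk (J p0) = γ from hp0]
          exact jordan_diam_pos (hJ p0).1
        refine Set.Finite.of_finite_image (f := Subtype.val)
          ((h.fin (γ.diam / 2) (by positivity)).subset ?_) Subtype.val_injective.injOn
        rintro _ ⟨p, hp, rfl⟩
        refine ⟨p.2.1, p.2.2, ?_⟩
        have h1 := hdiam p
        have h2 : γ.diam = (J p).diam := by
          rw [← show SeparationQuotient.mk (J p) = γ from hp]
          rfl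
        linarith) (by
      intro γ
      rw [h.mult γ, ← Set.ncard_image_of_injective _ Subtype.val_injective]
      congr 1
      ext p
      constructor
      · rintro ⟨h1, h2, c, hc, hcγ⟩
        refine ⟨⟨p, h1, h2⟩, ?_, rfl⟩
        show SeparationQuotient.mk (J ⟨p, h1, h2⟩) = γ
        rw [← hcγ, SeparationQuotient.mk_eq_mk, Metric.inseparable_iff]
        exact jordan_unique (hJ ⟨p, h1, h2⟩) hc
      · rintro ⟨q, hq, rfl⟩
        exact ⟨q.2.1, q.2.2, J q, hJ q, hq⟩)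
  exact ⟨J, e, hJ, he⟩

/-- representative of a loop -/
theorem loopOf_eq {V : Finset Pt} {ω : Conf} (hω : ω ∈ DD V) {L : Set Pt} (hL : L ∈ Loops ω)
    (δ : ℝ) (a : ℂ) : ∃ v, ω.1 v ≠ ω.2 v ∧ comp ω v = L ∧
      loopOf δ a ω L = SeparationQuotient.mk (lcurve δ a ω v) := by
  have h := P155.L.loop_nonempty hL
  refine ⟨h.some, P155.L.loop_ne hω hL h.some_mem, (P155.L.loop_eq_comp hω hL h.some_mem).symm, ?_⟩
  unfold loopOf
  rw [dif_pos h]

theorem lcurve_diam_pos {V : Finset Pt} {ω : Conf} (hω : ω ∈ DD V) {δ : ℝ} (hδ : 0 < δ) (a : ℂ)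
    {v : Pt} (hv : v ∈ V) : 0 < (lcurve δ a ω v).diam := by
  have hm : (0 : ℝ) < (comp ω v).ncard := by exact_mod_cast ncard_pos hω hv
  have h1 := (lcurve δ a ω v).dist_le_diam ((0 : ℝ) : S1) ((1 / (comp ω v).ncard : ℝ) : S1)
  have e1 := polyLoop_coe (comp ω v).ncard (cyc δ a ω v) (cyc_periodic δ a ω v) 0
  have e2 := polyLoop_coe (comp ω v).ncard (cyc δ a ω v) (cyc_periodic δ a ω v)
    (1 / (comp ω v).ncard)
  have e3 : (comp ω v).ncard * (1 / (comp ω v).ncard : ℝ) = ((0 + 1 : ℤ) : ℝ) := by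
    push_cast
    field_simp
  rw [e3, poly_int] at e2
  rw [mul_zero, ← Int.cast_zero, poly_int] at e1
  have h2 := cyc_step hω hδ a hv 0
  have h3 : dist ((lcurve δ a ω v).c ((0 : ℝ) : S1))
      ((lcurve δ a ω v).c ((1 / (comp ω v).ncard : ℝ) : S1)) = δ := by
    show dist ((polyLoop (comp ω v).ncard (cyc δ a ω v) (cyc_periodic δ a ω v)).c ((0 : ℝ) : S1))
      ((polyLoop (comp ω v).ncard (cyc δ a ω v) (cyc_periodic δ a ω v)).c _) = δ
    rw [e2]
    rw [Int.cast_zero] at e1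
    rw [e1, dist_comm]
    exact h2
  rw [h3] at h1
  linarith

/-- the members of the discrete collection are the loops -/
theorem exists_loops {V : Finset Pt} {ω : Conf} (hω : ω ∈ DD V) {δ : ℝ} (hδ : 0 < δ) (a : ℂ) :
    ∃ e : (LL δ a ω).Inst ≃ {L : Set Pt // L ∈ Loops ω}, ∀ x, loopOf δ a ω (e x).1 = x.1 := by
  have hfin := P155.L.loops_finite hω
  refine exists_inst (LL δ a ω) (fun L : {L : Set Pt // L ∈ Loops ω} => loopOf δ a ω L.1) ?_ ?_
  · intro γ
    have : Finite {L : Set Pt // L ∈ Loops ω} := hfin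
    exact Set.toFinite _
  · intro γ
    rw [← Set.ncard_image_of_injective _ Subtype.val_injective]
    unfold LL
    rw [dif_pos hfin]
    show (if 0 < γ.diam then Set.ncard {i | i ∈ Loops ω ∧ loopOf δ a ω i = γ} else 0) = _
    split_ifs with h0
    · congr 1
      ext L
      constructor
      · rintro ⟨h1, h2⟩
        exact ⟨⟨L, h1⟩, h2, rfl⟩
      · rintro ⟨L, h1, rfl⟩
        exact ⟨L.2, h1⟩
    · symm
      rw [Set.ncard_eq_zero ((hfin.subset (by
        rintro _ ⟨L, -, rfl⟩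
        exact L.2)))]
      rw [Set.eq_empty_iff_forall_notMem]
      rintro _ ⟨L, hL, rfl⟩
      apply h0
      obtain ⟨v, hv, hvL, he⟩ := loopOf_eq hω L.2 δ a
      rw [← show loopOf δ a ω L.1 = γ from hL, he]
      exact lcurve_diam_pos hω hδ a (mem_V_of_loop hω hv)

/-- a property which fails infinitely often fails along a subsequence -/
theorem exists_subseq_not {α : Type*} {p : ℕ → α → Prop} (h : ¬ ∀ᶠ j in atTop, ∀ v, p j v) :
    ∃ (φ : ℕ → ℕ) (v : ℕ → α), StrictMono φ ∧ ∀ j, ¬ p (φ j) (v j) := by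
  rw [not_eventually] at h
  obtain ⟨φ, hφ, h2⟩ := extraction_of_frequently_atTop h
  choose v hv using fun j => not_forall.1 (h2 j)
  exact ⟨φ, v, hφ, hv⟩

variable {Ω : Set ℂ} {S : TempApprox Ω} {n : ℕ → ℕ} {ω : ℕ → Conf} {G : ℕ → NonemptyCompacts ℂ}
  {Γ : LoopColl}

/-- uniform form of `M1` -/
theorem m1_unif (hg : Good Ω S n ω G) {k : ℕ} (hk : 1 ≤ k)
    {z : ℂ} (hz : z ∈ Ω \ (G k : Set ℂ))
    (hin : frontier (connectedComponentIn (Ω \ (G k : Set ℂ)) z) ⊆ Ω) {J : PL}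
    (hJ : IsJordan J (frontier (connectedComponentIn (Ω \ G k) z))) {ε : ℝ} (hε : 0 < ε) :
    ∀ᶠ j in atTop, ∀ v, (ω j).1 v ≠ (ω j).2 v → level (ω j) (comp (ω j) v) = k →
      surrZ (S.δ (n j)) (S.a (n j)) (ω j) (comp (ω j) v) z →
      dist (lcurve (S.δ (n j)) (S.a (n j)) (ω j) v) J ≤ ε := by
  by_contra hcon
  obtain ⟨φ, v, hφ, hv⟩ := exists_subseq_not hcon
  push Not at hv
  have h1 := m1 Ω S (n ∘ φ) (ω ∘ φ) G (hg.sub hφ.tendsto_atTop) k hk z hz hin J hJ v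
    (fun j => (hv j).1) (fun j => (hv j).2.1) (fun j => (hv j).2.2.1)
  obtain ⟨j, hj⟩ := (h1.eventually (gt_mem_nhds hε)).exists
  exact absurd (hv j).2.2.2 (not_lt.2 hj.le)

/-- uniform form of `M2` -/
theorem m2_unif (hg : Good Ω S n ω G)
    (hH : HoleLoops Ω G Γ) {ε η : ℝ} (hε : 0 < ε) (hη : 0 < η)
    (zz : {p : ℕ × Set ℂ // 1 ≤ p.1 ∧ IsHole Ω (G p.1) p.2} → ℂ)
    (hzz : ∀ p, zz p ∈ Ω \ (G p.1.1 : Set ℂ) ∧
      p.1.2 = connectedComponentIn (Ω \ (G p.1.1 : Set ℂ)) (zz p)) :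
    ∀ᶠ j in atTop, ∀ v, (ω j).1 v ≠ (ω j).2 v →
      ε ≤ (lcurve (S.δ (n j)) (S.a (n j)) (ω j) v).diam →
      (∃ u ∈ comp (ω j) v, η < Metric.infDist (pt (S.δ (n j)) (S.a (n j)) u) (frontier Ω)) →
      ∃ p, ε / 8 < Metric.diam p.1.2 ∧ level (ω j) (comp (ω j) v) = p.1.1 ∧
        surrZ (S.δ (n j)) (S.a (n j)) (ω j) (comp (ω j) v) (zz p) := by
  by_contra hcon
  obtain ⟨φ, v, hφ, hv⟩ := exists_subseq_not hcon
  simp only [Classical.not_imp] at hv
  have hg1 := hg.sub hφ.tendsto_atTop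
  obtain ⟨k, hk, z, hz, hfr⟩ := m2 Ω S _ _ G Γ hg1 hH ε η hε hη v (fun j => (hv j).1)
    (fun j => (hv j).2.1) (fun j => (hv j).2.2.1)
  obtain ⟨ψ, hψ, h2⟩ := extraction_of_frequently_atTop hfr
  have hg2 := hg1.sub hψ.tendsto_atTop
  have hhole : IsHole Ω (G k) (connectedComponentIn (Ω \ (G k : Set ℂ)) z) := ⟨z, hz, rfl⟩
  obtain ⟨J, hJ⟩ := hH.jordan k _ hk hhole
  have h3 := m1 Ω S _ _ G hg2 k hk z hz (hH.inside k _ hk hhole) J hJ (v ∘ ψ)
    (fun j => (hv (ψ j)).1) (fun j => (h2 j).1) (fun j => (h2 j).2)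
  set p : {p : ℕ × Set ℂ // 1 ≤ p.1 ∧ IsHole Ω (G p.1) p.2} := ⟨(k, _), hk, hhole⟩ with hp
  have hzp := (hzz p).1
  have hcp : connectedComponentIn (Ω \ (G k : Set ℂ)) z =
    connectedComponentIn (Ω \ (G k : Set ℂ)) (zz p) := (hzz p).2
  have hmem : zz p ∈ connectedComponentIn (Ω \ (G k : Set ℂ)) z := by
    rw [hcp]
    exact mem_connectedComponentIn hzp
  have h4 := scc Ω S _ _ G hg2 k hk z hz (zz p) hmem
  obtain ⟨j, h5, h6⟩ := ((h3.eventually (gt_mem_nhds (show 0 < ε / 4 by positivity))).and h4).exists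
  have h7 := h6 _ (comp_mem_Loops (hv (ψ j)).1) (h2 j).1 (h2 j).2
  refine (hv (ψ j)).2.2.2 ⟨p, ?_, (h2 j).1, h7⟩
  have h8 := PL.diam_le (lcurve (S.δ (n (φ (ψ j)))) (S.a (n (φ (ψ j)))) (ω (φ (ψ j)))
    (v (ψ j))) J
  have h9 : J.diam ≤ Metric.diam (connectedComponentIn (Ω \ (G k : Set ℂ)) z) := by
    unfold PL.diam
    rw [hJ.2]
    exact diam_frontier_le (hg.bdd.subset
      ((connectedComponentIn_subset _ _).trans fun w hw => hw.1))
  have h10 := (hv (ψ j)).2.1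
  have h11 : dist (lcurve (S.δ (n (φ (ψ j)))) (S.a (n (φ (ψ j)))) (ω (φ (ψ j)))
    (v (ψ j))) J < ε / 4 := h5
  have h12 : ε ≤ (lcurve (S.δ (n (φ (ψ j)))) (S.a (n (φ (ψ j)))) (ω (φ (ψ j)))
    (v (ψ j))).diam := h10
  show ε / 8 < Metric.diam (connectedComponentIn (Ω \ (G k : Set ℂ)) z)
  linarith

/-- a lattice loop of depth `> ε` has a vertex at distance `> ε / 2` from the boundary -/
theorem exists_deep_vertex {V : Finset Pt} {ω : Conf} (hω : ω ∈ DD V) {δ : ℝ} (hδ : 0 < δ) (a : ℂ)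
    {v : Pt} (hv : v ∈ V) {Ω : Set ℂ} {ε : ℝ} (hδε : 2 * δ < ε)
    (h : ε < (lcurve δ a ω v).depth Ω) :
    ∃ u ∈ comp ω v, ε / 2 < Metric.infDist (pt δ a u) (frontier Ω) := by
  obtain ⟨t, ht⟩ : ∃ t : S1, ε < Metric.infDist ((lcurve δ a ω v).c t) (frontier Ω) := by
    by_contra hcon
    push Not at hcon
    exact absurd (ciSup_le hcon) (not_le.2 h)
  obtain ⟨t, rfl⟩ := QuotientAddGroup.mk_surjective t
  have e1 := polyLoop_coe (comp ω v).ncard (cyc δ a ω v) (cyc_periodic δ a ω v) t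
  have h1 := poly_near (cyc δ a ω v) ((comp ω v).ncard * t)
  rw [cyc_step hω hδ a hv] at h1
  refine ⟨_, cycP_comp ω v ⌊((comp ω v).ncard : ℝ) * t⌋, ?_⟩
  have h2 : ε < Metric.infDist (poly (cyc δ a ω v) ((comp ω v).ncard * t)) (frontier Ω) := by
    rw [← e1]
    exact ht
  have h3 : Metric.infDist (poly (cyc δ a ω v) ((comp ω v).ncard * t)) (frontier Ω) ≤
      Metric.infDist (cyc δ a ω v ⌊((comp ω v).ncard : ℝ) * t⌋) (frontier Ω) +
        dist (poly (cyc δ a ω v) ((comp ω v).ncard * t))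
          (cyc δ a ω v ⌊((comp ω v).ncard : ℝ) * t⌋) := Metric.infDist_le_infDist_add_dist
  rw [← cyc_eq]
  linarith

/-- the depth of a lattice loop is at least the distance of every vertex to the boundary -/
theorem le_depth {V : Finset Pt} {ω : Conf} (hω : ω ∈ DD V) (δ : ℝ) (a : ℂ)
    {v : Pt} (hv : v ∈ V) (Ω : Set ℂ) {u : Pt} (hu : u ∈ comp ω v) :
    Metric.infDist (pt δ a u) (frontier Ω) ≤ (lcurve δ a ω v).depth Ω := by
  have hm : (0 : ℝ) < (comp ω v).ncard := by exact_mod_cast ncard_pos hω hv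
  obtain ⟨i, hi⟩ := exists_cycP hω hv hu
  have h1 := PL.le_depth Ω (lcurve δ a ω v) (((i : ℝ) / (comp ω v).ncard : ℝ) : S1)
  have e1 := polyLoop_coe (comp ω v).ncard (cyc δ a ω v) (cyc_periodic δ a ω v)
    ((i : ℝ) / (comp ω v).ncard)
  have e2 : ((comp ω v).ncard : ℝ) * ((i : ℝ) / (comp ω v).ncard) = i := by
    field_simp
  rw [e2, poly_int, cyc_eq, hi] at e1
  rw [← e1]
  exact h1

theorem det_local (hg : Good Ω S n ω G) (hH : HoleLoops Ω G Γ) {ε : ℝ} (hε : 0 < ε) :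
    ∀ᶠ j in atTop, closeL Ω ε (LL (S.δ (n j)) (S.a (n j)) (ω j)) Γ := by
  obtain ⟨J, eA, hJ, heA⟩ := exists_holes hg.bdd hH
  choose zz hzz using fun p : {p : ℕ × Set ℂ // 1 ≤ p.1 ∧ IsHole Ω (G p.1) p.2} => p.2.2
  have hfin : {p : {p : ℕ × Set ℂ // 1 ≤ p.1 ∧ IsHole Ω (G p.1) p.2} |
      ε / 8 < Metric.diam p.1.2}.Finite := by
    refine Set.Finite.of_finite_image (f := Subtype.val)
      ((hH.fin (ε / 8) (by positivity)).subset ?_) Subtype.val_injective.injOn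
    rintro _ ⟨p, hp, rfl⟩
    exact ⟨p.2.1, p.2.2, hp⟩
  have E1 := (Set.Finite.eventually_all hfin).2 fun p _ =>
    exi Ω S n ω G hg p.1.1 p.2.1 (zz p) (hzz p).1
  have E2 := (Set.Finite.eventually_all hfin).2 fun p _ =>
    m1_unif hg p.2.1 (hzz p).1 (by rw [← (hzz p).2]; exact hH.inside _ _ p.2.1 p.2.2)
      (J := J p) (by rw [← (hzz p).2]; exact hJ p) hε
  have E3 := (Set.Finite.eventually_all hfin).2 fun p _ =>
    (Set.Finite.eventually_all hfin).2 fun p' _ =>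
    show ∀ᶠ j in atTop, p.1.1 = p'.1.1 → p.1.2 ≠ p'.1.2 →
      ¬ ∃ L ∈ Loops (ω j), level (ω j) L = p.1.1 ∧
      surrZ (S.δ (n j)) (S.a (n j)) (ω j) L (zz p) ∧
      surrZ (S.δ (n j)) (S.a (n j)) (ω j) L (zz p') by
      by_cases h1 : p.1.1 = p'.1.1 ∧ p.1.2 ≠ p'.1.2
      · refine (hg.same p.1.1 p.2.1 (zz p) (zz p') (hzz p).1 ?_ ?_).mono fun j hj _ _ => hj
        · rw [h1.1]
          exact (hzz p').1
        · have h2 := (hzz p').2
          rw [← h1.1] at h2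
          rw [← (hzz p).2, ← h2]
          exact h1.2
      · exact Eventually.of_forall fun j h2 h3 => absurd ⟨h2, h3⟩ h1
  have E4 := m2_unif hg hH hε (half_pos hε) zz hzz
  filter_upwards [E1, E2, E3, E4, hg.delta_lt (show 0 < ε / 2 by positivity)]
    with j e1 e2 e3 e4 e5
  have hω := hg.mem j
  obtain ⟨eB, heB⟩ := exists_loops hω (S.pos (n j)) (S.a (n j))
  refine ⟨fun x y => ε / 8 < Metric.diam (eA y).1.2 ∧
    level (ω j) (eB x).1 = (eA y).1.1 ∧
    surrZ (S.δ (n j)) (S.a (n j)) (ω j) (eB x).1 (zz (eA y)), ?_, ?_, ?_, ?_, ?_⟩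
  · rintro x y y' ⟨h1, h2, h3⟩ ⟨h1', h2', h3'⟩
    have h4 : (eA y).1.1 = (eA y').1.1 := h2.symm.trans h2'
    have h5 : (eA y).1.2 = (eA y').1.2 := by
      by_contra hne
      exact e3 (eA y) h1 (eA y') h1' h4 hne ⟨_, (eB x).2, h2, h3, h3'⟩
    exact eA.injective (Subtype.ext (Prod.ext h4 h5))
  · rintro x x' y ⟨h1, h2, h3⟩ ⟨h1', h2', h3'⟩
    refine eB.injective (Subtype.ext ?_)
    exact loop_unique hω (eB x).2 (eB x').2 (h2.trans h2'.symm) h3 h3'
  · intro x hx hx'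
    obtain ⟨v, hv, hvL, he⟩ := loopOf_eq hω (eB x).2 (S.δ (n j)) (S.a (n j))
    rw [heB x] at he
    have h1 : ε ≤ (lcurve (S.δ (n j)) (S.a (n j)) (ω j) v).diam := by
      rw [he] at hx
      exact hx.le
    have h1' : ε < (lcurve (S.δ (n j)) (S.a (n j)) (ω j) v).depth Ω := by
      rw [he] at hx'
      exact hx'
    obtain ⟨p, h2, h3, h4⟩ := e4 v hv h1
      (exists_deep_vertex hω (S.pos _) _ (mem_V_of_loop hω hv) (by linarith) h1')
    refine ⟨eA.symm p, ?_⟩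
    rw [hvL] at h3 h4
    simp only [Equiv.apply_symm_apply]
    exact ⟨h2, h3, h4⟩
  · intro y hy _
    have h1 : ε / 8 < Metric.diam (eA y).1.2 := by
      have h2 := heA y
      have h3 : y.1.diam = (J (eA y)).diam := by
        rw [← h2]
        rfl
      have h4 : (J (eA y)).diam ≤ Metric.diam (eA y).1.2 := by
        unfold PL.diam
        rw [(hJ (eA y)).2]
        refine diam_frontier_le (hg.bdd.subset ?_)
        rw [(hzz (eA y)).2]
        exact (connectedComponentIn_subset _ _).trans fun w hw => hw.1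
      linarith
    obtain ⟨v, hv, h2, h3⟩ := e1 (eA y) h1
    refine ⟨eB.symm ⟨_, comp_mem_Loops hv⟩, ?_⟩
    simp only [Equiv.apply_symm_apply]
    exact ⟨h1, h2, h3⟩
  · rintro x y ⟨h1, h2, h3⟩
    obtain ⟨v, hv, hvL, he⟩ := loopOf_eq hω (eB x).2 (S.δ (n j)) (S.a (n j))
    rw [← hvL] at h2 h3
    have h4 := e2 (eA y) h1 v hv h2 h3
    rw [← heB x, he, ← heA y, SeparationQuotient.dist_mk]
    exact h4

/-- the macroscopic loops of the limit are at a positive distance from the boundary -/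
theorem exists_depth (hg : Good Ω S n ω G) (hH : HoleLoops Ω G Γ) {ε : ℝ} (hε : 0 < ε) :
    ∃ η : ℝ, 0 < η ∧ ∀ y : Γ.Inst, ε < y.1.diam → η < y.1.depth Ω := by
  obtain ⟨J, eA, hJ, heA⟩ := exists_holes hg.bdd hH
  have hfin : {p : {p : ℕ × Set ℂ // 1 ≤ p.1 ∧ IsHole Ω (G p.1) p.2} |
      ε / 2 < Metric.diam p.1.2}.Finite := by
    refine Set.Finite.of_finite_image (f := Subtype.val)
      ((hH.fin (ε / 2) (by positivity)).subset ?_) Subtype.val_injective.injOn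
    rintro _ ⟨p, hp, rfl⟩
    exact ⟨p.2.1, p.2.2, hp⟩
  have hpos : ∀ p, 0 < (J p).depth Ω := by
    intro p
    have h1 : (J p).c 0 ∈ frontier p.1.2 := by
      rw [← (hJ p).2]
      exact ⟨0, rfl⟩
    have h2 : (J p).c 0 ∉ frontier Ω := by
      have h3 := hH.inside _ _ p.2.1 p.2.2 h1
      rw [hg.opn.frontier_eq]
      exact fun h => h.2 h3
    have h3 := (isClosed_frontier.notMem_iff_infDist_pos hg.frontier_nonempty).1 h2
    exact h3.trans_le (PL.le_depth Ω (J p) 0)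
  obtain ⟨η, hη, hmin⟩ : ∃ η : ℝ, 0 < η ∧ ∀ p ∈ {p : {p : ℕ × Set ℂ // 1 ≤ p.1 ∧
      IsHole Ω (G p.1) p.2} | ε / 2 < Metric.diam p.1.2}, η < (J p).depth Ω := by
    have hev : ∀ᶠ η : ℝ in 𝓝[>] 0, ∀ p ∈ {p : {p : ℕ × Set ℂ // 1 ≤ p.1 ∧
        IsHole Ω (G p.1) p.2} | ε / 2 < Metric.diam p.1.2}, η < (J p).depth Ω :=
      (Set.Finite.eventually_all hfin).2 fun p _ =>
        (eventually_lt_nhds (hpos p)).filter_mono nhdsWithin_le_nhds
    obtain ⟨η, h1, h2⟩ := (hev.and self_mem_nhdsWithin).exists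
    exact ⟨η, h2, h1⟩
  refine ⟨η, hη, fun y hy => ?_⟩
  have h1 := heA y
  have h2 : (J (eA y)).diam ≤ Metric.diam (eA y).1.2 := by
    unfold PL.diam
    rw [(hJ (eA y)).2]
    refine diam_frontier_le (hg.bdd.subset ?_)
    obtain ⟨z, hz, he⟩ := (eA y).2.2
    rw [he]
    exact (connectedComponentIn_subset _ _).trans fun w hw => hw.1
  rw [← h1] at hy ⊢
  rw [Loop.depth_mk]
  refine hmin (eA y) ?_
  have h3 : ε < (J (eA y)).diam := hy
  show ε / 2 < Metric.diam (eA y).1.2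
  linarith

theorem det : DET := by
  intro Ω S n ω G Γ hg hH
  refine ⟨fun ε hε => det_local hg hH hε, fun hbd => ?_⟩
  rw [tendsto_iff]
  intro ε hε
  obtain ⟨η1, hη1, hb⟩ := hbd (ε / 2) (by positivity)
  obtain ⟨η2, hη2, hd⟩ := exists_depth hg hH hε
  filter_upwards [det_local hg hH (show 0 < min ε (min η1 η2) by positivity), hb,
    hg.delta_lt (show 0 < ε / 4 by positivity)] with j h1 h2 h3
  have hω := hg.mem j
  obtain ⟨R, a1, a2, a3, a4, a5⟩ := h1
  have m1 : min ε (min η1 η2) ≤ ε := min_le_left _ _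
  have m2 : min ε (min η1 η2) ≤ η1 := (min_le_right _ _).trans (min_le_left _ _)
  have m3 : min ε (min η1 η2) ≤ η2 := (min_le_right _ _).trans (min_le_right _ _)
  refine ⟨R, a1, a2, ?_, ?_, fun x y h => (a5 x y h).trans m1⟩
  · intro x hx
    refine a3 x (m1.trans_lt hx) ?_
    obtain ⟨eB, heB⟩ := exists_loops hω (S.pos (n j)) (S.a (n j))
    obtain ⟨v, hv, hvL, he⟩ := loopOf_eq hω (eB x).2 (S.δ (n j)) (S.a (n j))
    rw [heB x] at he
    have h4 : ε < (lcurve (S.δ (n j)) (S.a (n j)) (ω j) v).diam := by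
      rw [he] at hx
      exact hx
    have hvV := mem_V_of_loop hω hv
    obtain ⟨i, hi, i', hi', hdd⟩ := exists_far hω (S.pos _) (S.a (n j)) hvV hε (by linarith) h4.le
    obtain ⟨u, hu, hud⟩ := h2 v hv ⟨_, iter_comp (ω j) v i, _, iter_comp (ω j) v i', hdd⟩
    have h5 := le_depth hω (S.δ (n j)) (S.a (n j)) hvV Ω hu
    rw [he, Loop.depth_mk]
    linarith
  · intro y hy
    exact a4 y (m1.trans_lt hy) (m3.trans_lt (hd y hy))

end Vale.Agent.P155.Q1
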