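import Vale.Agent.P155.H878.Prod
import Vale.Agent.P155.H878.Match
import Vale.Agent.P155.T211Q.Same
import Vale.Agent.P155.U.Iface

/-!
# P155, literal Q1: the probabilistic assembly

`q1_local_of : FullStatement → CROSS → FAT → TOP → LocalQ1Statement`,
`q1_of : FullStatement → CROSS → FAT → TOP → BDL → Q1Statement`.
-/

namespace Vale.Agent.P155.Q1

open Topology Filter MeasureTheory TopologicalSpace Vale.Agent.P155 U902

/-- extended continuous mapping theorem with countably many conditions -/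
theorem pass_countable {ι E Θ I : Type*} [Countable I] [Nonempty I] [PseudoMetricSpace E]
    [MeasurableSpace Θ] (P : Measure Θ)
    [IsProbabilityMeasure P] {D : ℕ → Finset ι} {Y : ℕ → ι → E} {Z : Θ → E}
    (hZ : ∀ F : E → ℝ, Continuous F → AEStronglyMeasurable (fun x => F (Z x)) P)
    (hLIM : ∀ F : E → ℝ, Continuous F → (∃ C, ∀ y, |F y| ≤ C) →
      Tendsto (fun n => K.avg (D n) (fun i => F (Y n i))) atTop (𝓝 (∫ x, F (Z x) ∂P)))
    {Cd : I → ℕ → ℕ → ι → Prop}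
    (hC : ∀ i, ∀ ε > 0, ∃ c, ∀ᶠ n in atTop, K.avg (D n) (fun a => fails (Cd i c n a)) ≤ ε)
    {Φn : ℕ → ι → ℝ} {Φ : Θ → ℝ} {M : ℝ} (hM : ∀ n, ∀ i ∈ D n, |Φn n i| ≤ M)
    (hlim : ∀ᵐ x ∂P, ∀ (n : ℕ → ℕ) (ω : ℕ → ι), Tendsto n atTop atTop →
      (∀ j, ω j ∈ D (n j)) → (∀ i, ∃ c, ∀ᶠ j in atTop, Cd i c (n j) (ω j)) →
      Tendsto (fun j => Y (n j) (ω j)) atTop (𝓝 (Z x)) →
      Tendsto (fun j => Φn (n j) (ω j)) atTop (𝓝 (Φ x))) :
    Tendsto (fun n => K.avg (D n) (Φn n)) atTop (𝓝 (∫ x, Φ x ∂P)) := by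
  obtain ⟨f, hf⟩ := exists_surjective_nat I
  refine (pass P hZ hLIM (Cd := fun i => Cd (f i)) (fun i => hC (f i)) hM ?_).2.1
  filter_upwards [hlim] with x hx n ω hn hω hcd hY
  refine hx n ω hn hω (fun i => ?_) hY
  obtain ⟨i', rfl⟩ := hf i
  exact hcd i'

theorem avg_fails_le {V : Finset Pt} {q p : Conf → Prop} (h : ∀ ω ∈ DD V, ¬ q ω → p ω) :
    K.avg (DD V) (fun ω => fails (q ω)) ≤ Pr V p := by
  unfold Pr Ex
  refine K.avg_mono (DD V) fun ω hω => ?_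
  by_cases hq : q ω
  · rw [fails_of hq]
    exact Set.indicator_nonneg (fun _ _ => zero_le_one) _
  · rw [fails_not hq, Set.indicator_of_mem (show ω ∈ {ω | p ω} from h ω hω hq)]

theorem avg_fails_zero {V : Finset Pt} {q : Conf → Prop} (h : ∀ ω, q ω) :
    K.avg (DD V) (fun ω => fails (q ω)) = 0 := by
  unfold K.avg
  simp [fails_of (h _)]

theorem exists_one_div_le {α : ℝ} (hα : 0 < α) : ∃ c : ℕ, 1 / ((c : ℝ) + 1) ≤ α := by
  obtain ⟨c, hc⟩ := exists_nat_one_div_lt hα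
  exact ⟨c, hc.le⟩

/-! ## The conditions -/

section Conditions

variable (Ω : Set ℂ) (S : TempApprox Ω)

def dir (b : Bool) : Dir := if b then hor else ver

theorem dir_eq (b : Bool) : dir b = hor ∨ dir b = ver := by
  cases b
  · exact Or.inr rfl
  · exact Or.inl rfl

theorem exists_dir {d : Dir} (hd : d = hor ∨ d = ver) : ∃ b, dir b = d := by
  rcases hd with rfl | rfl
  · exact ⟨true, rfl⟩
  · exact ⟨false, rfl⟩

def CdCross (d : Dir) (r0 r1 s0 s1 : ℚ) (c n : ℕ) (ω : Conf) : Prop :=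
  r0 < r1 → s0 < s1 → d.rect r0 r1 s0 s1 ⊆ Ω →
    Set.ncard {v | ∃ m, d.Crosses (S.δ n) (S.a n) ω r0 r1 s0 s1 v m} ≤ c

def CdFat (d : Dir) (r0 r1 s0 s1 r0' r1' s0' s1' : ℚ) (c n : ℕ) (ω : Conf) : Prop :=
  r0 < r1 → s0 < s1 → r0' < r0 → r1 < r1' → s0' < s0 → s1 < s1' →
    d.rect r0' r1' s0' s1' ⊆ Ω → ∀ v m, d.Crosses (S.δ n) (S.a n) ω r0 r1 s0 s1 v m →
      1 / ((c : ℝ) + 1) ≤ (S.δ n) ^ 2 * Set.ncard {f : Pt | surr ω (comp ω v) f ∧
        sqr (S.δ n) (S.a n) f ⊆ d.rect r0' r1' s0' s1'}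

def CdTop (d : Dir) (r0 r0' r1' r1 s0 s1 : ℚ) (c n : ℕ) (ω : Conf) : Prop :=
  r0 < r0' → r0' < r1' → r1' < r1 → s0 < s1 → d.rect r0 r1 s0 s1 ⊆ Ω → ∀ v m v' m',
    d.Crosses (S.δ n) (S.a n) ω r0 r1 s0 s1 v m →
    d.Crosses (S.δ n) (S.a n) ω r0 r1 s0 s1 v' m' → v ≠ v' → Same ω v v' →
    1 / ((c : ℝ) + 1) ≤ (S.δ n) ^ 2 * ∑ X ∈ Finset.Ico (d.lp (S.δ n) (S.a n) r0')
      (d.lp (S.δ n) (S.a n) r1'), |(topS d.p d.q ω v m X : ℝ) - topS d.p d.q ω v' m' X|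

def CdBd (m0 : ℕ) (c n : ℕ) (ω : Conf) : Prop := ∀ v, ω.1 v ≠ ω.2 v →
    (∃ x ∈ comp ω v, ∃ y ∈ comp ω v, 1 / ((m0 : ℝ) + 1) ≤
      dist (pt (S.δ n) (S.a n) x) (pt (S.δ n) (S.a n) y)) →
    ∃ u ∈ comp ω v, 1 / ((c : ℝ) + 1) <
      Metric.infDist (pt (S.δ n) (S.a n) u) (frontier Ω)

def CdSame (k i j m0 : ℕ) (c n : ℕ) (ω : Conf) : Prop :=
  denseSeq ℂ i ∈ Ω → denseSeq ℂ j ∈ Ω →
    ¬ (1 / ((m0 : ℝ) + 1) ≤
        Metric.infDist (denseSeq ℂ i) (gasket (S.δ n) (S.a n) (S.T n) (k + 1) ω) ∧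
      1 / ((m0 : ℝ) + 1) ≤
        Metric.infDist (denseSeq ℂ j) (gasket (S.δ n) (S.a n) (S.T n) (k + 1) ω) ∧
      T211Q.bott (denseSeq ℂ i) (denseSeq ℂ j)
        (gasket (S.δ n) (S.a n) (S.T n) (k + 1) ω) ≤ 1 / ((c : ℝ) + 1) ∧
      T211Q.SameLev (k + 1) ω (K.cell (S.δ n) (S.a n) (denseSeq ℂ i))
        (K.cell (S.δ n) (S.a n) (denseSeq ℂ j)))

/-- indices of the conditions -/
abbrev CI : Type := (Bool × ℚ × ℚ × ℚ × ℚ) ⊕ (Bool × (ℚ × ℚ × ℚ × ℚ) × (ℚ × ℚ × ℚ × ℚ)) ⊕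
  (Bool × (ℚ × ℚ × ℚ) × (ℚ × ℚ × ℚ)) ⊕ (ℕ × ℕ × ℕ × ℕ)

def Cd : CI → ℕ → ℕ → Conf → Prop
  | .inl (b, r0, r1, s0, s1) => CdCross Ω S (dir b) r0 r1 s0 s1
  | .inr (.inl (b, (r0, r1, s0, s1), (r0', r1', s0', s1'))) =>
      CdFat Ω S (dir b) r0 r1 s0 s1 r0' r1' s0' s1'
  | .inr (.inr (.inl (b, (r0, r0', r1'), (r1, s0, s1)))) => CdTop Ω S (dir b) r0 r0' r1' r1 s0 s1
  | .inr (.inr (.inr (k, i, j, m0))) => CdSame Ω S k i j m0

/-- all conditions -/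
def CdF : CI ⊕ ℕ → ℕ → ℕ → Conf → Prop
  | .inl i => Cd Ω S i
  | .inr m0 => CdBd Ω S m0

end Conditions

/-- the conditions along a sequence give a good sequence -/
theorem good_of {Ω : Set ℂ} {S : TempApprox Ω} (ho : IsOpen Ω) (hb : Bornology.IsBounded Ω)
    {n : ℕ → ℕ} {ω : ℕ → Conf} {G : ℕ → NonemptyCompacts ℂ} (hlim : Tendsto n atTop atTop)
    (hmem : ∀ j, ω j ∈ DD (S.T (n j)).V)
    (hgas : Tendsto (fun j => fun k => toNC (gasket (S.δ (n j)) (S.a (n j)) (S.T (n j)) k (ω j)))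
      atTop (𝓝 G))
    (hzero : (G 0 : Set ℂ) = frontier Ω) (hnull : ∀ k, volume ((G k : Set ℂ) ∩ Ω) = 0)
    (hcd : ∀ i, ∃ c, ∀ᶠ j in atTop, Cd Ω S i c (n j) (ω j)) : Good Ω S n ω G where
  opn := ho
  bdd := hb
  lim := hlim
  mem := hmem
  gasket k := (tendsto_pi_nhds.1 hgas) k
  zero := hzero
  null := hnull
  cross d hd r0 r1 s0 s1 h1 h2 h3 := by
    obtain ⟨b, rfl⟩ := exists_dir hd
    obtain ⟨c, hc⟩ := hcd (.inl (b, r0, r1, s0, s1))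
    exact ⟨c, hc.mono fun j hj => hj h1 h2 h3⟩
  fat d hd r0 r1 s0 s1 r0' r1' s0' s1' h1 h2 h3 h4 h5 h6 h7 := by
    obtain ⟨b, rfl⟩ := exists_dir hd
    obtain ⟨c, hc⟩ := hcd (.inr (.inl (b, (r0, r1, s0, s1), (r0', r1', s0', s1'))))
    exact ⟨1 / ((c : ℝ) + 1), by positivity, hc.mono fun j hj => hj h1 h2 h3 h4 h5 h6 h7⟩
  top d hd r0 r0' r1' r1 s0 s1 h1 h2 h3 h4 h5 := by
    obtain ⟨b, rfl⟩ := exists_dir hd
    obtain ⟨c, hc⟩ := hcd (.inr (.inr (.inl (b, (r0, r0', r1'), (r1, s0, s1)))))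
    exact ⟨1 / ((c : ℝ) + 1), by positivity, hc.mono fun j hj => hj h1 h2 h3 h4 h5⟩
  same := by
    refine T211Q.same_det ho S hlim hmem (fun k => (tendsto_pi_nhds.1 hgas) k) hzero
      (D := Set.range (denseSeq ℂ)) (denseRange_denseSeq ℂ) ?_
    rintro k _ ⟨⟨i, rfl⟩, hi⟩ _ ⟨⟨j, rfl⟩, hj⟩ s hs ⟨m0, rfl⟩
    obtain ⟨c, hc⟩ := hcd (.inr (.inr (.inr (k, i, j, m0))))
    exact ⟨1 / ((c : ℝ) + 1), by positivity, hc.mono fun l hl => hl hi hj⟩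

theorem bdL_of {Ω : Set ℂ} {S : TempApprox Ω} {n : ℕ → ℕ} {ω : ℕ → Conf}
    (hcd : ∀ m0, ∃ c, ∀ᶠ j in atTop, CdBd Ω S m0 c (n j) (ω j)) : BdL S n ω := by
  intro ρ hρ
  obtain ⟨m0, hm0⟩ := exists_one_div_le hρ
  obtain ⟨c, hc⟩ := hcd m0
  refine ⟨1 / ((c : ℝ) + 1), by positivity, hc.mono fun j hj v hv hd => ?_⟩
  obtain ⟨x, hx, y, hy, hd⟩ := hd
  exact hj v hv ⟨x, hx, y, hy, hm0.trans hd⟩

/-- the conditions are tight -/
theorem cd_tight {Ω : Set ℂ} (ho : IsOpen Ω) (hb : Bornology.IsBounded Ω) (hne : Ω.Nonempty)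
    (hsc : SimplyConnectedSpace Ω) (S : TempApprox Ω)
    (hCr : CROSS hor ∧ CROSS ver) (hFa : FAT hor ∧ FAT ver) (hTo : TOP hor ∧ TOP ver)
    (hSame : ∀ (k : ℕ) {z z' : ℂ}, z ∈ Ω → z' ∈ Ω → ∀ {s ε : ℝ}, 0 < s → 0 < ε →
      ∃ r > 0, ∀ᶠ n in atTop, Pr (S.T n).V (fun ω =>
      s ≤ Metric.infDist z (gasket (S.δ n) (S.a n) (S.T n) (k + 1) ω) ∧
      s ≤ Metric.infDist z' (gasket (S.δ n) (S.a n) (S.T n) (k + 1) ω) ∧
      T211Q.bott z z' (gasket (S.δ n) (S.a n) (S.T n) (k + 1) ω) ≤ r ∧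
      T211Q.SameLev (k + 1) ω (K.cell (S.δ n) (S.a n) z) (K.cell (S.δ n) (S.a n) z')) < ε)
    (i : CI) (ε : ℝ) (hε : 0 < ε) :
    ∃ c, ∀ᶠ n in atTop, K.avg (DD (S.T n).V) (fun ω => fails (Cd Ω S i c n ω)) ≤ ε := by
  rcases i with ⟨b, r0, r1, s0, s1⟩ | ⟨b, ⟨r0, r1, s0, s1⟩, ⟨r0', r1', s0', s1'⟩⟩ |
    ⟨b, ⟨r0, r0', r1'⟩, ⟨r1, s0, s1⟩⟩ | ⟨k, i, j, m0⟩
  · by_cases hyp : r0 < r1 ∧ s0 < s1 ∧ (dir b).rect r0 r1 s0 s1 ⊆ Ω
    · obtain ⟨h1, h2, h3⟩ := hyp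
      have hC : CROSS (dir b) := by
        cases b
        exacts [hCr.2, hCr.1]
      obtain ⟨M, hM⟩ := hC Ω ho hb hne hsc S r0 r1 s0 s1 (by exact_mod_cast h1)
        (by exact_mod_cast h2) h3 ε hε
      refine ⟨M, hM.mono fun n hn => (avg_fails_le fun ω _ hq => ?_).trans hn⟩
      by_contra hcon
      exact hq fun _ _ _ => not_lt.1 hcon
    · refine ⟨0, Eventually.of_forall fun n => ?_⟩
      rw [avg_fails_zero]
      · exact hε.le
      · intro ω h1 h2 h3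
        exact absurd ⟨h1, h2, h3⟩ hyp
  · by_cases hyp : r0 < r1 ∧ s0 < s1 ∧ r0' < r0 ∧ r1 < r1' ∧ s0' < s0 ∧ s1 < s1' ∧
        (dir b).rect r0' r1' s0' s1' ⊆ Ω
    · obtain ⟨h1, h2, h3, h4, h5, h6, h7⟩ := hyp
      have hC : FAT (dir b) := by
        cases b
        exacts [hFa.2, hFa.1]
      obtain ⟨α, hα, hA⟩ := hC Ω ho hb hne hsc S r0 r1 s0 s1 r0' r1' s0' s1'
        (by exact_mod_cast h1) (by exact_mod_cast h2) (by exact_mod_cast h3)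
        (by exact_mod_cast h4) (by exact_mod_cast h5) (by exact_mod_cast h6) h7 ε hε
      obtain ⟨c, hc⟩ := exists_one_div_le hα
      refine ⟨c, hA.mono fun n hn => (avg_fails_le fun ω _ hq => ?_).trans hn⟩
      by_contra hcon
      refine hq fun _ _ _ _ _ _ _ v m hv => ?_
      by_contra hlt
      exact hcon ⟨v, m, hv, (not_le.1 hlt).trans_le hc⟩
    · refine ⟨0, Eventually.of_forall fun n => ?_⟩
      rw [avg_fails_zero]
      · exact hε.le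
      · intro ω h1 h2 h3 h4 h5 h6 h7
        exact absurd ⟨h1, h2, h3, h4, h5, h6, h7⟩ hyp
  · by_cases hyp : r0 < r0' ∧ r0' < r1' ∧ r1' < r1 ∧ s0 < s1 ∧ (dir b).rect r0 r1 s0 s1 ⊆ Ω
    · obtain ⟨h1, h2, h3, h4, h5⟩ := hyp
      have hC : TOP (dir b) := by
        cases b
        exacts [hTo.2, hTo.1]
      obtain ⟨α, hα, hA⟩ := hC Ω ho hb hne hsc S r0 r0' r1' r1 s0 s1 (by exact_mod_cast h1)
        (by exact_mod_cast h2) (by exact_mod_cast h3) (by exact_mod_cast h4) h5 ε hε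
      obtain ⟨c, hc⟩ := exists_one_div_le hα
      refine ⟨c, hA.mono fun n hn => (avg_fails_le fun ω _ hq => ?_).trans hn⟩
      by_contra hcon
      refine hq fun _ _ _ _ _ v m v' m' h6 h7 h8 h9 => ?_
      by_contra hlt
      exact hcon ⟨v, m, v', m', h6, h7, h8, h9, (not_le.1 hlt).trans_le hc⟩
    · refine ⟨0, Eventually.of_forall fun n => ?_⟩
      rw [avg_fails_zero]
      · exact hε.le
      · intro ω h1 h2 h3 h4 h5
        exact absurd ⟨h1, h2, h3, h4, h5⟩ hyp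
  · by_cases hyp : denseSeq ℂ i ∈ Ω ∧ denseSeq ℂ j ∈ Ω
    · obtain ⟨r, hr, hA⟩ := hSame k hyp.1 hyp.2 (s := 1 / ((m0 : ℝ) + 1)) (by positivity) hε
      obtain ⟨c, hc⟩ := exists_one_div_le hr
      refine ⟨c, hA.mono fun n hn => (avg_fails_le fun ω _ hq => ?_).trans hn.le⟩
      by_contra hcon
      refine hq fun _ _ h => ?_
      exact hcon ⟨h.1, h.2.1, h.2.2.1.trans hc, h.2.2.2⟩
    · refine ⟨0, Eventually.of_forall fun n => ?_⟩
      rw [avg_fails_zero]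
      · exact hε.le
      · intro ω h1 h2
        exact absurd ⟨h1, h2⟩ hyp

theorem bd_tight {Ω : Set ℂ} (ho : IsOpen Ω) (hb : Bornology.IsBounded Ω) (hne : Ω.Nonempty)
    (hsc : SimplyConnectedSpace Ω) (S : TempApprox Ω) (hBD : BDL) (m0 : ℕ) (ε : ℝ) (hε : 0 < ε) :
    ∃ c, ∀ᶠ n in atTop, K.avg (DD (S.T n).V) (fun ω => fails (CdBd Ω S m0 c n ω)) ≤ ε := by
  obtain ⟨η, hη, hA⟩ := hBD Ω ho hb hne hsc S (1 / ((m0 : ℝ) + 1)) (by positivity) ε hε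
  obtain ⟨c, hc⟩ := exists_one_div_le hη
  refine ⟨c, hA.mono fun n hn => (avg_fails_le fun ω _ hq => ?_).trans hn⟩
  by_contra hcon
  refine hq fun v hv hd => ?_
  by_contra hlt
  push Not at hlt
  exact hcon ⟨v, hv, fun u hu => (hlt u hu).trans hc, hd⟩

/-- BD for strands implies BD for loops -/
theorem bdl_of_bd (h : BD) : BDL := by
  intro Ω ho hb hne hsc S ρ hρ ε hε
  obtain ⟨η, hη, hA⟩ := h Ω ho hb hne hsc S ρ hρ ε hε
  refine ⟨η, hη, hA.mono fun n hn => le_trans ?_ hn⟩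
  unfold Pr Ex
  refine K.avg_mono (DD (S.T n).V) fun ω hω => ?_
  by_cases hp : ω ∈ {ω : Conf | ∃ v, ω.1 v ≠ ω.2 v ∧
      (∀ u ∈ comp ω v, Metric.infDist (pt (S.δ n) (S.a n) u) (frontier Ω) ≤ η) ∧
      ∃ x ∈ comp ω v, ∃ y ∈ comp ω v, ρ ≤ dist (pt (S.δ n) (S.a n) x)
        (pt (S.δ n) (S.a n) y)}
  · rw [Set.indicator_of_mem hp, Set.indicator_of_mem]
    obtain ⟨v, hv, h1, x, hx, y, hy, hd⟩ := hp
    have hvV := mem_V_of_loop hω hv
    obtain ⟨i, hi, rfl⟩ := exists_iter hω hvV hx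
    obtain ⟨i', hi', rfl⟩ := exists_iter hω hvV hy
    exact ⟨v, (comp ω v).ncard, hv, fun j _ => h1 _ (iter_comp ω v j), i, hi.le, i', hi'.le, hd⟩
  · rw [Set.indicator_of_notMem hp]
    exact Set.indicator_nonneg (fun _ _ => zero_le_one) _

section Final

variable {Ω : Set ℂ} {Θ : Type} [MeasurableSpace Θ] {P : Measure Θ}
  {G : ℕ → Θ → NonemptyCompacts ℂ} {ξ : ℕ → ℕ → Θ → ℝ}

/-- convergence in law of all gaskets -/
theorem gaskets (hFull : Uq.FullStatement) (ho : IsOpen Ω) (hb : Bornology.IsBounded Ω)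
    (hne : Ω.Nonempty) (hsc : SimplyConnectedSpace Ω) (S : TempApprox Ω)
    (h : T211Q.FairCarpets P Ω G ξ) :
    (∀ F : (ℕ → NonemptyCompacts ℂ) → ℝ, Continuous F →
      AEStronglyMeasurable (fun x => F (fun l => G l x)) P) ∧
    (∀ F : (ℕ → NonemptyCompacts ℂ) → ℝ, Continuous F → (∃ C, ∀ y, |F y| ≤ C) →
      Tendsto (fun n => Ex (S.T n).V (fun ω =>
        F (fun l => toNC (gasket (S.δ n) (S.a n) (S.T n) l ω)))) atTop
        (𝓝 (∫ x, F (fun l => G l x) ∂P))) ∧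
    (∀ (k : ℕ) {z z' : ℂ}, z ∈ Ω → z' ∈ Ω → ∀ {s ε : ℝ}, 0 < s → 0 < ε →
      ∃ r > 0, ∀ᶠ n in atTop, Pr (S.T n).V (fun ω =>
      s ≤ Metric.infDist z (gasket (S.δ n) (S.a n) (S.T n) (k + 1) ω) ∧
      s ≤ Metric.infDist z' (gasket (S.δ n) (S.a n) (S.T n) (k + 1) ω) ∧
      T211Q.bott z z' (gasket (S.δ n) (S.a n) (S.T n) (k + 1) ω) ≤ r ∧
      T211Q.SameLev (k + 1) ω (K.cell (S.δ n) (S.a n) z) (K.cell (S.δ n) (S.a n) z')) < ε) := by
  have hP := h.prob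
  have hconv := (hFull Ω ho hb hne hsc S).2 Θ _ P G _ hP h.sc
  have hmeas : ∀ F : (ℕ → NonemptyCompacts ℂ) → ℝ, Continuous F →
      AEStronglyMeasurable (fun x => F (fun l => G l x)) P := by
    intro F hF
    let _ : MeasurableSpace (NonemptyCompacts ℂ) := borel _
    have : BorelSpace (NonemptyCompacts ℂ) := ⟨rfl⟩
    have h1 : Measurable fun x => (fun l => G l x) := measurable_pi_lambda _ fun l => h.mG l
    exact (hF.measurable.comp h1).aestronglyMeasurable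
  refine ⟨hmeas, ?_, fun k {z z'} hz hz' {s ε} hs hε =>
    T211Q.same_prob ho S h hconv k hz hz' hs hε⟩
  have hfin : ∀ (k : ℕ) (F : (Fin k → NonemptyCompacts ℂ) → ℝ), Continuous F →
      (∃ C, ∀ y, |F y| ≤ C) → Tendsto (fun n => Ex (S.T n).V (fun ω =>
        F (fun l => toNC (gasket (S.δ n) (S.a n) (S.T n) l ω)))) atTop
        (𝓝 (∫ x, F (fun l => G l x) ∂P)) := by
    intro k F hF hb
    obtain ⟨C, hC⟩ := hb
    exact hconv k 0 (fun i => i.elim0) (fun i => i.elim0) (fun y => F y.1)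
      (hF.comp continuous_fst) ⟨C, fun y => hC _⟩
  have hsub : ∀ᵐ x ∂P, ∀ k, (G k x : Set ℂ) ⊆ closure Ω := by
    filter_upwards [h.sc.mono] with x hx k
    exact (hx k).2
  intro F hF hFb
  exact lim_prod hb S hsub hmeas hfin F hF hFb

end Final

open scoped PiCountable in
/-- **The literal first question in the local topology**, from the convergence of the signed
gaskets and the tightness estimates inside the domain. -/
theorem q1_local_of (hFull : Uq.FullStatement) (hCr : CROSS hor ∧ CROSS ver)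
    (hFa : FAT hor ∧ FAT ver) (hTo : TOP hor ∧ TOP ver) : LocalQ1Statement := by
  intro Ω ho hb hne hsc S μ hμ F hFL hFb
  have hF : Continuous F := continuous_of_locT hFL
  obtain ⟨Θ, mΘ, P, G, ξ, Γ, hP, hΓ, rfl, hHL, mξ, pm, half, iind, mG, ind, sc⟩ := hμ
  obtain ⟨CF, hCF⟩ := hFb
  have hfair : T211Q.FairCarpets P Ω G ξ := ⟨hP, mξ, pm, half, iind, mG, ind, sc⟩
  obtain ⟨hmeas, hlim, hsame⟩ := gaskets hFull ho hb hne hsc S hfair
  rw [integral_map hΓ hF.measurable.aestronglyMeasurable]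
  refine pass_countable P (E := ℕ → NonemptyCompacts ℂ) (D := fun n => DD (S.T n).V)
    (Y := fun n ω l => toNC (gasket (S.δ n) (S.a n) (S.T n) l ω)) (Z := fun x l => G l x)
    (Cd := Cd Ω S) (Φn := fun n ω => F (LL (S.δ n) (S.a n) ω)) (Φ := fun x => F (Γ x)) (M := CF)
    hmeas hlim ?_ (fun n ω _ => hCF _) ?_
  · intro i ε hε
    exact cd_tight ho hb hne hsc S hCr hFa hTo (fun k {z z'} hz hz' {s ε} hs hε =>
      hsame k hz hz' hs hε) i ε hε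
  · filter_upwards [hHL, sc.zero, sc.null] with x h1 h2 h3 n ω hn hω hcd hY
    have hdet := (det Ω S n ω (fun k => G k x) (Γ x) (good_of ho hb hn hω hY h2.1 h3 hcd) h1).1
    have hT : Tendsto (fun j => LL (S.δ (n j)) (S.a (n j)) (ω j)) atTop
        (@nhds _ (locT Ω) (Γ x)) := tendsto_iffL.2 hdet
    have hFt : Tendsto F (@nhds _ (locT Ω) (Γ x)) (𝓝 (F (Γ x))) :=
      @Continuous.tendsto _ _ (locT Ω) _ F hFL (Γ x)
    exact hFt.comp hT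

open scoped PiCountable in
/-- **The literal first question**, from the convergence of the signed gaskets and the tightness
estimates. -/
theorem q1_of (hFull : Uq.FullStatement) (hCr : CROSS hor ∧ CROSS ver) (hFa : FAT hor ∧ FAT ver)
    (hTo : TOP hor ∧ TOP ver) (hBD : BDL) : Q1Statement := by
  intro Ω ho hb hne hsc S μ hμ F hF hFb
  obtain ⟨Θ, mΘ, P, G, ξ, Γ, hP, hΓ, rfl, hHL, mξ, pm, half, iind, mG, ind, sc⟩ := hμ
  obtain ⟨CF, hCF⟩ := hFb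
  have hfair : T211Q.FairCarpets P Ω G ξ := ⟨hP, mξ, pm, half, iind, mG, ind, sc⟩
  obtain ⟨hmeas, hlim, hsame⟩ := gaskets hFull ho hb hne hsc S hfair
  rw [integral_map hΓ hF.measurable.aestronglyMeasurable]
  refine pass_countable P (E := ℕ → NonemptyCompacts ℂ) (D := fun n => DD (S.T n).V)
    (Y := fun n ω l => toNC (gasket (S.δ n) (S.a n) (S.T n) l ω)) (Z := fun x l => G l x)
    (Cd := CdF Ω S) (Φn := fun n ω => F (LL (S.δ n) (S.a n) ω)) (Φ := fun x => F (Γ x)) (M := CF)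
    hmeas hlim ?_ (fun n ω _ => hCF _) ?_
  · rintro (i | m0) ε hε
    · exact cd_tight ho hb hne hsc S hCr hFa hTo (fun k {z z'} hz hz' {s ε} hs hε =>
        hsame k hz hz' hs hε) i ε hε
    · exact bd_tight ho hb hne hsc S hBD m0 ε hε
  · filter_upwards [hHL, sc.zero, sc.null] with x h1 h2 h3 n ω hn hω hcd hY
    exact (hF.tendsto (Γ x)).comp
      ((det Ω S n ω (fun k => G k x) (Γ x) (good_of ho hb hn hω hY h2.1 h3
        (fun i => hcd (.inl i))) h1).2 (bdL_of fun m0 => hcd (.inr m0)))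

end Vale.Agent.P155.Q1
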