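import Vale.Agent.P155.H878.DetIface
import Vale.Agent.P155.H878.Orb
import Vale.Agent.P155.K.Conn2

/-!
# P155, literal Q1: lattice facts on loops and gaskets
-/

namespace Vale.Agent.P155.Q1

open Topology Filter MeasureTheory TopologicalSpace Vale.Agent.P155 LatCycle

variable {V : Finset Pt} {ω : Conf} {δ : ℝ} {a : ℂ} {T : Temp}

theorem pt_eq_kpt (δ : ℝ) (a : ℂ) (v : Pt) : pt δ a v = KConn.pt δ a v.1 v.2 := by
  rw [KConn.pt_eq]
  unfold pt
  push_cast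
  rfl

theorem pt_mem_sqr (hδ : 0 < δ) {v F : Pt} (h : corner v F) : pt δ a v ∈ sqr δ a F := by
  rw [pt_eq_kpt, KConn.mem_sqr hδ, KConn.gx_pt hδ, KConn.gy_pt hδ]
  obtain ⟨h1, h2⟩ := h
  refine ⟨?_, ?_, ?_, ?_⟩
  · exact_mod_cast (by omega : F.1 ≤ v.1)
  · exact_mod_cast (by omega : v.1 ≤ F.1 + 1)
  · exact_mod_cast (by omega : F.2 ≤ v.2)
  · exact_mod_cast (by omega : v.2 ≤ F.2 + 1)

theorem mem_sqr_cell (hδ : 0 < δ) (z : ℂ) : z ∈ sqr δ a (K.cell δ a z) := by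
  rw [KConn.mem_sqr hδ]
  exact ⟨Int.floor_le _, (Int.lt_floor_add_one _).le, Int.floor_le _, (Int.lt_floor_add_one _).le⟩

theorem dist_le_of_mem_sqr (hδ : 0 < δ) {z w : ℂ} {f : Pt} (hz : z ∈ sqr δ a f)
    (hw : w ∈ sqr δ a f) : dist z w ≤ 2 * δ := by
  obtain ⟨s, t, h1, h2, h3, h4, rfl⟩ := hz
  obtain ⟨s', t', h1', h2', h3', h4', rfl⟩ := hw
  rw [dist_eq_norm]
  have e : a + (δ : ℂ) * ((((f.1 : ℝ) + s : ℝ) : ℂ) + (((f.2 : ℝ) + t : ℝ) : ℂ) * Complex.I) -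
      (a + (δ : ℂ) * ((((f.1 : ℝ) + s' : ℝ) : ℂ) + (((f.2 : ℝ) + t' : ℝ) : ℂ) * Complex.I)) =
      ((δ * (s - s') : ℝ) : ℂ) + ((δ * (t - t') : ℝ) : ℂ) * Complex.I := by
    push_cast
    ring
  rw [e]
  refine (norm_add_le _ _).trans ?_
  rw [norm_mul, Complex.norm_I, mul_one, Complex.norm_real, Complex.norm_real, Real.norm_eq_abs,
    Real.norm_eq_abs, abs_mul, abs_mul, abs_of_pos hδ]
  have a1 : |s - s'| ≤ 1 := abs_le.2 ⟨by linarith, by linarith⟩
  have a2 : |t - t'| ≤ 1 := abs_le.2 ⟨by linarith, by linarith⟩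
  nlinarith

/-! ### a connected set off the gasket is surrounded by one loop -/

theorem isClosed_regionU {ι : Type*} {J : Set ι} (hJ : J.Finite) {S : ι → Set Pt} (hδ : 0 < δ)
    (hS : ∀ i ∈ J, (S i).Finite) : IsClosed (⋃ i ∈ J, region δ a (S i)) :=
  (hJ.isCompact_biUnion fun i hi => KConn.isCompact_region hδ (hS i hi)).isClosed

/-- A connected set contained in the faces surrounded by at least `k ≥ 1` loops is contained in one
polygon of level `k`. -/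
theorem conn_one (hδ : 0 < δ) (hω : ω ∈ DD T.V) {k : ℕ} (hk : 1 ≤ k) {C : Set ℂ}
    (hC : IsConnected C) (h : C ⊆ region δ a (Ok T k ω)) :
    ∃ L ∈ Loops ω, level ω L = k ∧ C ⊆ region δ a (P155.L.intr ω L) := by
  obtain ⟨z, hz⟩ := hC.nonempty
  have hcov : ∀ w ∈ C, ∃ A ∈ Loops ω, level ω A = k ∧ w ∈ region δ a (P155.L.intr ω A) := by
    intro w hw
    have h1 := h hw
    unfold region at h1
    rw [Set.mem_iUnion₂] at h1
    obtain ⟨f, hf, hwf⟩ := h1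
    rw [KConn.Ok_eq_iUnion hk hω, Set.mem_iUnion₂] at hf
    obtain ⟨A, ⟨hA, hl⟩, hfA⟩ := hf
    refine ⟨A, hA, hl, ?_⟩
    unfold region
    rw [Set.mem_iUnion₂]
    exact ⟨f, hfA, hwf⟩
  obtain ⟨A, hA, hl, hzA⟩ := hcov z hz
  refine ⟨A, hA, hl, ?_⟩
  have hfinJ : {B | B ∈ Loops ω ∧ level ω B = k ∧ B ≠ A}.Finite :=
    (P155.L.loops_finite hω).subset fun B hB => hB.1
  have hcl : IsClosed (⋃ B ∈ {B | B ∈ Loops ω ∧ level ω B = k ∧ B ≠ A},
      region δ a (P155.L.intr ω B)) :=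
    isClosed_regionU hfinJ hδ (fun B hB => P155.L.intr_finite hω hB.1)
  have hclA : IsClosed (region δ a (P155.L.intr ω A)) :=
    (KConn.isCompact_region hδ (P155.L.intr_finite hω hA)).isClosed
  by_contra hcon
  rw [Set.not_subset] at hcon
  obtain ⟨w, hw, hwA⟩ := hcon
  have hpre := isPreconnected_closed_iff.1 hC.isPreconnected _ _ hclA hcl (by
    intro u hu
    obtain ⟨B, hB, hlB, huB⟩ := hcov u hu
    by_cases hBA : B = A
    · left; rwa [hBA] at huB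
    · right
      rw [Set.mem_iUnion₂]
      exact ⟨B, ⟨hB, hlB, hBA⟩, huB⟩) ⟨z, hz, hzA⟩ (by
    obtain ⟨B, hB, hlB, huB⟩ := hcov w hw
    refine ⟨w, hw, ?_⟩
    rw [Set.mem_iUnion₂]
    refine ⟨B, ⟨hB, hlB, ?_⟩, huB⟩
    rintro rfl
    exact hwA huB)
  obtain ⟨u, hu, hu1, hu2⟩ := hpre
  rw [Set.mem_iUnion₂] at hu2
  obtain ⟨B, ⟨hB, hlB, hne⟩, hu2⟩ := hu2
  unfold region at hu1 hu2
  rw [Set.mem_iUnion₂] at hu1 hu2
  obtain ⟨f, hf, huf⟩ := hu1
  obtain ⟨g, hg, hug⟩ := hu2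
  exact hne (KConn.not_touch hδ hω hA hB (hl.trans hlB.symm) hf hg ⟨u, huf, hug⟩).symm

/-- points of the polygon of a loop of level `k`, off the gasket, are surrounded by it -/
theorem surrZ_of_mem (hδ : 0 < δ) (hω : ω ∈ DD T.V) {k : ℕ} (hk : 1 ≤ k) {L : Set Pt}
    (hL : L ∈ Loops ω) (hl : level ω L = k) {z : ℂ} (hz : z ∈ interior (region δ a (Ok T k ω)))
    (hzL : z ∈ region δ a (P155.L.intr ω L)) : surrZ δ a ω L z := by
  have h1 : K.cell δ a z ∈ Ok T k ω :=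
    (KConn.mem_interior_region_iff hδ).1 hz _ (mem_sqr_cell hδ z)
  rw [KConn.Ok_eq_iUnion hk hω, Set.mem_iUnion₂] at h1
  obtain ⟨B, ⟨hB, hlB⟩, hzB⟩ := h1
  unfold region at hzL
  rw [Set.mem_iUnion₂] at hzL
  obtain ⟨f, hf, hzf⟩ := hzL
  have : L = B := KConn.not_touch hδ hω hL hB (hl.trans hlB.symm) hf hzB
    ⟨z, hzf, mem_sqr_cell hδ z⟩
  rw [this]
  exact hzB

/-- two loops of the same level surrounding the same point coincide -/
theorem loop_unique (hω : ω ∈ DD V) {L L' : Set Pt} (hL : L ∈ Loops ω) (hL' : L' ∈ Loops ω)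
    (hl : level ω L = level ω L') {f : Pt} (h : surr ω L f) (h' : surr ω L' f) : L = L' :=
  (P155.L.laminar hω).lev_inj hL hL' h h' hl

theorem mem_region_of_surrZ (hδ : 0 < δ) {L : Set Pt} {z : ℂ} (h : surrZ δ a ω L z) :
    z ∈ region δ a (P155.L.intr ω L) := by
  unfold region
  rw [Set.mem_iUnion₂]
  exact ⟨_, h, mem_sqr_cell hδ z⟩

/-- On a connected set off the gasket of level `k`, being surrounded by the loop `L` of level `k` is
constant. -/
theorem surrZ_const (hδ : 0 < δ) (hω : ω ∈ DD T.V) {k : ℕ} (hk : 1 ≤ k) {C : Set ℂ}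
    (hC : IsConnected C) (h : C ⊆ interior (region δ a (Ok T k ω))) {L : Set Pt}
    (hL : L ∈ Loops ω) (hl : level ω L = k) {z w : ℂ} (hz : z ∈ C) (hw : w ∈ C)
    (hzL : surrZ δ a ω L z) : surrZ δ a ω L w := by
  obtain ⟨A, hA, hlA, hCA⟩ := conn_one hδ hω hk hC (h.trans interior_subset)
  have h1 := surrZ_of_mem hδ hω hk hA hlA (h hz) (hCA hz)
  have : L = A := loop_unique hω hL hA (hl.trans hlA.symm) hzL h1
  rw [this]
  exact surrZ_of_mem hδ hω hk hA hlA (h hw) (hCA hw)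

/-- The vertices of a loop of level `k` are in the gasket of level `k`. -/
theorem vert_gasket (hδ : 0 < δ) (hω : ω ∈ DD T.V) {L : Set Pt} (hL : L ∈ Loops ω) {v : Pt}
    (hv : v ∈ L) : pt δ a v ∈ gasket δ a T (level ω L) ω := by
  obtain ⟨γ, h1, _, h3, _⟩ := A1.exists_cycle' hω hL
  rw [← h1] at hv
  obtain ⟨i, rfl⟩ := hv
  obtain ⟨F, hF, hFi⟩ := edge_inside (γ := γ) i
  obtain ⟨G, hG, hGo⟩ := edge_outside (γ := γ) i
  have hFs : surr ω L F := (h3 F).2 hFi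
  have hGs : ¬ surr ω L G := fun h => hGo ((h3 G).1 h)
  have hlev1 : 1 ≤ level ω L := (P155.L.laminar hω).one_le_lev hL
  refine ⟨?_, ?_⟩
  · unfold region
    rw [Set.mem_iUnion₂]
    exact ⟨F, A1.L_in hω hL hFs, pt_mem_sqr hδ hF.1⟩
  · refine KConn.notMem_interior_region hδ (f := G) ?_ (pt_mem_sqr hδ hG.1)
    intro hGk
    rw [KConn.Ok_eq_iUnion hlev1 hω, Set.mem_iUnion₂] at hGk
    obtain ⟨B, ⟨hB, hlB⟩, hGB⟩ := hGk
    have hne : L ≠ B := by
      rintro rfl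
      exact hGs hGB
    have hvB : γ.c i ∉ B := by
      have : γ.c i ∈ L := by rw [← h1]; exact ⟨i, rfl⟩
      exact Set.disjoint_left.1 (P155.L.loops_disjoint hω hL hB hne) this
    have h5 : surr ω B F := (A1.surr_corner hω hB hvB hF.1).2 ((A1.surr_corner hω hB hvB hG.1).1 hGB)
    exact hne (loop_unique hω hL hB hlB.symm hFs h5)

/-- boundary points of the polygon of a loop are close to vertices of the loop -/
theorem near_vert (hδ : 0 < δ) (hω : ω ∈ DD V) {L : Set Pt} (hL : L ∈ Loops ω) {w : ℂ}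
    (h1 : w ∈ region δ a (P155.L.intr ω L)) (h2 : w ∉ interior (region δ a (P155.L.intr ω L))) :
    ∃ v ∈ L, dist w (pt δ a v) ≤ 2 * δ := by
  rw [KConn.mem_interior_region_iff hδ] at h2
  push Not at h2
  obtain ⟨g, hwg, hg⟩ := h2
  unfold region at h1
  rw [Set.mem_iUnion₂] at h1
  obtain ⟨f, hf, hwf⟩ := h1
  obtain ⟨v, c1, c2⟩ := KConn.common_corner hδ hwf hwg
  refine ⟨v, ?_, dist_le_of_mem_sqr hδ hwf (pt_mem_sqr hδ c1)⟩
  by_contra hv
  exact hg ((A1.surr_corner hω hL hv c2).2 ((A1.surr_corner hω hL hv c1).1 hf))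

/-- If no vertex of `L` is near the connected set `C`, then being surrounded by `L` is constant on `C`.
-/
theorem surrZ_conn (hδ : 0 < δ) (hω : ω ∈ DD V) {L : Set Pt} (hL : L ∈ Loops ω) {C : Set ℂ}
    (hC : IsPreconnected C) (hfar : ∀ w ∈ C, ∀ v ∈ L, 2 * δ < dist w (pt δ a v)) {z w : ℂ}
    (hz : z ∈ C) (hw : w ∈ C) (hzL : surrZ δ a ω L z) : surrZ δ a ω L w := by
  have hclA : IsClosed (region δ a (P155.L.intr ω L)) :=
    (KConn.isCompact_region hδ (P155.L.intr_finite hω hL)).isClosed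
  have hsub : C ⊆ interior (region δ a (P155.L.intr ω L)) := by
    have hz0 : z ∈ interior (region δ a (P155.L.intr ω L)) := by
      by_contra hcon
      obtain ⟨v, hv, hd⟩ := near_vert hδ hω hL (mem_region_of_surrZ hδ hzL) hcon
      exact absurd (hfar z hz v hv) (not_lt.2 hd)
    refine hC.subset_left_of_subset_union isOpen_interior hclA.isOpen_compl ?_ ?_ ⟨z, hz, hz0⟩
    · rw [Set.disjoint_left]
      intro u hu hu'
      exact hu' (interior_subset hu)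
    · intro u hu
      by_cases h1 : u ∈ region δ a (P155.L.intr ω L)
      · left
        by_contra hcon
        obtain ⟨v, hv, hd⟩ := near_vert hδ hω hL h1 hcon
        exact absurd (hfar u hu v hv) (not_lt.2 hd)
      · right; exact h1
  exact (KConn.mem_interior_region_iff hδ).1 (hsub hw) _ (mem_sqr_cell hδ w)

theorem mem_V_of_loop (hω : ω ∈ DD V) {v : Pt} (h : ω.1 v ≠ ω.2 v) : v ∈ V :=
  P155.L.mem_V_of_ne hω h

theorem comp_mem_Loops {v : Pt} (h : ω.1 v ≠ ω.2 v) : comp ω v ∈ Loops ω := ⟨v, h, rfl⟩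

end Vale.Agent.P155.Q1
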