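import Vale.Agent.P155.H878.Trace2

/-!
# P155, literal Q1: the loops around a hole stay away from the boundary of the domain
-/

namespace Vale.Agent.P155.Q1

open Topology Filter MeasureTheory TopologicalSpace Vale.Agent.P155 LatCycle

variable {Ω : Set ℂ} {S : TempApprox Ω} {n : ℕ → ℕ} {ω : ℕ → Conf} {G : ℕ → NonemptyCompacts ℂ}

/-- last exit from `{x ≤ a}` before the first entrance into `{b ≤ x}` -/
theorem exists_window {x : ℕ → ℝ} {m : ℕ} {a b : ℝ} (hab : a < b) (h0 : x 0 ≤ a)
    (h1 : b ≤ x m) : ∃ A B, A < B ∧ B ≤ m ∧ x A ≤ a ∧ b ≤ x B ∧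
      ∀ i, A < i → i < B → a < x i ∧ x i < b := by
  classical
  have hex : ∃ i, b ≤ x i := ⟨m, h1⟩
  set B := Nat.find hex with hB
  have hB1 : b ≤ x B := Nat.find_spec hex
  have hBm : B ≤ m := Nat.find_min' hex h1
  have hBmin : ∀ i, i < B → x i < b := fun i hi => not_le.1 (Nat.find_min hex hi)
  set A := Nat.findGreatest (fun i => x i ≤ a) B with hA
  have hA1 : x A ≤ a := Nat.findGreatest_spec (P := fun i => x i ≤ a) (Nat.zero_le B) h0
  have hAB : A ≤ B := Nat.findGreatest_le B
  have hAB' : A < B := by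
    rcases hAB.lt_or_eq with h | h
    · exact h
    · rw [h] at hA1
      linarith
  exact ⟨A, B, hAB', hBm, hA1, hB1, fun i h2 h3 =>
    ⟨not_le.1 (Nat.findGreatest_is_greatest h2 h3.le), hBmin i h3⟩⟩

theorem Good.frontier_nonempty (hg : Good Ω S n ω G) : (frontier Ω).Nonempty := by
  rw [← hg.zero]
  exact (G 0).nonempty

/-- neighbourhoods of compact subsets of `Ω` are far from the boundary -/
theorem Good.exists_far_nbhd (hg : Good Ω S n ω G) {K0 : Set ℂ} (hK : IsCompact K0)
    (hne : K0.Nonempty) (hKΩ : K0 ⊆ Ω) : ∃ r : ℝ, 0 < r ∧ ∀ p : ℂ, ∀ s : ℝ, 0 ≤ s → s < r →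
      Metric.infDist p K0 ≤ s → r - s ≤ Metric.infDist p (frontier Ω) := by
  obtain ⟨r, hr, hsub⟩ := hK.exists_cthickening_subset_open hg.opn hKΩ
  refine ⟨r, hr, fun p s hs hsr hp => ?_⟩
  refine (Metric.le_infDist hg.frontier_nonempty).2 fun y hy => ?_
  by_contra hlt
  push Not at hlt
  have h1 : Metric.infDist y K0 ≤ Metric.infDist p K0 + dist y p :=
    Metric.infDist_le_infDist_add_dist
  rw [dist_comm] at h1
  have h2 : y ∈ Metric.cthickening r K0 := by
    rw [Metric.mem_cthickening_iff]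
    rw [Metric.infDist] at h1
    have h3 : Metric.infEDist y K0 ≠ ⊤ := Metric.infEDist_ne_top hne
    rw [← ENNReal.ofReal_toReal h3]
    exact ENNReal.ofReal_le_ofReal (by
      have : (Metric.infEDist y K0).toReal ≤ Metric.infDist p K0 + dist p y := h1
      linarith)
  have h3 := hsub h2
  rw [hg.opn.frontier_eq] at hy
  exact hy.2 h3

/-- **The loops around a hole whose boundary is inside `Ω` stay away from the boundary of `Ω`.** -/
theorem Good.deep_hole (hg : Good Ω S n ω G) {k : ℕ} (hk : 1 ≤ k) {z : ℂ}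
    (hz : z ∈ Ω \ (G k : Set ℂ))
    (hin : frontier (connectedComponentIn (Ω \ (G k : Set ℂ)) z) ⊆ Ω) {v : ℕ → Pt}
    (hv : ∀ j, (ω j).1 (v j) ≠ (ω j).2 (v j))
    (hl : ∀ j, level (ω j) (comp (ω j) (v j)) = k)
    (hs : ∀ j, surrZ (S.δ (n j)) (S.a (n j)) (ω j) (comp (ω j) (v j)) z) : DeepL S n ω v := by
  classical
  set U := connectedComponentIn (Ω \ (G k : Set ℂ)) z with hU
  have hUo : IsOpen U := (hg.isOpen_off k).connectedComponentIn
  have hzU : z ∈ U := mem_connectedComponentIn hz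
  have hUΩ : U ⊆ Ω := (connectedComponentIn_subset _ _).trans fun w hw => hw.1
  have hUb : Bornology.IsBounded U := hg.bdd.subset hUΩ
  have hcl : closure U ⊆ Ω := by
    intro w hw
    by_cases h : w ∈ U
    · exact hUΩ h
    · apply hin
      rw [hUo.frontier_eq]
      exact ⟨hw, h⟩
  have hclc : IsCompact (closure U) := hUb.isCompact_closure
  have hcln : (closure U).Nonempty := ⟨z, subset_closure hzU⟩
  obtain ⟨r, hr, hfar⟩ := hg.exists_far_nbhd hclc hcln hcl
  -- a boundary point
  obtain ⟨y1, hy1⟩ : (frontier U).Nonempty := by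
    rw [nonempty_frontier_iff]
    refine ⟨⟨z, hzU⟩, ?_⟩
    rintro hun
    rw [hun] at hUb
    exact NormedSpace.unbounded_univ ℂ ℂ hUb
  refine ⟨r / 4, by positivity, ?_⟩
  by_contra hcon
  rw [not_eventually] at hcon
  -- a vertex far from the hole
  have hcon2 : ∃ᶠ j in atTop, ∃ u ∈ comp (ω j) (v j),
      r / 2 ≤ Metric.infDist (pt (S.δ (n j)) (S.a (n j)) u) (closure U) := by
    refine hcon.mono fun j hj => ?_
    push Not at hj
    obtain ⟨u, hu, hud⟩ := hj
    refine ⟨u, hu, ?_⟩
    by_contra hlt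
    push Not at hlt
    have := hfar _ (r / 2) (by positivity) (by linarith) hlt.le
    linarith
  obtain ⟨F, hFfin, hF, hstr⟩ := str Ω S n ω G hg (r / 8) (r / 8) (r / 16) (by positivity)
    (by positivity) (by positivity)
  have hsmall : ∀ᶠ j in atTop, ∀ R ∈ F, S.δ (n j) < (R.r1 : ℝ) - R.r0 := by
    refine (Set.Finite.eventually_all hFfin).2 fun R hR => hg.delta_lt ?_
    have : (R.r0 : ℝ) < R.r1 := by exact_mod_cast (hF R hR).2.1
    linarith
  have key : ∃ᶠ j in atTop, ∃ R ∈ F, ∃ u ∈ comp (ω j) (v j),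
      (∃ m, R.d.Crosses (S.δ (n j)) (S.a (n j)) (ω j) R.r0 R.r1 R.s0 R.s1 u m) ∧
      pt (S.δ (n j)) (S.a (n j)) u ∈ R.big ∧
      r / 8 < Metric.infDist (pt (S.δ (n j)) (S.a (n j)) u) (closure U) := by
    refine (hcon2.and_eventually (hstr.and (hsmall.and ((hg.near_vert hk hz hy1
      (show 0 < r / 8 by positivity)).and (hg.delta_lt (show 0 < r / 16 by positivity)))))).mono ?_
    rintro j ⟨⟨u, hu, hud⟩, h1, h2, h3, h4⟩
    have hω := hg.mem j
    obtain ⟨w, hw, hwd⟩ := h3 _ (comp_mem_Loops (hv j)) (hl j) (hs j)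
    have hcw : comp (ω j) w = comp (ω j) (v j) := P155.L.comp_eq_of_mem hω hw
    have hwne : (ω j).1 w ≠ (ω j).2 w := P155.L.ne_of_mem_comp hω (hv j) hw
    have hwV : w ∈ (S.T (n j)).V := mem_V_of_loop hω hwne
    obtain ⟨i1, -, hi1⟩ := exists_iter hω hwV (u := u) (by rw [hcw]; exact hu)
    set x : ℕ → ℝ := fun i => Metric.infDist (pt (S.δ (n j)) (S.a (n j)) ((SW.suc (ω j))^[i] w))
      (closure U) with hx
    have hstep : ∀ i, |x (i + 1) - x i| ≤ S.δ (n j) := by
      intro i
      have e1 := dist_pt (S.pos (n j)) (S.a (n j)) (iter_adj hω hwV i)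
      have e2 : x i ≤ x (i + 1) + dist (pt (S.δ (n j)) (S.a (n j)) ((SW.suc (ω j))^[i] w))
          (pt (S.δ (n j)) (S.a (n j)) ((SW.suc (ω j))^[i + 1] w)) :=
        Metric.infDist_le_infDist_add_dist
      have e3 : x (i + 1) ≤ x i + dist (pt (S.δ (n j)) (S.a (n j)) ((SW.suc (ω j))^[i + 1] w))
          (pt (S.δ (n j)) (S.a (n j)) ((SW.suc (ω j))^[i] w)) :=
        Metric.infDist_le_infDist_add_dist
      rw [dist_comm] at e3
      rw [abs_le]
      constructor <;> linarith
    obtain ⟨A, B, hAB, hBm, hxA, hxB, hmid⟩ := exists_window (x := x) (m := i1) (a := r / 4)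
      (b := r / 2) (by linarith) (by
        have e1 : x 0 ≤ dist (pt (S.δ (n j)) (S.a (n j)) w) y1 :=
          Metric.infDist_le_dist_of_mem (frontier_subset_closure hy1)
        linarith) (by
        simp only [hx]
        rw [hi1]
        exact hud)
    -- the piece from `A` to `B`
    have hlow : ∀ i, A ≤ i → i ≤ B → r / 8 < x i := by
      intro i hi hi'
      rcases hi.lt_or_eq with h5 | h5
      · rcases hi'.lt_or_eq with h6 | h6
        · linarith [(hmid i h5 h6).1]
        · rw [h6]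
          linarith
      · subst h5
        have e1 := abs_le.1 (hstep A)
        rcases (Nat.succ_le_of_lt hAB).lt_or_eq with h6 | h6
        · have := (hmid (A + 1) (by omega) (by omega)).1
          linarith [e1.1, e1.2]
        · have : x (A + 1) = x B := by rw [← h6]
          linarith [e1.1, e1.2]
    have hup : ∀ i, A ≤ i → i ≤ B → x i ≤ r / 2 + r / 16 := by
      intro i hi hi'
      rcases hi'.lt_or_eq with h6 | h6
      · rcases hi.lt_or_eq with h5 | h5
        · linarith [(hmid i h5 h6).2]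
        · rw [← h5]
          linarith
      · have h7 : x (B - 1) ≤ r / 2 := by
          rcases (show A ≤ B - 1 by omega).lt_or_eq with h8 | h8
          · exact (hmid (B - 1) h8 (by omega)).2.le
          · rw [← h8]
            linarith
        have e1 := abs_le.1 (hstep (B - 1))
        rw [show B - 1 + 1 = B by omega] at e1
        rw [h6]
        linarith [e1.2]
    have hit : ∀ i, (SW.suc (ω j))^[i] ((SW.suc (ω j))^[A] w) = (SW.suc (ω j))^[A + i] w := by
      intro i
      rw [add_comm, Function.iterate_add_apply]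
    have hmem : ∀ i, (SW.suc (ω j))^[i] w ∈ comp (ω j) (v j) := by
      intro i
      have := iter_comp (ω j) w i
      rwa [hcw] at this
    obtain ⟨R, hR, i0, m', him, -, hcr⟩ := h1 ((SW.suc (ω j))^[A] w) (B - A)
      (P155.L.ne_of_mem_comp hω (hv j) (hmem A)) (by
        intro i hi
        rw [hit]
        have e1 := hfar (pt (S.δ (n j)) (S.a (n j)) ((SW.suc (ω j))^[A + i] w)) (r / 2 + r / 16)
          (by positivity) (by linarith) (hup (A + i) (by omega) (by omega))
        linarith) ⟨0, Nat.zero_le _, B - A, le_rfl, by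
        rw [hit, hit, add_zero, show A + (B - A) = B by omega]
        have e1 : x B ≤ x A + dist (pt (S.δ (n j)) (S.a (n j)) ((SW.suc (ω j))^[B] w))
            (pt (S.δ (n j)) (S.a (n j)) ((SW.suc (ω j))^[A] w)) :=
          Metric.infDist_le_infDist_add_dist
        rw [dist_comm] at e1
        linarith⟩
    rw [hit] at hcr
    refine ⟨R, hR, _, hmem (A + i0), ⟨m', hcr⟩, ?_, hlow (A + i0) (by omega) (by omega)⟩
    have := cross_mem_big (hF R hR).1 (hF R hR).2.1 (S.pos (n j)) (h2 R hR) hcr (Nat.zero_le m')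
    rwa [Function.iterate_zero, id_eq] at this
  obtain ⟨R, hR, hfr⟩ := freq_bex hFfin key
  obtain ⟨hd, hr1, hs1, hbig, hdiam⟩ := hF R hR
  obtain ⟨w, hw, hwG, hwfr⟩ := hg.hit_rr hd hr1 hs1 hbig hk (v := v) (hfr.mono (by
    rintro j ⟨u, hu, hm, -, -⟩
    exact ⟨hv j, hl j, u, hu, hm⟩))
  -- `w` is not in `U`
  have hwU : w ∉ U := by
    intro hwU
    obtain ⟨j, u, hu, -, hub, hud⟩ := hfr.exists
    have h1 : dist (pt (S.δ (n j)) (S.a (n j)) u) w ≤ Metric.diam R.big :=
      Metric.dist_le_diam_of_mem (hg.isCompact_big hd hbig).isBounded hub hw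
    have h2 : Metric.infDist (pt (S.δ (n j)) (S.a (n j)) u) (closure U) ≤
        dist (pt (S.δ (n j)) (S.a (n j)) u) w :=
      Metric.infDist_le_dist_of_mem (subset_closure hwU)
    linarith
  have hne : connectedComponentIn (Ω \ (G k : Set ℂ)) z ≠
      connectedComponentIn (Ω \ (G k : Set ℂ)) w := by
    intro he
    apply hwU
    rw [hU, he]
    exact mem_connectedComponentIn ⟨hbig hw, hwG⟩
  obtain ⟨j, h2, h3⟩ := (hwfr.and_eventually
    (hg.same k hk z w hz ⟨hbig hw, hwG⟩ hne)).exists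
  exact h3 ⟨_, comp_mem_Loops (hv j), hl j, hs j, h2.2⟩

end Vale.Agent.P155.Q1
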