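import Vale.Agent.P155.H878.Off

/-!
# P155, literal Q1: a fat loop surrounds a point off the limit gasket
-/

namespace Vale.Agent.P155.Q1

open Topology Filter MeasureTheory TopologicalSpace Vale.Agent.P155 LatCycle

variable {Ω : Set ℂ} {S : TempApprox Ω} {n : ℕ → ℕ} {ω : ℕ → Conf} {G : ℕ → NonemptyCompacts ℂ}

theorem volume_cells {δ : ℝ} (hδ : 0 < δ) (a : ℂ) {F : Set Pt} (hF : F.Finite) :
    volume (K.cell δ a ⁻¹' F) = ENNReal.ofReal (δ ^ 2 * F.ncard) := by
  classical
  have e : K.cell δ a ⁻¹' F = ⋃ f ∈ hF.toFinset, K.cell δ a ⁻¹' {f} := by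
    ext z
    simp
  rw [e, measure_biUnion_finset]
  · simp only [K.volume_cell hδ]
    rw [Finset.sum_const, nsmul_eq_mul, ← Set.ncard_eq_toFinset_card F hF, mul_comm (δ ^ 2),
      ENNReal.ofReal_mul (by positivity), ENNReal.ofReal_natCast]
  · intro f _ g _ hne
    rw [Function.onFun, Set.disjoint_left]
    intro z h1 h2
    exact hne (h1.symm.trans h2)
  · intro f _
    exact K.measurable_cell δ a (measurableSet_singleton f)

theorem isClosed_rect {d : Dir} (hd : d = hor ∨ d = ver) (r0 r1 s0 s1 : ℝ) :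
    IsClosed (d.rect r0 r1 s0 s1) := by
  have hP : Continuous d.P := by
    rcases hd with rfl | rfl
    exacts [Complex.continuous_re, Complex.continuous_im]
  have hQ : Continuous d.Q := by
    rcases hd with rfl | rfl
    exacts [Complex.continuous_im, Complex.continuous_re]
  exact (isClosed_le continuous_const hP).inter ((isClosed_le hP continuous_const).inter
    ((isClosed_le continuous_const hQ).inter (isClosed_le hQ continuous_const)))

namespace Good

variable (hg : Good Ω S n ω G)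

include hg

theorem mono (k l : ℕ) (h : k ≤ l) : (G k : Set ℂ) ⊆ G l := by
  intro z hz
  rw [(G l).isCompact.isClosed.mem_iff_infDist_zero (G l).nonempty]
  refine le_antisymm ?_ Metric.infDist_nonneg
  refine le_of_forall_pos_le_add fun ε hε => ?_
  obtain ⟨j, h1, h2⟩ := ((hg.infDist_le (half_pos hε) k).and (hg.infDist_le (half_pos hε) l)).exists
  have h3 := (abs_le.1 (h1 z)).1
  have h4 := (abs_le.1 (h2 z)).2
  rw [Metric.infDist_zero_of_mem hz] at h3
  have h5 : Metric.infDist z (P155.gasket (S.δ (n j)) (S.a (n j)) (S.T (n j)) l (ω j)) ≤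
      Metric.infDist z (P155.gasket (S.δ (n j)) (S.a (n j)) (S.T (n j)) k (ω j)) :=
    Metric.infDist_le_infDist_of_subset (hg.mono_gasket j h)
      (KConn.gasket_nonempty (S.pos _) _ _ _ (hg.mem j))
  linarith

theorem frontier_sub (k : ℕ) : frontier Ω ⊆ (G k : Set ℂ) := by
  rw [← hg.zero]
  exact hg.mono 0 k (Nat.zero_le k)

/-- balls off the gasket are in `Ω` -/
theorem ball_sub {k : ℕ} {w : ℂ} (hw : w ∈ Ω) {r : ℝ} (hr : 0 ≤ r)
    (h : r < Metric.infDist w (G k)) : Metric.closedBall w r ⊆ Ω \ (G k : Set ℂ) := by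
  have h1 : Disjoint (Metric.closedBall w r) (G k : Set ℂ) :=
    Metric.disjoint_closedBall_of_lt_infDist h
  intro z hz
  refine ⟨?_, Set.disjoint_left.1 h1 hz⟩
  by_contra hzΩ
  have hconn : IsPreconnected (Metric.closedBall w r) :=
    (convex_closedBall w r).isPreconnected
  have hsub : Metric.closedBall w r ⊆ Ω := by
    refine hconn.subset_left_of_subset_union hg.opn (isClosed_closure (s := Ω)).isOpen_compl ?_ ?_
      ⟨w, Metric.mem_closedBall_self hr, hw⟩
    · rw [Set.disjoint_left]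
      intro y hy hy'
      exact hy' (subset_closure hy)
    · intro y hy
      by_cases hyΩ : y ∈ Ω
      · exact Or.inl hyΩ
      · right
        intro hycl
        refine Set.disjoint_left.1 h1 hy (hg.frontier_sub k ?_)
        rw [hg.opn.frontier_eq]
        exact ⟨hycl, hyΩ⟩
  exact hzΩ (hsub hz)

/-- the neighbourhoods of the gasket have small area -/
theorem small_nbhd {K : Set ℂ} (hK : IsCompact K) (hKΩ : K ⊆ Ω) (k : ℕ) {α : ℝ} (hα : 0 < α) :
    ∃ r > 0, volume {z ∈ K | Metric.infDist z (G k) ≤ r} < ENNReal.ofReal α := by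
  have hanti : Antitone (fun i : ℕ => {z ∈ K | Metric.infDist z (G k) ≤ 1 / ((i : ℝ) + 1)}) := by
    intro i j hij z hz
    refine ⟨hz.1, hz.2.trans ?_⟩
    exact one_div_le_one_div_of_le (by positivity) (by
      have : (i : ℝ) ≤ j := by exact_mod_cast hij
      linarith)
  have hmeas : ∀ i : ℕ, NullMeasurableSet
      {z ∈ K | Metric.infDist z (G k) ≤ 1 / ((i : ℝ) + 1)} volume := by
    intro i
    have : IsClosed {z ∈ K | Metric.infDist z (G k) ≤ 1 / ((i : ℝ) + 1)} :=
      hK.isClosed.inter (isClosed_le (Metric.continuous_infDist_pt _) continuous_const)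
    exact this.measurableSet.nullMeasurableSet
  have hlim := tendsto_measure_iInter_atTop (μ := volume) hmeas hanti
    ⟨0, ((measure_mono (fun z hz => hz.1)).trans_lt hK.measure_lt_top).ne⟩
  have hzero : volume (⋂ i : ℕ, {z ∈ K | Metric.infDist z (G k) ≤ 1 / ((i : ℝ) + 1)}) = 0 := by
    refine measure_mono_null ?_ (hg.null k)
    intro z hz
    rw [Set.mem_iInter] at hz
    refine ⟨?_, hKΩ (hz 0).1⟩
    rw [SetLike.mem_coe, ← SetLike.mem_coe, (G k).isCompact.isClosed.mem_iff_infDist_zero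
      (G k).nonempty]
    refine le_antisymm ?_ Metric.infDist_nonneg
    exact ge_of_tendsto' tendsto_one_div_add_atTop_nhds_zero_nat (fun i => (hz i).2)
  rw [hzero] at hlim
  obtain ⟨i, hi⟩ := ((tendsto_order.1 hlim).2 (ENNReal.ofReal α)
    (ENNReal.ofReal_pos.2 hα)).exists
  exact ⟨1 / ((i : ℝ) + 1), by positivity, hi⟩

/-- **Loops which surround a macroscopic area in a compact subset of `Ω` surround a point of a hole
of their level**, and this hole is macroscopic. -/
theorem hitA {K0 : Set ℂ} (hKc : IsCompact K0) (hR : K0 ⊆ Ω) {k : ℕ} (hk : 1 ≤ k) {α : ℝ}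
    (hα : 0 < α) (L : ℕ → Set Pt)
    (hu : ∃ᶠ j in atTop, L j ∈ Loops (ω j) ∧ level (ω j) (L j) = k ∧
      α ≤ (S.δ (n j)) ^ 2 * Set.ncard {f : Pt | surr (ω j) (L j) f ∧
        sqr (S.δ (n j)) (S.a (n j)) f ⊆ K0}) :
    ∃ w ∈ K0, w ∉ (G k : Set ℂ) ∧
      ENNReal.ofReal (α / 2) ≤ volume (connectedComponentIn (Ω \ (G k : Set ℂ)) w) ∧
      ∃ᶠ j in atTop, L j ∈ Loops (ω j) ∧ level (ω j) (L j) = k ∧
        surrZ (S.δ (n j)) (S.a (n j)) (ω j) (L j) w := by
  obtain ⟨r, hr, hvol⟩ := hg.small_nbhd hKc hR k (half_pos hα)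
  -- the compact set of points of `K0` far from the gasket
  set C := {z ∈ K0 | r ≤ Metric.infDist z (G k)} with hC
  have hCc : IsCompact C :=
    hKc.inter_right (isClosed_le continuous_const (Metric.continuous_infDist_pt _))
  obtain ⟨t, htC, htfin, hcov⟩ := hCc.finite_cover_balls (half_pos hr)
  have hballs : ∀ w ∈ t, Metric.closedBall w (r / 2) ⊆ Ω \ (G k : Set ℂ) := by
    intro w hw
    have hwC := htC hw
    exact hg.ball_sub (hR hwC.1) (by positivity) (by have := hwC.2; linarith)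
  have hcen : ∀ w ∈ t, w ∈ Ω \ (G k : Set ℂ) := fun w hw =>
    hballs w hw (Metric.mem_closedBall_self (by positivity))
  have hev : ∀ᶠ j in atTop, ∀ w ∈ t, Metric.closedBall w (r / 2) ⊆
      interior (region (S.δ (n j)) (S.a (n j)) (Ok (S.T (n j)) k (ω j))) :=
    (Set.Finite.eventually_all htfin).2 fun w hw =>
      hg.compact_sub (isCompact_closedBall w (r / 2)) (hballs w hw)
  have hsame : ∀ᶠ j in atTop, ∀ w ∈ t, ∀ w' ∈ t,
      connectedComponentIn (Ω \ (G k : Set ℂ)) w ≠ connectedComponentIn (Ω \ (G k : Set ℂ)) w' →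
      ¬ ∃ L ∈ Loops (ω j), level (ω j) L = k ∧
        surrZ (S.δ (n j)) (S.a (n j)) (ω j) L w ∧ surrZ (S.δ (n j)) (S.a (n j)) (ω j) L w' := by
    refine (Set.Finite.eventually_all htfin).2 fun w hw =>
      (Set.Finite.eventually_all htfin).2 fun w' hw' => ?_
    by_cases hne : connectedComponentIn (Ω \ (G k : Set ℂ)) w =
      connectedComponentIn (Ω \ (G k : Set ℂ)) w'
    · exact Eventually.of_forall fun j h => absurd hne h
    · exact (hg.same k hk w w' (hcen w hw) (hcen w' hw') hne).mono fun j hj _ => hj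
  have key : ∃ᶠ j in atTop, ∃ w ∈ t,
      ENNReal.ofReal (α / 2) ≤ volume (connectedComponentIn (Ω \ (G k : Set ℂ)) w) ∧
      L j ∈ Loops (ω j) ∧ level (ω j) (L j) = k ∧
      surrZ (S.δ (n j)) (S.a (n j)) (ω j) (L j) w := by
    refine (hu.and_eventually (hev.and hsame)).mono ?_
    rintro j ⟨⟨hLoop, hlev, hv⟩, hb, hsm⟩
    set F := {f : Pt | surr (ω j) (L j) f ∧
      sqr (S.δ (n j)) (S.a (n j)) f ⊆ K0} with hF
    have hFfin : F.Finite := (A1.surr_finite (hg.mem j) hLoop).subset fun f hf => hf.1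
    have hvF : ENNReal.ofReal α ≤ volume (K.cell (S.δ (n j)) (S.a (n j)) ⁻¹' F) := by
      rw [volume_cells (S.pos _) _ hFfin]
      exact ENNReal.ofReal_le_ofReal hv
    -- points of the cells far from the gasket are in balls surrounded by the loop
    have hpt : ∀ z ∈ K.cell (S.δ (n j)) (S.a (n j)) ⁻¹' F,
        z ∉ {z ∈ K0 | Metric.infDist z (G k) ≤ r} →
        ∃ w ∈ t, z ∈ Metric.ball w (r / 2) ∧ surrZ (S.δ (n j)) (S.a (n j)) (ω j) (L j) w := by
      intro z hzF hz
      have hzs : z ∈ sqr (S.δ (n j)) (S.a (n j)) (K.cell (S.δ (n j)) (S.a (n j)) z) :=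
        mem_sqr_cell (S.pos _) z
      have hzK : z ∈ K0 := hzF.2 hzs
      have hzC : z ∈ C := by
        refine ⟨hzK, ?_⟩
        by_contra hlt
        exact hz ⟨hzK, (not_le.1 hlt).le⟩
      obtain ⟨w, hwt, hzw⟩ : ∃ w ∈ t, z ∈ Metric.ball w (r / 2) := by
        have := hcov hzC
        rw [Set.mem_iUnion₂] at this
        obtain ⟨w, hw, h⟩ := this
        exact ⟨w, hw, h⟩
      refine ⟨w, hwt, hzw, ?_⟩
      exact surrZ_const (S.pos _) (hg.mem j) hk
        ⟨⟨w, Metric.mem_closedBall_self (by positivity)⟩,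
          (convex_closedBall w (r / 2)).isPreconnected⟩ (hb w hwt) hLoop hlev
        (Metric.ball_subset_closedBall hzw) (Metric.mem_closedBall_self (by positivity)) hzF.1
    obtain ⟨z, hzF, hz⟩ : ∃ z ∈ K.cell (S.δ (n j)) (S.a (n j)) ⁻¹' F,
        z ∉ {z ∈ K0 | Metric.infDist z (G k) ≤ r} := by
      by_contra hcon
      push Not at hcon
      have h1 := hvF.trans (measure_mono (μ := volume) hcon)
      exact absurd (h1.trans_lt hvol) (not_lt.2 (ENNReal.ofReal_le_ofReal (by linarith)))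
    obtain ⟨w, hwt, hzw, hws⟩ := hpt z hzF hz
    refine ⟨w, hwt, ?_, hLoop, hlev, hws⟩
    have hsub : K.cell (S.δ (n j)) (S.a (n j)) ⁻¹' F ⊆
        {z ∈ K0 | Metric.infDist z (G k) ≤ r} ∪
          connectedComponentIn (Ω \ (G k : Set ℂ)) w := by
      intro z' hz'
      by_cases hn : z' ∈ {z ∈ K0 | Metric.infDist z (G k) ≤ r}
      · exact Or.inl hn
      · right
        obtain ⟨w', hwt', hzw', hws'⟩ := hpt z' hz' hn
        have he : connectedComponentIn (Ω \ (G k : Set ℂ)) w =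
            connectedComponentIn (Ω \ (G k : Set ℂ)) w' := by
          by_contra hne
          exact hsm w hwt w' hwt' hne ⟨_, hLoop, hlev, hws, hws'⟩
        rw [he]
        exact ((convex_closedBall w' (r / 2)).isPreconnected.subset_connectedComponentIn
          (Metric.mem_closedBall_self (by positivity)) (hballs w' hwt'))
          (Metric.ball_subset_closedBall hzw')
    have h2 := (hvF.trans (measure_mono hsub)).trans (measure_union_le _ _)
    have h3 : ENNReal.ofReal α = ENNReal.ofReal (α / 2) + ENNReal.ofReal (α / 2) := by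
      rw [← ENNReal.ofReal_add (by positivity) (by positivity)]
      congr 1
      ring
    rw [h3] at h2
    by_contra hlt
    push Not at hlt
    exact absurd h2 (not_le.2 (ENNReal.add_lt_add hvol hlt))
  -- pigeonhole
  have hpig : ∃ w ∈ t, ∃ᶠ j in atTop,
      ENNReal.ofReal (α / 2) ≤ volume (connectedComponentIn (Ω \ (G k : Set ℂ)) w) ∧
      L j ∈ Loops (ω j) ∧ level (ω j) (L j) = k ∧
      surrZ (S.δ (n j)) (S.a (n j)) (ω j) (L j) w := by
    by_contra hcon
    have hcon' := fun w hw h => hcon ⟨w, hw, h⟩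
    apply key
    have : ∀ᶠ j in atTop, ∀ w ∈ t,
        ¬ (ENNReal.ofReal (α / 2) ≤ volume (connectedComponentIn (Ω \ (G k : Set ℂ)) w) ∧
        L j ∈ Loops (ω j) ∧ level (ω j) (L j) = k ∧
        surrZ (S.δ (n j)) (S.a (n j)) (ω j) (L j) w) :=
      (Set.Finite.eventually_all htfin).2 fun w hw => not_frequently.1 (hcon' w hw)
    filter_upwards [this] with j hj
    rintro ⟨w, hw, h⟩
    exact hj w hw h
  obtain ⟨w, hwt, hfr⟩ := hpig
  exact ⟨w, (htC hwt).1, (hcen w hwt).2, hfr.exists.choose_spec.1, hfr.mono fun j h => h.2⟩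

/-- **Loops with a macroscopic strand surround a macroscopic area.** -/
theorem area {R : RR} (hd : R.d = hor ∨ R.d = ver) (hr : R.r0 < R.r1) (hs : R.s0 < R.s1)
    (hbig : R.big ⊆ Ω) : ∃ α : ℝ, 0 < α ∧ ∀ᶠ j in atTop, ∀ v m,
      R.d.Crosses (S.δ (n j)) (S.a (n j)) (ω j) R.r0 R.r1 R.s0 R.s1 v m →
      α ≤ (S.δ (n j)) ^ 2 * Set.ncard {f : Pt | surr (ω j) (comp (ω j) v) f ∧
        sqr (S.δ (n j)) (S.a (n j)) f ⊆ R.big} :=
  hg.fat R.d hd R.r0 R.r1 R.s0 R.s1 _ _ _ _ hr hs (by linarith) (by linarith) (by linarith)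
    (by linarith) hbig

theorem isCompact_big {R : RR} (hd : R.d = hor ∨ R.d = ver) (hbig : R.big ⊆ Ω) :
    IsCompact R.big :=
  Metric.isCompact_of_isClosed_isBounded (isClosed_rect hd _ _ _ _) (hg.bdd.subset hbig)

/-- loops with a strand in `R` surround a point of `R.big` off the gasket -/
theorem hit_rr {R : RR} (hd : R.d = hor ∨ R.d = ver)
    (hr : R.r0 < R.r1) (hs : R.s0 < R.s1) (hbig : R.big ⊆ Ω) {k : ℕ} (hk : 1 ≤ k) {v : ℕ → Pt}
    (hfr : ∃ᶠ j in atTop, (ω j).1 (v j) ≠ (ω j).2 (v j) ∧ level (ω j) (comp (ω j) (v j)) = k ∧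
      ∃ u ∈ comp (ω j) (v j), ∃ m, R.d.Crosses (S.δ (n j)) (S.a (n j)) (ω j)
      R.r0 R.r1 R.s0 R.s1 u m) :
    ∃ w ∈ R.big, w ∉ (G k : Set ℂ) ∧ ∃ᶠ j in atTop, level (ω j) (comp (ω j) (v j)) = k ∧
      surrZ (S.δ (n j)) (S.a (n j)) (ω j) (comp (ω j) (v j)) w := by
  obtain ⟨α, hα, harea⟩ := hg.area hd hr hs hbig
  obtain ⟨w, hw, hwG, -, hwfr⟩ := hg.hitA (hg.isCompact_big hd hbig) hbig hk hα
    (fun j => comp (ω j) (v j)) ((hfr.and_eventually harea).mono (by
      rintro j ⟨⟨h1, h2, u, hu, m, hcr⟩, h4⟩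
      refine ⟨comp_mem_Loops h1, h2, ?_⟩
      have := h4 u m hcr
      rwa [P155.L.comp_eq_of_mem (hg.mem j) hu] at this))
  exact ⟨w, hw, hwG, hwfr.mono fun j h => h.2⟩

end Good

end Vale.Agent.P155.Q1
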