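import Vale.Agent.P155.D877.Tight
import Vale.Agent.P155.S743.EvMain
import Vale.Agent.P155.T802.StepEV
import Vale.Agent.P155.S862.Area1
import Vale.Agent.P155.H878.Assem
import Vale.Agent.P155.U613.Asm
import Vale.Agent.P155.U613.Canon
import Vale.Agent.P155.U.CplLoc
import Vale.Agent.P155.U.Xex4
import Vale.Agent.P155.U.Ext

/-!
# P155: local convergence of the double-dimer loops to nested CLE₄ (all inputs plugged in)
-/

namespace Vale.Agent.P155.Q1

/-- The three tightness inputs. -/
theorem tight : (CROSS hor ∧ CROSS ver) ∧ (FAT hor ∧ FAT ver) ∧ (TOP hor ∧ TOP ver) :=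
  D877.tight_of_step (T802.step_of_EV S743.ev_holds) S862.area1

/-- The full gasket statement. -/
theorem full : Uq.FullStatement :=
  U613.full_of_uniqueness
    (U613.uniqueness_of U613.canonStmt (Uq.Xe.existsCpl_of Uq.cplLocStmt) Uq.extStmt)
    Vale.Agent.P155.K.main

/-- Local convergence of all loops. -/
theorem q1_local : LocalQ1Statement :=
  q1_local_of full tight.1 tight.2.1 tight.2.2

/-- Convergence of all loops, from the boundary estimate. -/
theorem q1_of_bdl (h : BDL) : Q1Statement :=
  q1_of full tight.1 tight.2.1 tight.2.2 h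

end Vale.Agent.P155.Q1
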