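import Vale.Agent.P155.H878.Str

/-!
# P155, literal Q1: macroscopic loops surround points of holes (`M2`)
-/

namespace Vale.Agent.P155.Q1

open Topology Filter MeasureTheory TopologicalSpace Vale.Agent.P155 LatCycle

theorem vol_le_diam {U : Set ℂ} (hU : Bornology.IsBounded U) (hne : U.Nonempty) :
    volume U ≤ ENNReal.ofReal (Metric.diam U) ^ 2 * NNReal.pi := by
  obtain ⟨w, hw⟩ := hne
  rw [← Complex.volume_closedBall w]
  refine measure_mono fun z hz => ?_
  rw [Metric.mem_closedBall]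
  exact Metric.dist_le_diam_of_mem hU hz hw

/-- a hole with area `≥ α / 2` has diameter `≥ c` -/
theorem exists_diam {α : ℝ} (hα : 0 < α) : ∃ c : ℝ, 0 < c ∧ ∀ U : Set ℂ, Bornology.IsBounded U →
    ENNReal.ofReal (α / 2) ≤ volume U → c < Metric.diam U := by
  set c := Real.sqrt (α / 16) with hc
  refine ⟨c, Real.sqrt_pos.2 (by positivity), fun U hU h => ?_⟩
  by_contra hcon
  push Not at hcon
  rcases U.eq_empty_or_nonempty with rfl | hne
  · rw [measure_empty, nonpos_iff_eq_zero, ENNReal.ofReal_eq_zero] at h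
    linarith
  have h1 := h.trans (vol_le_diam hU hne)
  have h2 : ENNReal.ofReal (Metric.diam U) ^ 2 * NNReal.pi ≤ ENNReal.ofReal (c ^ 2 * Real.pi) := by
    rw [ENNReal.ofReal_mul (by positivity), ENNReal.ofReal_pow (Real.sqrt_nonneg _)]
    have e : (NNReal.pi : ENNReal) = ENNReal.ofReal Real.pi := by
      rw [← NNReal.coe_real_pi, ENNReal.ofReal_coe_nnreal]
    rw [e]
    gcongr
  have h3 := h1.trans h2
  have h4 : c ^ 2 = α / 16 := Real.sq_sqrt (by positivity)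
  rw [h4, ENNReal.ofReal_le_ofReal_iff (by positivity)] at h3
  have h5 := Real.pi_lt_four
  nlinarith

/-- a macroscopic loop with a point far from the boundary has a macroscopic piece far from the
boundary -/
theorem deep_piece {Ω : Set ℂ} {S : TempApprox Ω} {n : ℕ} {ω : Conf} (hω : ω ∈ DD (S.T n).V)
    {v u : Pt} (hv : ω.1 v ≠ ω.2 v) (hu : u ∈ comp ω v) {η ρ : ℝ} (hη : 0 < η) (hρ : 0 < ρ)
    (hδ : S.δ n < η / 8) (hd : η < Metric.infDist (pt (S.δ n) (S.a n) u) (frontier Ω))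
    (hfar : ∃ x ∈ comp ω v, ∃ y ∈ comp ω v, ρ ≤ dist (pt (S.δ n) (S.a n) x)
      (pt (S.δ n) (S.a n) y)) :
    ω.1 u ≠ ω.2 u ∧ ∃ m, DeepP S n ω (η / 2) u m ∧ Far S n ω (min (ρ / 2) (η / 4)) u m := by
  classical
  have hune : ω.1 u ≠ ω.2 u := P155.L.ne_of_mem_comp hω hv hu
  refine ⟨hune, ?_⟩
  have huV : u ∈ (S.T n).V := mem_V_of_loop hω hune
  have hcomp : comp ω u = comp ω v := P155.L.comp_eq_of_mem hω hu
  set X : ℕ → ℂ := fun i => pt (S.δ n) (S.a n) ((SW.suc ω)^[i] u) with hX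
  set ρ0 := min (ρ / 2) (η / 4) with hρ0
  have hρ0pos : 0 < ρ0 := by positivity
  have hex : ∃ i, ρ0 ≤ dist (X i) (X 0) := by
    obtain ⟨x, hx, y, hy, hxy⟩ := hfar
    obtain ⟨i, -, hi⟩ := exists_iter hω huV (u := x) (by rw [hcomp]; exact hx)
    obtain ⟨i', -, hi'⟩ := exists_iter hω huV (u := y) (by rw [hcomp]; exact hy)
    by_contra hcon
    push Not at hcon
    have h1 := hcon i
    have h2 := hcon i'
    simp only [hX] at h1 h2
    rw [hi] at h1
    rw [hi'] at h2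
    have h3 := dist_triangle_right (pt (S.δ n) (S.a n) x) (pt (S.δ n) (S.a n) y)
      (pt (S.δ n) (S.a n) ((SW.suc ω)^[0] u))
    have h4 : ρ0 ≤ ρ / 2 := min_le_left _ _
    linarith
  set m := Nat.find hex with hm
  have hm1 : ρ0 ≤ dist (X m) (X 0) := Nat.find_spec hex
  have hm2 : ∀ i < m, dist (X i) (X 0) < ρ0 := fun i hi => not_le.1 (Nat.find_min hex hi)
  have hm3 : ∀ i ≤ m, dist (X i) (X 0) ≤ ρ0 + S.δ n := by
    intro i hi
    rcases hi.lt_or_eq with h | h
    · exact (hm2 i h).le.trans (by linarith [S.pos n])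
    · rcases Nat.eq_zero_or_pos m with h0 | h0
      · rw [h, h0, dist_self]
        linarith [S.pos n]
      · have h1 := hm2 (m - 1) (by omega)
        have h2 := dist_pt (S.pos n) (S.a n) (iter_adj hω huV (m - 1))
        rw [show m - 1 + 1 = m by omega] at h2
        have h3 := dist_triangle (X m) (X (m - 1)) (X 0)
        rw [dist_comm (X m) (X (m - 1))] at h3
        have h4 : dist (X (m - 1)) (X m) = S.δ n := h2
        rw [h]
        linarith
  refine ⟨m, ?_, 0, Nat.zero_le _, m, le_rfl, ?_⟩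
  · intro i hi
    have h1 := hm3 i hi
    have h2 : Metric.infDist (X 0) (frontier Ω) ≤
        Metric.infDist (X i) (frontier Ω) + dist (X 0) (X i) := Metric.infDist_le_infDist_add_dist
    have h3 : ρ0 ≤ η / 4 := min_le_right _ _
    rw [dist_comm] at h2
    have h4 : η < Metric.infDist (X 0) (frontier Ω) := hd
    show η / 2 < Metric.infDist (X i) (frontier Ω)
    linarith
  · rw [dist_comm]
    exact hm1

theorem m2 : M2 := by
  intro Ω S n ω G Γ hg hH ε η hε hη v hv hdiam hdeep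
  obtain ⟨F, hFfin, hF, hstr⟩ := str Ω S n ω G hg (η / 2) (min (ε / 2 / 2) (η / 4)) 1
    (by positivity) (by positivity) one_pos
  have hall : ∀ᶠ j in atTop, ∃ R ∈ F, ∃ u ∈ comp (ω j) (v j), ∃ m',
      R.d.Crosses (S.δ (n j)) (S.a (n j)) (ω j) R.r0 R.r1 R.s0 R.s1 u m' := by
    filter_upwards [hstr, hg.delta_lt (show 0 < η / 8 by positivity),
      hg.delta_lt (show 0 < ε / 4 by positivity)] with j h1 h2 h3
    obtain ⟨u, hu, hud⟩ := hdeep j
    obtain ⟨i, hi, i', hi', hd⟩ := exists_far (hg.mem j) (S.pos _) (S.a (n j))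
      (mem_V_of_loop (hg.mem j) (hv j)) hε (by linarith) (hdiam j)
    obtain ⟨hune, m, hD, hFar⟩ := deep_piece (hg.mem j) (hv j) hu hη (half_pos hε) h2 hud
      ⟨_, iter_comp (ω j) (v j) i, _, iter_comp (ω j) (v j) i', hd⟩
    obtain ⟨R, hR, i0, m', -, -, hcr⟩ := h1 u m hune hD hFar
    refine ⟨R, hR, _, ?_, m', hcr⟩
    have := iter_comp (ω j) u i0
    rwa [P155.L.comp_eq_of_mem (hg.mem j) hu] at this
  -- pigeonhole over the rectangles
  have hpig : ∃ R ∈ F, ∃ᶠ j in atTop, ∃ u ∈ comp (ω j) (v j), ∃ m',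
      R.d.Crosses (S.δ (n j)) (S.a (n j)) (ω j) R.r0 R.r1 R.s0 R.s1 u m' := by
    by_contra hcon
    have hcon' := fun R hR h => hcon ⟨R, hR, h⟩
    have h4 : ∀ᶠ j in atTop, ∀ R ∈ F, ¬ ∃ u ∈ comp (ω j) (v j), ∃ m',
        R.d.Crosses (S.δ (n j)) (S.a (n j)) (ω j) R.r0 R.r1 R.s0 R.s1 u m' :=
      (Set.Finite.eventually_all hFfin).2 fun R hR => not_frequently.1 (hcon' R hR)
    obtain ⟨j, ⟨R, hR, h5⟩, h6⟩ := (hall.and h4).exists
    exact h6 R hR h5
  obtain ⟨R, hR, hfr⟩ := hpig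
  obtain ⟨hd, hr, hs, hbig, -⟩ := hF R hR
  obtain ⟨α, hα, harea⟩ := hg.area hd hr hs hbig
  obtain ⟨c, hc, hcU⟩ := exists_diam hα
  -- the area surrounded by the loop
  have hfr2 : ∃ᶠ j in atTop, (∃ u ∈ comp (ω j) (v j), ∃ m',
      R.d.Crosses (S.δ (n j)) (S.a (n j)) (ω j) R.r0 R.r1 R.s0 R.s1 u m') ∧
      α ≤ (S.δ (n j)) ^ 2 * Set.ncard {f : Pt | surr (ω j) (comp (ω j) (v j)) f ∧
        sqr (S.δ (n j)) (S.a (n j)) f ⊆ R.big} := by
    refine (hfr.and_eventually harea).mono ?_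
    rintro j ⟨⟨u, hu, m', hcr⟩, h2⟩
    refine ⟨⟨u, hu, m', hcr⟩, ?_⟩
    have := h2 u m' hcr
    rwa [P155.L.comp_eq_of_mem (hg.mem j) hu] at this
  -- the level is bounded
  have hlev : ∃ k, 1 ≤ k ∧ ∃ᶠ j in atTop, level (ω j) (comp (ω j) (v j)) = k ∧
      α ≤ (S.δ (n j)) ^ 2 * Set.ncard {f : Pt | surr (ω j) (comp (ω j) (v j)) f ∧
        sqr (S.δ (n j)) (S.a (n j)) f ⊆ R.big} := by
    by_contra hcon
    push Not at hcon
    have hall2 : ∀ K : ℕ, ∀ᶠ j in atTop, ∀ k ∈ Set.Icc 1 K,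
        ¬ (level (ω j) (comp (ω j) (v j)) = k ∧
        α ≤ (S.δ (n j)) ^ 2 * Set.ncard {f : Pt | surr (ω j) (comp (ω j) (v j)) f ∧
        sqr (S.δ (n j)) (S.a (n j)) f ⊆ R.big}) := fun K =>
      (Set.Finite.eventually_all (Set.finite_Icc 1 K)).2 fun k hk =>
        not_frequently.1 (by simpa using hcon k hk.1)
    -- a macroscopic hole of every level
    have hholes : ∀ k : ℕ, 1 ≤ k → ∃ U, IsHole Ω (G k) U ∧ c < Metric.diam U := by
      intro k hk
      have hfr3 := hfr2.and_eventually (hall2 k)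
      -- the loop of level `k` around
      have hex : ∀ j, ∃ L : Set Pt, ((∃ u ∈ comp (ω j) (v j), ∃ m',
          R.d.Crosses (S.δ (n j)) (S.a (n j)) (ω j) R.r0 R.r1 R.s0 R.s1 u m') ∧
          α ≤ (S.δ (n j)) ^ 2 * Set.ncard {f : Pt | surr (ω j) (comp (ω j) (v j)) f ∧
          sqr (S.δ (n j)) (S.a (n j)) f ⊆ R.big}) ∧ (∀ k' ∈ Set.Icc 1 k,
          ¬ (level (ω j) (comp (ω j) (v j)) = k' ∧
          α ≤ (S.δ (n j)) ^ 2 * Set.ncard {f : Pt | surr (ω j) (comp (ω j) (v j)) f ∧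
          sqr (S.δ (n j)) (S.a (n j)) f ⊆ R.big})) →
          L ∈ Loops (ω j) ∧ level (ω j) L = k ∧ ∀ f, surr (ω j) (comp (ω j) (v j)) f →
            surr (ω j) L f := by
        intro j
        by_cases hyp : k < level (ω j) (comp (ω j) (v j))
        · obtain ⟨L, h1, h2, h3⟩ := (P155.L.laminar (hg.mem j)).exists_above
            (comp_mem_Loops (hv j)) hk hyp
          exact ⟨L, fun _ => ⟨h1, h2, fun f hf => h3.1 hf⟩⟩
        · refine ⟨∅, fun h => ?_⟩
          exfalso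
          refine h.2 (level (ω j) (comp (ω j) (v j))) ⟨?_, not_lt.1 hyp⟩ ⟨rfl, h.1.2⟩
          exact (P155.L.laminar (hg.mem j)).one_le_lev (comp_mem_Loops (hv j))
      choose L hL using hex
      obtain ⟨w, hw, hwG, hvol, -⟩ := hg.hitA (hg.isCompact_big hd hbig) hbig hk hα L
        (hfr3.mono (by
          intro j hj
          obtain ⟨h1, h2, h3⟩ := hL j hj
          refine ⟨h1, h2, hj.1.2.trans ?_⟩
          have hfin : {f : Pt | surr (ω j) (L j) f ∧
              sqr (S.δ (n j)) (S.a (n j)) f ⊆ R.big}.Finite :=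
            (A1.surr_finite (hg.mem j) h1).subset fun f hf => hf.1
          have hle : Set.ncard {f : Pt | surr (ω j) (comp (ω j) (v j)) f ∧
              sqr (S.δ (n j)) (S.a (n j)) f ⊆ R.big} ≤ Set.ncard {f : Pt | surr (ω j) (L j) f ∧
              sqr (S.δ (n j)) (S.a (n j)) f ⊆ R.big} :=
            Set.ncard_le_ncard (fun f hf => ⟨h3 f hf.1, hf.2⟩) hfin
          gcongr))
      refine ⟨_, ⟨w, ⟨hbig hw, hwG⟩, rfl⟩, hcU _ (hg.bdd.subset ?_) hvol⟩
      exact (connectedComponentIn_subset _ _).trans fun w hw => hw.1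
    -- contradiction with local finiteness
    choose! U hU1 hU2 using hholes
    have hfin := hH.fin c hc
    have hinf : (Set.range fun k : ℕ => (k + 1, U (k + 1))).Infinite := by
      refine Set.infinite_range_of_injective ?_
      intro k k' h
      have := congrArg Prod.fst h
      simpa using this
    refine hinf (hfin.subset ?_)
    rintro _ ⟨k, rfl⟩
    exact ⟨Nat.le_add_left _ _, hU1 _ (Nat.le_add_left _ _), hU2 _ (Nat.le_add_left _ _)⟩
  obtain ⟨k, hk, hfr4⟩ := hlev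
  refine ⟨k, hk, ?_⟩
  obtain ⟨w, hw, hwG, -, hwfr⟩ := hg.hitA (hg.isCompact_big hd hbig) hbig hk hα
    (fun j => comp (ω j) (v j)) (hfr4.mono fun j hj => ⟨comp_mem_Loops (hv j), hj.1, hj.2⟩)
  exact ⟨w, ⟨hbig hw, hwG⟩, hwfr.mono fun j hj => hj.2⟩

end Vale.Agent.P155.Q1
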