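import Vale.Agent.P155.H878.Off
import Vale.Agent.P155.U902.Pass
import Mathlib.Topology.MetricSpace.PiNat

/-!
# P155, literal Q1: convergence in law of the sequence of all gaskets
-/

namespace Vale.Agent.P155.Q1

open Topology Filter MeasureTheory TopologicalSpace Vale.Agent.P155

section Abstract

variable {ι Θ E0 : Type*} [TopologicalSpace E0]

open Classical in
/-- truncation of a sequence -/
noncomputable def trunc (c0 : E0) (k : ℕ) (y : Fin k → E0) (l : ℕ) : E0 :=
  if h : l < k then y ⟨l, h⟩ else c0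

theorem continuous_trunc (c0 : E0) (k : ℕ) : Continuous (trunc c0 k) := by
  refine continuous_pi fun l => ?_
  unfold trunc
  by_cases h : l < k
  · simp only [dif_pos h]
    exact continuous_apply _
  · simp only [dif_neg h]
    exact continuous_const

theorem tendsto_trunc (c0 : E0) {y : ℕ → ℕ → E0} {z : ℕ → E0} {φ : ℕ → ℕ}
    (hφ : Tendsto φ atTop atTop) (h : Tendsto y atTop (𝓝 z)) :
    Tendsto (fun m => trunc c0 (φ m) (fun l => y m l)) atTop (𝓝 z) := by
  rw [tendsto_pi_nhds] at h ⊢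
  intro l
  refine (h l).congr' ?_
  filter_upwards [hφ.eventually_gt_atTop l] with m hm
  unfold trunc
  rw [dif_pos hm]

/-- continuous functions on a compact set of sequences are uniformly approximated by functions of
finitely many terms -/
theorem exists_trunc [FirstCountableTopology E0] {C : Set E0} (hC : IsCompact C) {c0 : E0}
    {F : (ℕ → E0) → ℝ} (hF : Continuous F) {ε : ℝ} (hε : 0 < ε) :
    ∃ k : ℕ, ∀ y : ℕ → E0, (∀ l, y l ∈ C) → |F y - F (trunc c0 k (fun l => y l))| ≤ ε := by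
  by_contra hcon
  push Not at hcon
  choose y hyC hy using hcon
  have hcomp : IsCompact (Set.univ.pi fun _ : ℕ => C) := isCompact_univ_pi fun _ => hC
  obtain ⟨z, -, φ, hφ, hz⟩ := hcomp.tendsto_subseq (x := y) (fun k l _ => hyC k l)
  have h1 : Tendsto (fun m => F (y (φ m))) atTop (𝓝 (F z)) := (hF.tendsto z).comp hz
  have h2 : Tendsto (fun m => F (trunc c0 (φ m) (fun l => y (φ m) l))) atTop (𝓝 (F z)) :=
    (hF.tendsto z).comp (tendsto_trunc c0 hφ.tendsto_atTop hz)
  have h3 := (h1.sub h2).abs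
  rw [sub_self, abs_zero] at h3
  obtain ⟨m, hm⟩ := (h3.eventually (gt_mem_nhds hε)).exists
  exact absurd (hy (φ m)) (not_lt.2 hm.le)

end Abstract

variable {Ω : Set ℂ} {Θ : Type} [MeasurableSpace Θ] {P : Measure Θ}
  {G : ℕ → Θ → NonemptyCompacts ℂ}

theorem Ex_sub_le {V : Finset Pt} {f g : Conf → ℝ} {ε : ℝ} (hε : 0 ≤ ε)
    (h : ∀ ω ∈ DD V, |f ω - g ω| ≤ ε) : |Ex V f - Ex V g| ≤ ε := by
  unfold Ex
  rw [← smul_sub, ← Finset.sum_sub_distrib, smul_eq_mul, abs_mul,
    abs_of_nonneg (inv_nonneg.2 (Nat.cast_nonneg _))]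
  have h1 : |∑ ω ∈ DD V, (f ω - g ω)| ≤ (DD V).card * ε := by
    refine (Finset.abs_sum_le_sum_abs _ _).trans ?_
    rw [← nsmul_eq_mul]
    exact Finset.sum_le_card_nsmul _ _ _ h
  rcases Nat.eq_zero_or_pos (DD V).card with h0 | h0
  · rw [h0]
    simpa using hε
  · have h0' : (0 : ℝ) < (DD V).card := by exact_mod_cast h0
    calc ((DD V).card : ℝ)⁻¹ * |∑ ω ∈ DD V, (f ω - g ω)|
        ≤ ((DD V).card : ℝ)⁻¹ * ((DD V).card * ε) := by gcongr
      _ = ε := by field_simp

theorem gasket_sub (δ : ℝ) (a : ℂ) (T : Temp) (k : ℕ) (ω : Conf) :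
    gasket δ a T k ω ⊆ region δ a T.faceSet := Set.sdiff_subset

theorem lim_prod (hΩb : Bornology.IsBounded Ω) (S : TempApprox Ω) [IsProbabilityMeasure P]
    (hG : ∀ᵐ x ∂P, ∀ k, (G k x : Set ℂ) ⊆ closure Ω)
    (hmeas : ∀ F : (ℕ → NonemptyCompacts ℂ) → ℝ, Continuous F →
      AEStronglyMeasurable (fun x => F (fun l => G l x)) P)
    (hfin : ∀ (k : ℕ) (F : (Fin k → NonemptyCompacts ℂ) → ℝ), Continuous F →
      (∃ C, ∀ y, |F y| ≤ C) → Tendsto (fun n => Ex (S.T n).V (fun ω =>
        F (fun l => toNC (gasket (S.δ n) (S.a n) (S.T n) l ω)))) atTop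
        (𝓝 (∫ x, F (fun l => G l x) ∂P)))
    (F : (ℕ → NonemptyCompacts ℂ) → ℝ) (hF : Continuous F) (hb : ∃ C, ∀ y, |F y| ≤ C) :
    Tendsto (fun n => Ex (S.T n).V (fun ω =>
        F (fun l => toNC (gasket (S.δ n) (S.a n) (S.T n) l ω)))) atTop
        (𝓝 (∫ x, F (fun l => G l x) ∂P)) := by
  obtain ⟨CF, hCF⟩ := hb
  -- everything is in a compact set
  obtain ⟨R, hR⟩ := (hΩb.thickening (δ := 1)).subset_closedBall 0
  have hCl : closure Ω ⊆ Metric.closedBall 0 R := by
    refine closure_minimal ((Metric.self_subset_thickening one_pos Ω).trans hR)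
      Metric.isClosed_closedBall
  set C : Set (NonemptyCompacts ℂ) := {L | (L : Set ℂ) ⊆ Metric.closedBall 0 R} with hC
  have hCc : IsCompact C :=
    NonemptyCompacts.isCompact_subsets_of_isCompact (isCompact_closedBall (0 : ℂ) R)
  set c0 : NonemptyCompacts ℂ := ⟨⟨{0}, isCompact_singleton⟩, by simp⟩
  rw [Metric.tendsto_atTop]
  intro ε hε
  obtain ⟨k, hk⟩ := exists_trunc hCc (c0 := c0) hF (show 0 < ε / 4 by positivity)
  have h1 := hfin k (fun y => F (trunc c0 k y)) (hF.comp (continuous_trunc c0 k))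
    ⟨CF, fun y => hCF _⟩
  obtain ⟨N1, hN1⟩ := Metric.tendsto_atTop.1 h1 (ε / 4) (by positivity)
  obtain ⟨N2, hN2⟩ := eventually_atTop.1 (S.outer 1 one_pos)
  refine ⟨max N1 N2, fun n hn => ?_⟩
  have h2 := hN1 n ((le_max_left _ _).trans hn)
  have h3 := hN2 n ((le_max_right _ _).trans hn)
  have h4 : |Ex (S.T n).V (fun ω => F (fun l => toNC (gasket (S.δ n) (S.a n) (S.T n) l ω))) -
      Ex (S.T n).V (fun ω => F (trunc c0 k (fun l =>
        toNC (gasket (S.δ n) (S.a n) (S.T n) l ω))))| ≤ ε / 4 := by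
    refine Ex_sub_le (by positivity) fun ω hω => ?_
    refine hk (fun l => toNC (gasket (S.δ n) (S.a n) (S.T n) l ω)) fun l => ?_
    show ((toNC (gasket (S.δ n) (S.a n) (S.T n) l ω) : NonemptyCompacts ℂ) : Set ℂ) ⊆ _
    rw [KConn.coe_toNC_gasket (S.pos n) _ _ _ hω]
    exact ((gasket_sub _ _ _ _ _).trans h3).trans hR
  have hb1 : Integrable (fun x => F (fun l => G l x)) P :=
    Integrable.of_bound (hmeas F hF) CF (Eventually.of_forall fun x => hCF _)
  have hb2 : Integrable (fun x => F (trunc c0 k (fun l => G l x))) P := by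
    refine Integrable.of_bound (hmeas (fun y => F (trunc c0 k (fun l => y l))) ?_) CF
      (Eventually.of_forall fun x => hCF _)
    refine (hF.comp (continuous_trunc c0 k)).comp ?_
    exact continuous_pi fun l => continuous_apply _
  have h5 : |∫ x, F (fun l => G l x) ∂P - ∫ x, F (trunc c0 k (fun l => G l x)) ∂P| ≤ ε / 4 := by
    rw [← integral_sub hb1 hb2, ← Real.norm_eq_abs]
    refine (norm_integral_le_of_norm_le_const (C := ε / 4) ?_).trans (by simp)
    filter_upwards [hG] with x hx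
    exact hk (fun l => G l x) fun l => (hx l).trans hCl
  rw [Real.dist_eq] at h2 ⊢
  rw [abs_le] at h4 h5
  rw [abs_lt] at h2 ⊢
  constructor <;> linarith [h4.1, h4.2, h5.1, h5.2, h2.1, h2.2]

end Vale.Agent.P155.Q1
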