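import Vale.Agent.P155.H878.Loops
import Vale.Agent.P155.FinalStmt
import Vale.Agent.P155.F.Arc

/-!
# P155, literal Q1: the statement
-/

namespace Vale.Agent.P155.Q1

open Topology Filter MeasureTheory TopologicalSpace Vale.Agent.P155

/-! ## Double-dimer loops as loops in the plane -/

/-- The point of the grid `a + δ ℤ²` with index `v`. -/
noncomputable def pt (δ : ℝ) (a : ℂ) (v : Pt) : ℂ := a + δ * ((v.1 : ℂ) + (v.2 : ℂ) * Complex.I)

/-- The polygonal line through the points `x j`, `j ∈ ℤ`. -/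
noncomputable def poly (x : ℤ → ℂ) (t : ℝ) : ℂ :=
  x ⌊t⌋ + ((t - ⌊t⌋ : ℝ) : ℂ) * (x (⌊t⌋ + 1) - x ⌊t⌋)

theorem poly_of_mem (x : ℤ → ℂ) {n : ℤ} {t : ℝ} (h1 : (n : ℝ) ≤ t) (h2 : t ≤ n + 1) :
    poly x t = x n + ((t - n : ℝ) : ℂ) * (x (n + 1) - x n) := by
  rcases h2.lt_or_eq with h2 | h2
  · have : ⌊t⌋ = n := Int.floor_eq_iff.2 ⟨h1, h2⟩
    rw [poly, this]
  · have : ⌊t⌋ = n + 1 := by
      rw [h2]
      exact_mod_cast Int.floor_intCast (n + 1)
    rw [poly, this, h2]
    push_cast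
    ring

theorem poly_int (x : ℤ → ℂ) (n : ℤ) : poly x n = x n := by
  rw [poly_of_mem x le_rfl (by linarith)]
  simp

theorem continuous_poly (x : ℤ → ℂ) : Continuous (poly x) := by
  have hcl : ∀ n : ℤ, ContinuousOn (poly x) (Set.Icc (n : ℝ) (n + 1)) := by
    intro n
    have : ContinuousOn (fun t : ℝ => x n + ((t - n : ℝ) : ℂ) * (x (n + 1) - x n))
        (Set.Icc (n : ℝ) (n + 1)) := by fun_prop
    exact this.congr fun t ht => poly_of_mem x ht.1 ht.2
  rw [continuous_iff_continuousAt]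
  intro t
  set n := ⌊t⌋ with hn
  have h1 : (n : ℝ) ≤ t := Int.floor_le t
  have h2 : t < n + 1 := Int.lt_floor_add_one t
  have hU : ContinuousOn (poly x) (Set.Icc ((n - 1 : ℤ) : ℝ) ((n - 1 : ℤ) + 1) ∪
      Set.Icc (n : ℝ) (n + 1)) :=
    (hcl (n - 1)).union_of_isClosed (hcl n) isClosed_Icc isClosed_Icc
  refine hU.continuousAt ?_
  refine mem_of_superset (Ioo_mem_nhds (show (n : ℝ) - 1 < t by linarith) h2) ?_
  intro s hs
  push_cast
  rcases le_total s n with h | h
  · left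
    exact ⟨hs.1.le, by linarith⟩
  · right
    exact ⟨h, hs.2.le⟩

theorem poly_periodic (x : ℤ → ℂ) {m : ℕ} (h : ∀ j, x (j + m) = x j) (t : ℝ) :
    poly x (t + m) = poly x t := by
  unfold poly
  have : ⌊t + m⌋ = ⌊t⌋ + m := Int.floor_add_natCast t m
  rw [this, h, show ⌊t⌋ + (m : ℤ) + 1 = (⌊t⌋ + 1) + m by ring, h]
  push_cast
  ring_nf

/-- The closed polygonal curve `x 0 → x 1 → ⋯ → x m = x 0` (for an `m`-periodic `x`), with
constant speed in the index. -/
noncomputable def polyLoop (m : ℕ) (x : ℤ → ℂ) (h : ∀ j, x (j + m) = x j) : PL where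
  c := ⟨Function.Periodic.lift (f := fun t : ℝ => poly x (m * t)) (c := 1) (by
      intro t
      show poly x (m * (t + 1)) = _
      rw [mul_add, mul_one, poly_periodic x h]), by
    have : Continuous (fun t : ℝ => poly x (m * t)) := (continuous_poly x).comp (by fun_prop)
    exact this.quotient_lift _⟩

theorem polyLoop_coe (m : ℕ) (x : ℤ → ℂ) (h : ∀ j, x (j + m) = x j) (t : ℝ) :
    (polyLoop m x h).c (t : S1) = poly x (m * t) := rfl

/-- The vertices of the loop through `v`, enumerated in cyclic order (`m = ` length of the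
loop). -/
noncomputable def cyc (δ : ℝ) (a : ℂ) (ω : Conf) (v : Pt) (j : ℤ) : ℂ :=
  pt δ a ((SW.suc ω)^[(j % ((comp ω v).ncard : ℤ)).toNat] v)

theorem cyc_periodic (δ : ℝ) (a : ℂ) (ω : Conf) (v : Pt) (j : ℤ) :
    cyc δ a ω v (j + ((comp ω v).ncard : ℕ)) = cyc δ a ω v j := by
  unfold cyc
  rw [Int.add_emod_right]

/-- The closed curve traced by the double-dimer loop through `v`. -/
noncomputable def lcurve (δ : ℝ) (a : ℂ) (ω : Conf) (v : Pt) : PL :=
  polyLoop (comp ω v).ncard (cyc δ a ω v) (cyc_periodic δ a ω v)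

open Classical in
/-- The loop `L` of `ω` as an element of `Loop`. -/
noncomputable def loopOf (δ : ℝ) (a : ℂ) (ω : Conf) (L : Set Pt) : Loop :=
  if h : L.Nonempty then SeparationQuotient.mk (lcurve δ a ω h.some)
  else SeparationQuotient.mk ⟨ContinuousMap.const _ 0⟩

open Classical in
/-- The collection `𝓛_δ` of the double-dimer loops of `ω`, drawn in the grid `a + δ ℤ²`. -/
noncomputable def LL (δ : ℝ) (a : ℂ) (ω : Conf) : LoopColl :=
  if h : (Loops ω).Finite then ofFamily (Loops ω) h (loopOf δ a ω) else ofFamily ∅ Set.finite_empty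
    (fun _ : Set Pt => SeparationQuotient.mk ⟨ContinuousMap.const _ 0⟩)

/-! ## Nested CLE₄ -/

/-- `U` is a connected component of `Ω \ K`. -/
def IsHole (Ω K U : Set ℂ) : Prop := ∃ z ∈ Ω \ K, U = connectedComponentIn (Ω \ K) z

/-- `γ` is a simple closed curve with trace `A`. -/
def IsJordan (γ : PL) (A : Set ℂ) : Prop := Function.Injective γ.c ∧ Set.range γ.c = A

/-- `Γ` is the collection of the boundary loops of all the holes of the carpets `G 1, G 2, …`;
all of these are simple loops in `Ω`. -/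
structure HoleLoops (Ω : Set ℂ) (G : ℕ → NonemptyCompacts ℂ) (Γ : LoopColl) : Prop where
  jordan : ∀ k U, 1 ≤ k → IsHole Ω (G k) U → ∃ γ : PL, IsJordan γ (frontier U)
  inside : ∀ k U, 1 ≤ k → IsHole Ω (G k) U → frontier U ⊆ Ω
  fin : ∀ ε : ℝ, 0 < ε →
    {p : ℕ × Set ℂ | 1 ≤ p.1 ∧ IsHole Ω (G p.1) p.2 ∧ ε < Metric.diam p.2}.Finite
  mult : ∀ γ : Loop, Γ.mult γ = Set.ncard {p : ℕ × Set ℂ | 1 ≤ p.1 ∧ IsHole Ω (G p.1) p.2 ∧
    ∃ c : PL, IsJordan c (frontier p.2) ∧ SeparationQuotient.mk c = γ}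

/-- The index of a nonempty open set: the first point of a fixed dense sequence in it. -/
noncomputable def idx (U : Set ℂ) : ℕ := sInf {i | denseSeq ℂ i ∈ U}

open Classical in
/-- The height function of the first `k` levels: every hole of `G j` carries the sign
`ξ j (idx hole)`; the height at `z` is the sum of the signs of the holes of levels `1, …, k`
containing `z`. -/
noncomputable def height (Ω : Set ℂ) (G : ℕ → NonemptyCompacts ℂ) (ξ : ℕ → ℕ → ℝ) (k : ℕ)
    (z : ℂ) : ℝ :=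
  ∑ j ∈ Finset.Icc 1 k, if z ∈ Ω \ G j then ξ j (idx (connectedComponentIn (Ω \ G j) z)) else 0

/-- **Nested CLE₄** in `Ω`: `μ` is the law of a random collection `Γ` of simple loops, which are
the boundaries of the holes of nested carpets `G 1 ⊆ G 2 ⊆ ⋯`, such that the carpets together
with independent fair signs on the holes form signed nested carpets in the sense of
`IsSignedCarpets` (i.e. `√(π/2) × ` height of level `k` plus a Gaussian free field off `G k` is a
Gaussian free field in `Ω`; Miller-Sheffield coupling of nested CLE₄ with the Gaussian free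
field, which characterises nested CLE₄ by Aru-Sepulveda-Werner). -/
def IsNestedCLE4 (Ω : Set ℂ) (μ : Measure LoopColl) : Prop :=
  ∃ (Θ : Type) (_ : MeasurableSpace Θ) (P : Measure Θ) (G : ℕ → Θ → NonemptyCompacts ℂ)
    (ξ : ℕ → ℕ → Θ → ℝ) (Γ : Θ → LoopColl),
    IsProbabilityMeasure P ∧ AEMeasurable Γ P ∧ μ = P.map Γ ∧
    (∀ᵐ x ∂P, HoleLoops Ω (fun k => G k x) (Γ x)) ∧
    (∀ k i, Measurable (ξ k i)) ∧ (∀ k i x, ξ k i x = 1 ∨ ξ k i x = -1) ∧
    (∀ k i, P {x | ξ k i x = 1} = 1 / 2) ∧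
    ProbabilityTheory.iIndepFun (fun p : ℕ × ℕ => ξ p.1 p.2) P ∧
    (∀ k, @Measurable _ _ _ (borel (NonemptyCompacts ℂ)) (G k)) ∧
    ProbabilityTheory.Indep (⨆ p : ℕ × ℕ, MeasurableSpace.comap (ξ p.1 p.2) inferInstance)
      (⨆ k : ℕ, MeasurableSpace.comap (G k) (borel (NonemptyCompacts ℂ))) P ∧
    IsSignedCarpets P Ω G (fun k x φ => ∫ z, height Ω (fun j => G j x) (fun j i => ξ j i x) k z * φ z)

/-- **The double-dimer CLE₄ conjecture.** -/
def Q1Statement : Prop :=
  ∀ Ω : Set ℂ, IsOpen Ω → Bornology.IsBounded Ω → Ω.Nonempty → SimplyConnectedSpace Ω →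
  ∀ S : TempApprox Ω, ∀ μ : Measure LoopColl, IsNestedCLE4 Ω μ →
  ∀ F : LoopColl → ℝ, Continuous F → (∃ C, ∀ Γ, |F Γ| ≤ C) →
    Tendsto (fun n => Ex (S.T n).V (fun ω => F (LL (S.δ n) (S.a n) ω))) atTop (𝓝 (∫ Γ, F Γ ∂μ))

/-- Convergence of the double-dimer loops to nested CLE₄ in the local topology (loops contained in
the `ε`-neighbourhood of the boundary are ignored). -/
def LocalQ1Statement : Prop :=
  ∀ Ω : Set ℂ, IsOpen Ω → Bornology.IsBounded Ω → Ω.Nonempty → SimplyConnectedSpace Ω →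
  ∀ S : TempApprox Ω, ∀ μ : Measure LoopColl, IsNestedCLE4 Ω μ →
  ∀ F : LoopColl → ℝ, @Continuous _ _ (locT Ω) _ F → (∃ C, ∀ Γ, |F Γ| ≤ C) →
    Tendsto (fun n => Ex (S.T n).V (fun ω => F (LL (S.δ n) (S.a n) ω))) atTop (𝓝 (∫ Γ, F Γ ∂μ))

end Vale.Agent.P155.Q1
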