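import Vale.Agent.P155.H878.M2

/-!
# P155, literal Q1: the trace of the limit of the loops around a hole
-/

namespace Vale.Agent.P155.Q1

open Topology Filter MeasureTheory TopologicalSpace Vale.Agent.P155 LatCycle

variable {Ω : Set ℂ} {S : TempApprox Ω} {n : ℕ → ℕ} {ω : ℕ → Conf} {G : ℕ → NonemptyCompacts ℂ}

/-- subsequences of good sequences are good -/
theorem Good.sub (hg : Good Ω S n ω G) {φ : ℕ → ℕ} (hφ : Tendsto φ atTop atTop) :
    Good Ω S (n ∘ φ) (ω ∘ φ) G where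
  opn := hg.opn
  bdd := hg.bdd
  lim := hg.lim.comp hφ
  mem j := hg.mem (φ j)
  gasket k := (hg.gasket k).comp hφ
  zero := hg.zero
  null := hg.null
  cross d hd r0 r1 s0 s1 h1 h2 h3 := by
    obtain ⟨M, hM⟩ := hg.cross d hd r0 r1 s0 s1 h1 h2 h3
    exact ⟨M, hφ.eventually hM⟩
  fat d hd r0 r1 s0 s1 r0' r1' s0' s1' h1 h2 h3 h4 h5 h6 h7 := by
    obtain ⟨α, hα, h⟩ := hg.fat d hd r0 r1 s0 s1 r0' r1' s0' s1' h1 h2 h3 h4 h5 h6 h7
    exact ⟨α, hα, hφ.eventually h⟩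
  top d hd r0 r0' r1' r1 s0 s1 h1 h2 h3 h4 h5 := by
    obtain ⟨α, hα, h⟩ := hg.top d hd r0 r0' r1' r1 s0 s1 h1 h2 h3 h4 h5
    exact ⟨α, hα, hφ.eventually h⟩
  same k hk z z' hz hz' hne := hφ.eventually (hg.same k hk z z' hz hz' hne)

/-- limits of curves pass to subsequences -/
theorem Conv.sub {v : ℕ → Pt} {γ : PL} {θ : ℕ → ℝ → ℝ} (h : Conv S n ω v γ θ) {φ : ℕ → ℕ}
    (hφ : Tendsto φ atTop atTop) : Conv S (n ∘ φ) (ω ∘ φ) (v ∘ φ) γ (θ ∘ φ) where
  cont j := h.cont (φ j)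
  mono j := h.mono (φ j)
  per j := h.per (φ j)
  close ε hε := hφ.eventually (h.close ε hε)

theorem Conv.surj {v : ℕ → Pt} {γ : PL} {θ : ℕ → ℝ → ℝ} (h : Conv S n ω v γ θ) (j : ℕ) :
    Function.Surjective (θ j) := by
  have hm : 0 ≤ ((comp (ω j) (v j)).ncard : ℝ) := Nat.cast_nonneg _
  have hup : ∀ i : ℕ, θ j (i * ((comp (ω j) (v j)).ncard : ℝ)) = θ j 0 + i := by
    intro i
    induction i with
    | zero => simp
    | succ i ih =>
      push_cast
      rw [add_mul, one_mul, h.per, ih]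
      ring
  have hdn : ∀ i : ℕ, θ j (-(i * ((comp (ω j) (v j)).ncard : ℝ))) = θ j 0 - i := by
    intro i
    induction i with
    | zero => simp
    | succ i ih =>
      have := h.per j (-((i + 1 : ℕ) * ((comp (ω j) (v j)).ncard : ℝ)))
      rw [show -(((i + 1 : ℕ) : ℝ) * ((comp (ω j) (v j)).ncard : ℝ)) +
        ((comp (ω j) (v j)).ncard : ℝ) = -(i * ((comp (ω j) (v j)).ncard : ℝ)) by push_cast; ring,
        ih] at this
      push_cast at this ⊢
      linarith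
  intro y
  obtain ⟨i, hi⟩ := exists_nat_gt |y - θ j 0|
  have h1 := abs_lt.1 hi
  have hle : -(i * ((comp (ω j) (v j)).ncard : ℝ)) ≤ i * ((comp (ω j) (v j)).ncard : ℝ) := by
    have : 0 ≤ (i : ℝ) * ((comp (ω j) (v j)).ncard : ℝ) := by positivity
    linarith
  have := intermediate_value_Icc hle (h.cont j).continuousOn
  rw [hup, hdn] at this
  obtain ⟨x, -, hx⟩ := this (show y ∈ Set.Icc _ _ from ⟨by linarith, by linarith⟩)
  exact ⟨x, hx⟩

/-- vertices are close to the limit curve, uniformly -/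
theorem Conv.vert {v : ℕ → Pt} {γ : PL} {θ : ℕ → ℝ → ℝ} (h : Conv S n ω v γ θ) {ε : ℝ}
    (hε : 0 < ε) : ∀ᶠ j in atTop, ∀ i : ℤ,
      dist (pt (S.δ (n j)) (S.a (n j)) (cycP (ω j) (v j) i)) (γ.c (θ j i : S1)) ≤ ε := by
  filter_upwards [h.close ε hε] with j hj i
  have := hj i
  rwa [poly_int] at this

/-- every point of the limit curve is close to vertices -/
theorem Conv.near (hg : Good Ω S n ω G) {v : ℕ → Pt} {γ : PL} {θ : ℕ → ℝ → ℝ}
    (h : Conv S n ω v γ θ) (hv : ∀ j, (ω j).1 (v j) ≠ (ω j).2 (v j)) {ε : ℝ} (hε : 0 < ε) :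
    ∀ᶠ j in atTop, ∀ x : ℝ,
      dist (pt (S.δ (n j)) (S.a (n j)) (cycP (ω j) (v j) ⌊x⌋)) (γ.c (θ j x : S1)) ≤ ε := by
  filter_upwards [h.close (ε / 2) (by positivity), hg.delta_lt (half_pos hε)] with j h1 h2 x
  have h3 := poly_near (cyc (S.δ (n j)) (S.a (n j)) (ω j) (v j)) x
  rw [cyc_step (hg.mem j) (S.pos _) _ (mem_V_of_loop (hg.mem j) (hv j))] at h3
  have h4 := h1 x
  have h5 := dist_triangle (cyc (S.δ (n j)) (S.a (n j)) (ω j) (v j) ⌊x⌋)
    (poly (cyc (S.δ (n j)) (S.a (n j)) (ω j) (v j)) x) (γ.c (θ j x : S1))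
  rw [dist_comm (cyc (S.δ (n j)) (S.a (n j)) (ω j) (v j) ⌊x⌋) (poly _ _)] at h5
  rw [← cyc_eq]
  linarith

/-- the limit of loops of level `k` is in the gasket of level `k` -/
theorem Conv.range_sub (hg : Good Ω S n ω G) {v : ℕ → Pt} {γ : PL} {θ : ℕ → ℝ → ℝ}
    (h : Conv S n ω v γ θ) (hv : ∀ j, (ω j).1 (v j) ≠ (ω j).2 (v j)) {k : ℕ}
    (hl : ∀ j, level (ω j) (comp (ω j) (v j)) = k) : Set.range γ.c ⊆ (G k : Set ℂ) := by
  rintro _ ⟨τ, rfl⟩
  obtain ⟨τ, rfl⟩ := QuotientAddGroup.mk_surjective τ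
  rw [(G k).isCompact.isClosed.mem_iff_infDist_zero (G k).nonempty]
  refine le_antisymm ?_ Metric.infDist_nonneg
  refine le_of_forall_pos_le_add fun ε hε => ?_
  obtain ⟨j, h1, h2⟩ := ((h.near hg hv (half_pos hε)).and (hg.infDist_le (half_pos hε) k)).exists
  obtain ⟨x, hx⟩ := h.surj j τ
  have h3 := h1 x
  rw [hx] at h3
  set w := pt (S.δ (n j)) (S.a (n j)) (cycP (ω j) (v j) ⌊x⌋) with hw
  have hwg : w ∈ P155.gasket (S.δ (n j)) (S.a (n j)) (S.T (n j)) k (ω j) := by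
    have := vert_gasket (T := S.T (n j)) (S.pos (n j)) (a := S.a (n j)) (hg.mem j)
      (comp_mem_Loops (hv j)) (cycP_comp (ω j) (v j) ⌊x⌋)
    rwa [hl j] at this
  have h4 := (abs_le.1 (h2 w)).2
  rw [Metric.infDist_zero_of_mem hwg] at h4
  have h5 : Metric.infDist (γ.c (τ : S1)) (G k : Set ℂ) ≤
      Metric.infDist w (G k) + dist (γ.c (τ : S1)) w := Metric.infDist_le_infDist_add_dist
  rw [dist_comm] at h5
  have h6 : Metric.infDist (γ.c ((QuotientAddGroup.mk τ : S1))) (G k : Set ℂ) ≤ _ := h5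
  have h7 : dist w (γ.c (τ : S1)) ≤ ε / 2 := h3
  linarith

/-- the boundary of a hole is in the gasket -/
theorem Good.frontier_hole (hg : Good Ω S n ω G) {k : ℕ} {z : ℂ} :
    frontier (connectedComponentIn (Ω \ (G k : Set ℂ)) z) ⊆ (G k : Set ℂ) := by
  intro y hy
  have hopen : IsOpen (connectedComponentIn (Ω \ (G k : Set ℂ)) z) :=
    (hg.isOpen_off k).connectedComponentIn
  rw [hopen.frontier_eq] at hy
  by_contra hyG
  by_cases hyΩ : y ∈ Ω
  · have hyO : y ∈ Ω \ (G k : Set ℂ) := ⟨hyΩ, hyG⟩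
    have hopen' : IsOpen (connectedComponentIn (Ω \ (G k : Set ℂ)) y) :=
      (hg.isOpen_off k).connectedComponentIn
    obtain ⟨u, hu1, hu2⟩ := mem_closure_iff.1 hy.1 _ hopen' (mem_connectedComponentIn hyO)
    have e1 := connectedComponentIn_eq hu1
    have e2 := connectedComponentIn_eq hu2
    apply hy.2
    rw [e2, ← e1]
    exact mem_connectedComponentIn hyO
  · apply hyG
    apply hg.frontier_sub k
    rw [hg.opn.frontier_eq]
    exact ⟨closure_mono (connectedComponentIn_subset _ _ |>.trans fun w hw => hw.1) hy.1, hyΩ⟩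

theorem freq_bex {α : Type*} {F : Set α} (hF : F.Finite) {p : ℕ → α → Prop}
    (h : ∃ᶠ j in atTop, ∃ R ∈ F, p j R) : ∃ R ∈ F, ∃ᶠ j in atTop, p j R := by
  by_contra hcon
  have hcon' := fun R hR h => hcon ⟨R, hR, h⟩
  have h4 : ∀ᶠ j in atTop, ∀ R ∈ F, ¬ p j R :=
    (Set.Finite.eventually_all hF).2 fun R hR => not_frequently.1 (hcon' R hR)
  obtain ⟨j, ⟨R, hR, h5⟩, h6⟩ := (h.and_eventually h4).exists
  exact h6 R hR h5

/-- the loops around a point of a hole come close to every boundary point of the hole -/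
theorem Good.near_vert (hg : Good Ω S n ω G) {k : ℕ} (hk : 1 ≤ k) {z : ℂ}
    (hz : z ∈ Ω \ (G k : Set ℂ)) {y : ℂ}
    (hy : y ∈ frontier (connectedComponentIn (Ω \ (G k : Set ℂ)) z)) {ε : ℝ} (hε : 0 < ε) :
    ∀ᶠ j in atTop, ∀ L ∈ Loops (ω j), level (ω j) L = k →
      surrZ (S.δ (n j)) (S.a (n j)) (ω j) L z →
      ∃ u ∈ L, dist (pt (S.δ (n j)) (S.a (n j)) u) y < ε := by
  set r := ε / 2 with hr
  have hr0 : 0 < r := by positivity
  -- a point of the hole near `y`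
  have hyc : y ∈ closure (connectedComponentIn (Ω \ (G k : Set ℂ)) z) := frontier_subset_closure hy
  obtain ⟨u, huU, huy⟩ := Metric.mem_closure_iff.1 hyc r hr0
  have hyG := hg.frontier_hole hy
  filter_upwards [scc Ω S n ω G hg k hk z hz u huU, hg.infDist_le (show 0 < r / 4 by positivity) k,
    hg.delta_lt (show 0 < r / 4 by positivity)] with j h2 h3 h4 L hL hl hs
  by_contra hcon
  push Not at hcon
  have hu := h2 _ hL hl hs
  have hfar : ∀ w ∈ Metric.ball y r, ∀ v' ∈ L,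
      2 * S.δ (n j) < dist w (pt (S.δ (n j)) (S.a (n j)) v') := by
    intro w hw v' hv'
    have h5 := hcon v' hv'
    have h7 := dist_triangle (pt (S.δ (n j)) (S.a (n j)) v') w y
    rw [Metric.mem_ball] at hw
    rw [dist_comm (pt (S.δ (n j)) (S.a (n j)) v') w] at h7
    linarith
  have hball : ∀ w ∈ Metric.ball y r, surrZ (S.δ (n j)) (S.a (n j)) (ω j) L w :=
    fun w hw => surrZ_conn (S.pos _) (hg.mem j) hL (convex_ball y r).isPreconnected hfar
      (by rw [Metric.mem_ball, dist_comm]; exact huy) hw hu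
  -- no point of the discrete gasket near `y`
  have hoff : ∀ w ∈ Metric.ball y (r / 2),
      w ∉ P155.gasket (S.δ (n j)) (S.a (n j)) (S.T (n j)) k (ω j) := by
    intro w hw hwg
    refine hwg.2 ((KConn.mem_interior_region_iff (S.pos _)).2 fun g hwg' => ?_)
    have hc : K.cell (S.δ (n j)) (S.a (n j)) (K.pos (S.δ (n j)) (S.a (n j)) g) = g :=
      K.cell_pos (S.pos _) _ _
    have hp : K.pos (S.δ (n j)) (S.a (n j)) g ∈ sqr (S.δ (n j)) (S.a (n j)) g := by
      have := mem_sqr_cell (a := S.a (n j)) (S.pos (n j)) (K.pos (S.δ (n j)) (S.a (n j)) g)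
      rwa [hc] at this
    have hd := dist_le_of_mem_sqr (S.pos _) hp hwg'
    have hpb : K.pos (S.δ (n j)) (S.a (n j)) g ∈ Metric.ball y r := by
      rw [Metric.mem_ball] at hw ⊢
      have := dist_triangle (K.pos (S.δ (n j)) (S.a (n j)) g) w y
      linarith
    have hsg : surr (ω j) L g := by
      have := hball _ hpb
      unfold surrZ at this
      rwa [hc] at this
    rw [KConn.Ok_eq_iUnion hk (hg.mem j), Set.mem_iUnion₂]
    exact ⟨_, ⟨hL, hl⟩, hsg⟩
  have h5 := (abs_le.1 (h3 y)).1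
  rw [Metric.infDist_zero_of_mem hyG] at h5
  have h6 : Metric.infDist y (P155.gasket (S.δ (n j)) (S.a (n j)) (S.T (n j)) k (ω j)) < r / 2 := by
    linarith
  obtain ⟨w, hw, hwd⟩ := (Metric.infDist_lt_iff
    (KConn.gasket_nonempty (S.pos _) _ _ _ (hg.mem j))).1 h6
  exact hoff w (by rw [Metric.mem_ball, dist_comm]; exact hwd) hw

/-- the boundary of the hole is in the trace of the limit -/
theorem Conv.sub_range (hg : Good Ω S n ω G) {v : ℕ → Pt} {γ : PL} {θ : ℕ → ℝ → ℝ}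
    (h : Conv S n ω v γ θ) (hv : ∀ j, (ω j).1 (v j) ≠ (ω j).2 (v j)) {k : ℕ} (hk : 1 ≤ k)
    (hl : ∀ j, level (ω j) (comp (ω j) (v j)) = k) {z : ℂ} (hz : z ∈ Ω \ (G k : Set ℂ))
    (hs : ∀ j, surrZ (S.δ (n j)) (S.a (n j)) (ω j) (comp (ω j) (v j)) z) :
    frontier (connectedComponentIn (Ω \ (G k : Set ℂ)) z) ⊆ Set.range γ.c := by
  intro y hy
  by_contra hyr
  have hcl : IsClosed (Set.range γ.c) := (isCompact_rng γ).isClosed
  have hne : (Set.range γ.c).Nonempty := Set.range_nonempty _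
  set r := Metric.infDist y (Set.range γ.c) / 3 with hr
  have hr0 : 0 < r := by
    have := (hcl.notMem_iff_infDist_pos hne).1 hyr
    positivity
  obtain ⟨j, h1, h2⟩ := ((h.vert hr0).and (hg.near_vert hk hz hy hr0)).exists
  obtain ⟨u, hu, hud⟩ := h2 _ (comp_mem_Loops (hv j)) (hl j) (hs j)
  obtain ⟨i, hi⟩ := exists_cycP (hg.mem j) (mem_V_of_loop (hg.mem j) (hv j)) hu
  have h5 := h1 i
  rw [hi] at h5
  have h6 : Metric.infDist y (Set.range γ.c) ≤ dist y (γ.c (θ j i : S1)) :=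
    Metric.infDist_le_dist_of_mem ⟨_, rfl⟩
  have h7 := dist_triangle y (pt (S.δ (n j)) (S.a (n j)) u) (γ.c (θ j i : S1))
  rw [dist_comm y (pt (S.δ (n j)) (S.a (n j)) u)] at h7
  linarith

end Vale.Agent.P155.Q1
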