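import Vale.Agent.P155.H878.Trace

/-!
# P155, literal Q1: the trace of the limit of the loops around a hole is the boundary of the hole
-/

namespace Vale.Agent.P155.Q1

open Topology Filter MeasureTheory TopologicalSpace Vale.Agent.P155 LatCycle

variable {Ω : Set ℂ} {S : TempApprox Ω} {n : ℕ → ℕ} {ω : ℕ → Conf} {G : ℕ → NonemptyCompacts ℂ}

theorem Dir.P_pt {d : Dir} (hd : d = hor ∨ d = ver) (δ : ℝ) (a : ℂ) (v : Pt) :
    d.P (pt δ a v) = d.P a + δ * d.p v := by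
  rcases hd with rfl | rfl
  · exact pt_re δ a v
  · exact pt_im δ a v

theorem Dir.Q_pt {d : Dir} (hd : d = hor ∨ d = ver) (δ : ℝ) (a : ℂ) (v : Pt) :
    d.Q (pt δ a v) = d.Q a + δ * d.q v := by
  rcases hd with rfl | rfl
  · exact pt_im δ a v
  · exact pt_re δ a v

theorem floor_line {δ : ℝ} (hδ : 0 < δ) (c r : ℝ) :
    r - δ < c + δ * ⌊(r - c) / δ⌋ ∧ c + δ * ⌊(r - c) / δ⌋ ≤ r := by
  have h1 := Int.floor_le ((r - c) / δ)
  have h2 := Int.lt_floor_add_one ((r - c) / δ)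
  rw [le_div_iff₀ hδ] at h1
  rw [div_lt_iff₀ hδ] at h2
  constructor <;> nlinarith

/-- the vertices of a crossing strand are in the enlarged rectangle -/
theorem cross_mem_big {R : RR} (hd : R.d = hor ∨ R.d = ver) (hr : R.r0 < R.r1) {δ : ℝ} (hδ : 0 < δ)
    (hsmall : δ < (R.r1 : ℝ) - R.r0) {a : ℂ} {ω : Conf} {v : Pt} {m : ℕ}
    (h : R.d.Crosses δ a ω R.r0 R.r1 R.s0 R.s1 v m) {i : ℕ} (hi : i ≤ m) :
    pt δ a ((SW.suc ω)^[i] v) ∈ R.big := by
  have hp01 : R.d.lp δ a R.r0 ≤ R.d.lp δ a R.r1 := by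
    unfold Dir.lp
    apply Int.floor_le_floor
    have : (R.r0 : ℝ) < R.r1 := by exact_mod_cast hr
    gcongr
  have hp : R.d.lp δ a R.r0 ≤ R.d.p ((SW.suc ω)^[i] v) ∧
      R.d.p ((SW.suc ω)^[i] v) ≤ R.d.lp δ a R.r1 := by
    rcases Nat.eq_zero_or_pos i with h0 | h0
    · subst h0
      rcases h.ends with h1 | h1
      · have := h1.1
        simp only [Function.iterate_zero, id_eq]
        omega
      · have := h1.1
        simp only [Function.iterate_zero, id_eq]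
        omega
    · rcases hi.lt_or_eq with h2 | h2
      · have := h.pmem i h0 h2
        omega
      · subst h2
        rcases h.ends with h1 | h1
        · have := h1.2
          omega
        · have := h1.2
          omega
  have hq := h.qmem i hi
  have f0 := floor_line hδ (R.d.P a) R.r0
  have f1 := floor_line hδ (R.d.P a) R.r1
  have g0 := floor_line hδ (R.d.Q a) R.s0
  have g1 := floor_line hδ (R.d.Q a) R.s1
  have c1 : ((⌊((R.r0 : ℝ) - R.d.P a) / δ⌋ : ℤ) : ℝ) ≤ R.d.p ((SW.suc ω)^[i] v) := by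
    exact_mod_cast hp.1
  have c2 : (R.d.p ((SW.suc ω)^[i] v) : ℝ) ≤ (⌊((R.r1 : ℝ) - R.d.P a) / δ⌋ : ℤ) := by
    exact_mod_cast hp.2
  have c3 : ((⌊((R.s0 : ℝ) - R.d.Q a) / δ⌋ : ℤ) : ℝ) ≤ R.d.q ((SW.suc ω)^[i] v) := by
    exact_mod_cast hq.1
  have c4 : (R.d.q ((SW.suc ω)^[i] v) : ℝ) ≤ (⌊((R.s1 : ℝ) - R.d.Q a) / δ⌋ : ℤ) := by
    exact_mod_cast hq.2
  refine ⟨?_, ?_, ?_, ?_⟩
  · rw [Dir.P_pt hd]
    push_cast
    nlinarith [mul_le_mul_of_nonneg_left c1 hδ.le]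
  · rw [Dir.P_pt hd]
    push_cast
    nlinarith [mul_le_mul_of_nonneg_left c2 hδ.le]
  · rw [Dir.Q_pt hd]
    push_cast
    nlinarith [mul_le_mul_of_nonneg_left c3 hδ.le]
  · rw [Dir.Q_pt hd]
    push_cast
    nlinarith [mul_le_mul_of_nonneg_left c4 hδ.le]

/-- **Strands in a piece of the limit curve.** -/
theorem arc_strand (hg : Good Ω S n ω G) {v : ℕ → Pt} {γ : PL} {θ : ℕ → ℝ → ℝ}
    (h : Conv S n ω v γ θ) (hv : ∀ j, (ω j).1 (v j) ≠ (ω j).2 (v j)) (hdeep : DeepL S n ω v)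
    {t0 t1 : ℝ} (ht : t0 < t1)
    {ρ κ : ℝ} (hρ : 0 < ρ) (hκ : 0 < κ) (hd : ρ ≤ dist (γ.c (t0 : S1)) (γ.c (t1 : S1))) :
    ∃ R : RR, ((R.d = hor ∨ R.d = ver) ∧ R.r0 < R.r1 ∧ R.s0 < R.s1 ∧ R.big ⊆ Ω ∧
      Metric.diam R.big ≤ κ) ∧ ∃ᶠ j in atTop, ∃ (i : ℤ) (m : ℕ), t0 ≤ θ j i ∧
        θ j ((i + m : ℤ) : ℝ) ≤ t1 ∧
        R.d.Crosses (S.δ (n j)) (S.a (n j)) (ω j) R.r0 R.r1 R.s0 R.s1 (cycP (ω j) (v j) i) m := by
  obtain ⟨η, hη, hdeep⟩ := hdeep
  obtain ⟨F, hFfin, hF, hstr⟩ := str Ω S n ω G hg η (ρ / 4) κ hη (by positivity) hκ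
  have hall : ∀ᶠ j in atTop, ∃ R ∈ F, ∃ (i : ℤ) (m : ℕ), t0 ≤ θ j i ∧
      θ j ((i + m : ℤ) : ℝ) ≤ t1 ∧
      R.d.Crosses (S.δ (n j)) (S.a (n j)) (ω j) R.r0 R.r1 R.s0 R.s1 (cycP (ω j) (v j) i) m := by
    filter_upwards [hstr, h.close (ρ / 8) (by positivity),
      hg.delta_lt (show 0 < ρ / 8 by positivity), hdeep] with j h1 h2 h3 h4
    have hω := hg.mem j
    have hvV := mem_V_of_loop hω (hv j)
    obtain ⟨x0, hx0⟩ := h.surj j t0
    obtain ⟨x1, hx1⟩ := h.surj j t1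
    have hx01 : x0 < x1 := by
      rw [← (h.mono j).lt_iff_lt, hx0, hx1]
      exact ht
    set c := cyc (S.δ (n j)) (S.a (n j)) (ω j) (v j) with hc
    have d0 := h2 x0
    have d1 := h2 x1
    rw [hx0] at d0
    rw [hx1] at d1
    have hdist : ρ - ρ / 4 ≤ dist (poly c x0) (poly c x1) := by
      have := dist_triangle4 (γ.c (t0 : S1)) (poly c x0) (poly c x1) (γ.c (t1 : S1))
      rw [dist_comm (γ.c (t0 : S1)) (poly c x0)] at this
      linarith
    have hstep : ∀ i : ℤ, dist (c (i + 1)) (c i) = S.δ (n j) := cyc_step hω (S.pos _) _ hvV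
    -- the indices
    have near0 : dist (poly c x0) (c ⌈x0⌉) ≤ S.δ (n j) := by
      rcases eq_or_ne (⌈x0⌉) ⌊x0⌋ with he | he
      · rw [he]
        have := poly_near c x0
        rwa [hstep] at this
      · have he' : ⌈x0⌉ = ⌊x0⌋ + 1 := by
          have a1 := Int.floor_le_ceil x0
          have a2 := Int.ceil_le_floor_add_one x0
          omega
        rw [he']
        have e1 : poly c x0 - c (⌊x0⌋ + 1) =
            (((1 - (x0 - ⌊x0⌋) : ℝ)) : ℂ) * (c ⌊x0⌋ - c (⌊x0⌋ + 1)) := by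
          unfold poly
          push_cast
          ring
        rw [dist_eq_norm, e1, norm_mul, Complex.norm_real,
          Real.norm_of_nonneg (by have := Int.lt_floor_add_one x0; linarith), ← dist_eq_norm,
          dist_comm (c _) (c _), hstep]
        have : 1 - (x0 - ⌊x0⌋) ≤ 1 := by have := Int.floor_le x0; linarith
        exact mul_le_of_le_one_left (S.pos _).le this
    have near1 : dist (poly c x1) (c ⌊x1⌋) ≤ S.δ (n j) := by
      have := poly_near c x1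
      rwa [hstep] at this
    have hfar : ρ / 4 ≤ dist (c ⌈x0⌉) (c ⌊x1⌋) := by
      have := dist_triangle4 (poly c x0) (c ⌈x0⌉) (c ⌊x1⌋) (poly c x1)
      rw [dist_comm (c ⌊x1⌋)] at this
      linarith
    have hle : ⌈x0⌉ ≤ ⌊x1⌋ := by
      by_contra hcon
      push Not at hcon
      -- then `x0, x1` are in the same unit interval
      have h5 : ⌊x1⌋ + 1 = ⌈x0⌉ := by
        have a1 : ⌈x0⌉ ≤ ⌊x0⌋ + 1 := Int.ceil_le_floor_add_one x0
        have a2 : ⌊x0⌋ ≤ ⌊x1⌋ := Int.floor_le_floor hx01.le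
        omega
      rw [← h5, hstep] at hfar
      linarith
    set m : ℕ := (⌊x1⌋ - ⌈x0⌉).toNat with hm
    have hm' : (m : ℤ) = ⌊x1⌋ - ⌈x0⌉ := Int.toNat_of_nonneg (by omega)
    obtain ⟨R, hR, i, m', him, -, hcr⟩ := h1 (cycP (ω j) (v j) ⌈x0⌉) m
      (P155.L.ne_of_mem_comp hω (hv j) (cycP_comp _ _ _)) (fun i _ => h4 _ (by
        have := iter_comp (ω j) (cycP (ω j) (v j) ⌈x0⌉) i
        rwa [P155.L.comp_eq_of_mem hω (cycP_comp _ _ _)] at this)) ⟨0, Nat.zero_le _, m, le_rfl, by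
        rw [← cycP_add hω hvV _ m, hm', Function.iterate_zero, id_eq,
          show ⌈x0⌉ + (⌊x1⌋ - ⌈x0⌉) = ⌊x1⌋ by ring, ← cyc_eq, ← cyc_eq]
        exact hfar⟩
    refine ⟨R, hR, ⌈x0⌉ + i, m', ?_, ?_, ?_⟩
    · rw [← hx0]
      apply (h.mono j).monotone
      push_cast
      have a1 := Int.le_ceil x0
      have a2 : (0 : ℝ) ≤ i := Nat.cast_nonneg i
      linarith
    · rw [← hx1]
      apply (h.mono j).monotone
      have a1 := Int.floor_le x1
      have a2 : (⌈x0⌉ + i + m' : ℤ) ≤ ⌊x1⌋ := by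
        have : (i : ℤ) + m' ≤ m := by exact_mod_cast him
        omega
      have a3 : (((⌈x0⌉ + i + m' : ℤ)) : ℝ) ≤ (⌊x1⌋ : ℤ) := by exact_mod_cast a2
      linarith
    · rw [cycP_add hω hvV]
      exact hcr
  obtain ⟨R, hR, hfr⟩ := freq_bex hFfin hall.frequently
  exact ⟨R, hF R hR, hfr⟩

theorem coe_add_int (s : ℝ) (m : ℤ) : ((s + m : ℝ) : S1) = (s : S1) := by
  have : ((m : ℝ) : S1) = 0 := by
    rw [AddCircle.coe_eq_zero_iff]
    exact ⟨m, by simp⟩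
  rw [AddCircle.coe_add, this, add_zero]

/-- **A loop around `z` has, in every piece of the limit curve of diameter `≥ ρ`, a point of the
hole of `z` at distance `< 2 κ` of the piece.** -/
theorem arc_hole (hg : Good Ω S n ω G) {v : ℕ → Pt} {γ : PL} {θ : ℕ → ℝ → ℝ}
    (h : Conv S n ω v γ θ) (hv : ∀ j, (ω j).1 (v j) ≠ (ω j).2 (v j)) (hdeep : DeepL S n ω v)
    {k : ℕ}
    (hk : 1 ≤ k) (hl : ∀ j, level (ω j) (comp (ω j) (v j)) = k) {z : ℂ}
    (hz : z ∈ Ω \ (G k : Set ℂ))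
    (hs : ∀ j, surrZ (S.δ (n j)) (S.a (n j)) (ω j) (comp (ω j) (v j)) z)
    {t0 t1 : ℝ} (ht : t0 < t1) {κ : ℝ} (hκ : 0 < κ)
    (hd : γ.c (t0 : S1) ≠ γ.c (t1 : S1)) :
    ∃ w ∈ connectedComponentIn (Ω \ (G k : Set ℂ)) z, ∃ t ∈ Set.Icc t0 t1,
      dist w (γ.c (t : S1)) ≤ 2 * κ := by
  obtain ⟨R, ⟨hdir, hr, hsR, hbig, hdiam⟩, hfr⟩ := arc_strand hg h hv hdeep ht
    (dist_pos.2 hd) hκ le_rfl
  obtain ⟨w, hw, hwG, hwfr⟩ := hg.hit_rr hdir hr hsR hbig hk (v := v) (hfr.mono (by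
    rintro j ⟨i, m, -, -, hcr⟩
    exact ⟨hv j, hl j, _, cycP_comp _ _ _, m, hcr⟩))
  have hwU : w ∈ connectedComponentIn (Ω \ (G k : Set ℂ)) z := by
    by_contra hcon
    have hne : connectedComponentIn (Ω \ (G k : Set ℂ)) z ≠
        connectedComponentIn (Ω \ (G k : Set ℂ)) w := by
      intro he
      apply hcon
      rw [he]
      exact mem_connectedComponentIn ⟨hbig hw, hwG⟩
    have h1 := hg.same k hk z w hz ⟨hbig hw, hwG⟩ hne
    obtain ⟨j, h2, h3⟩ := (hwfr.and_eventually h1).exists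
    exact h3 ⟨_, comp_mem_Loops (hv j), hl j, hs j, h2.2⟩
  refine ⟨w, hwU, ?_⟩
  -- a vertex of the strand
  have hrr : (0 : ℝ) < (R.r1 : ℝ) - R.r0 := by
    have : (R.r0 : ℝ) < R.r1 := by exact_mod_cast hr
    linarith
  obtain ⟨j, ⟨i, m, hi0, hi1, hcr⟩, h1, h2⟩ := (hfr.and_eventually
    ((h.vert hκ).and (hg.delta_lt hrr))).exists
  have hmem := cross_mem_big hdir hr (S.pos (n j)) h2 hcr (Nat.zero_le m)
  rw [Function.iterate_zero, id_eq] at hmem
  refine ⟨θ j i, ⟨hi0, ?_⟩, ?_⟩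
  · refine ((h.mono j).monotone ?_).trans hi1
    push_cast
    have : (0 : ℝ) ≤ m := Nat.cast_nonneg m
    linarith
  · have h3 := h1 i
    have h4 : dist w (pt (S.δ (n j)) (S.a (n j)) (cycP (ω j) (v j) i)) ≤ Metric.diam R.big :=
      Metric.dist_le_diam_of_mem (hg.isCompact_big hdir hbig).isBounded hw hmem
    have h5 := dist_triangle w (pt (S.δ (n j)) (S.a (n j)) (cycP (ω j) (v j) i))
      (γ.c (θ j i : S1))
    linarith

/-- the limit curve is in the boundary of the hole -/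
theorem Conv.range_sub_frontier (hg : Good Ω S n ω G) {v : ℕ → Pt} {γ : PL}
    {θ : ℕ → ℝ → ℝ} (h : Conv S n ω v γ θ) (hv : ∀ j, (ω j).1 (v j) ≠ (ω j).2 (v j))
    (hdeep : DeepL S n ω v) {k : ℕ}
    (hk : 1 ≤ k) (hl : ∀ j, level (ω j) (comp (ω j) (v j)) = k) {z : ℂ}
    (hz : z ∈ Ω \ (G k : Set ℂ))
    (hs : ∀ j, surrZ (S.δ (n j)) (S.a (n j)) (ω j) (comp (ω j) (v j)) z) :
    Set.range γ.c ⊆ frontier (connectedComponentIn (Ω \ (G k : Set ℂ)) z) := by
  set U := connectedComponentIn (Ω \ (G k : Set ℂ)) z with hU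
  have hUo : IsOpen U := (hg.isOpen_off k).connectedComponentIn
  have hzU : z ∈ U := mem_connectedComponentIn hz
  have hUne : U.Nonempty := ⟨z, hzU⟩
  have hUb : Bornology.IsBounded U :=
    hg.bdd.subset ((connectedComponentIn_subset _ _).trans fun w hw => hw.1)
  rintro _ ⟨τ, rfl⟩
  obtain ⟨t0, rfl⟩ := QuotientAddGroup.mk_surjective τ
  by_contra hyf
  have hyG : γ.c (t0 : S1) ∈ (G k : Set ℂ) := h.range_sub hg hv hl ⟨_, rfl⟩
  set y := γ.c (t0 : S1) with hy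
  have hyf : y ∉ frontier U := hyf
  have hyU : y ∉ U := fun h' => (connectedComponentIn_subset _ _ h').2 hyG
  have hycl : y ∉ closure U := by
    intro h'
    apply hyf
    rw [hUo.frontier_eq]
    exact ⟨h', hyU⟩
  set r := Metric.infDist y (closure U) / 4 with hr
  have hr0 : 0 < r := by
    have := (isClosed_closure.notMem_iff_infDist_pos hUne.closure).1 hycl
    positivity
  -- a point of the curve far from `y`
  obtain ⟨y1, hy1⟩ : (frontier U).Nonempty := by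
    rw [nonempty_frontier_iff]
    refine ⟨hUne, ?_⟩
    rintro hun
    rw [hun] at hUb
    exact NormedSpace.unbounded_univ ℂ ℂ hUb
  obtain ⟨τ1, hτ1⟩ := h.sub_range hg hv hk hl hz hs hy1
  obtain ⟨s1, rfl⟩ := QuotientAddGroup.mk_surjective τ1
  have hd1 : 4 * r ≤ dist y (γ.c (s1 : S1)) := by
    have e1 : γ.c (s1 : S1) = y1 := hτ1
    rw [e1, hr]
    have := Metric.infDist_le_dist_of_mem (x := y) (frontier_subset_closure hy1)
    linarith
  -- first time after `t0` at distance `r`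
  set f : ℝ → ℝ := fun t : ℝ => dist y (γ.c (t : S1)) with hf
  have hcont : Continuous f :=
    continuous_const.dist (γ.c.continuous.comp (AddCircle.continuous_mk' 1))
  obtain ⟨s2, hs2, hs2'⟩ : ∃ s2 : ℝ, t0 < s2 ∧ γ.c (s2 : S1) = γ.c (s1 : S1) := by
    refine ⟨s1 + (⌈|t0 - s1|⌉ + 1 : ℤ), ?_, ?_⟩
    · have a1 := Int.le_ceil |t0 - s1|
      have a2 := le_abs_self (t0 - s1)
      push_cast
      linarith
    · rw [coe_add_int]
  set C := Set.Icc t0 s2 ∩ f ⁻¹' Set.Ici r with hC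
  have hCc : IsCompact C := isCompact_Icc.inter_right (isClosed_Ici.preimage hcont)
  have hCne : C.Nonempty := ⟨s2, ⟨hs2.le, le_rfl⟩, by
    show r ≤ dist y (γ.c (s2 : S1))
    rw [hs2']
    linarith⟩
  obtain ⟨t1, ht1, hmin⟩ := hCc.exists_isLeast hCne
  have ht01 : t0 < t1 := by
    refine lt_of_le_of_ne ht1.1.1 ?_
    intro he
    have h1 : r ≤ dist y (γ.c (t1 : S1)) := ht1.2
    rw [← he, ← hy, dist_self] at h1
    linarith
  have hbefore : ∀ t ∈ Set.Icc t0 t1, dist y (γ.c (t : S1)) ≤ r := by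
    intro t ht
    rcases ht.2.lt_or_eq with h1 | h1
    · by_contra hcon
      push Not at hcon
      exact absurd (hmin ⟨⟨ht.1, h1.le.trans ht1.1.2⟩, hcon.le⟩) (not_le.2 h1)
    · subst h1
      by_contra hcon
      push Not at hcon
      -- continuity: an earlier time is at distance `≥ r`
      obtain ⟨t', ht', he⟩ := intermediate_value_Icc ht.1 hcont.continuousOn
        (show r ∈ Set.Icc (f t0) (f t) from ⟨by simp only [hf, ← hy, dist_self]; exact hr0.le,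
          hcon.le⟩)
      have h2 := hmin ⟨⟨ht'.1, ht'.2.trans ht1.1.2⟩, he.ge⟩
      have h3 : t' = t := le_antisymm ht'.2 h2
      rw [h3] at he
      have : f t = dist y (γ.c (t : S1)) := rfl
      linarith
  have hne : γ.c (t0 : S1) ≠ γ.c (t1 : S1) := by
    intro he
    have h1 : r ≤ dist y (γ.c (t1 : S1)) := ht1.2
    rw [← he, ← hy, dist_self] at h1
    linarith
  obtain ⟨w, hwU, t, ht, hwt⟩ := arc_hole hg h hv hdeep hk hl hz hs ht01
    (show 0 < r / 2 by positivity) hne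
  have h1 := hbefore t ht
  have h2 : Metric.infDist y (closure U) ≤ dist y w :=
    Metric.infDist_le_dist_of_mem (subset_closure hwU)
  have h3 := dist_triangle y (γ.c (t : S1)) w
  rw [dist_comm (γ.c (t : S1)) w] at h3
  linarith

/-- **The trace of the limit curve is the boundary of the hole.** -/
theorem Conv.range_eq (hg : Good Ω S n ω G) {v : ℕ → Pt} {γ : PL}
    {θ : ℕ → ℝ → ℝ} (h : Conv S n ω v γ θ) (hv : ∀ j, (ω j).1 (v j) ≠ (ω j).2 (v j))
    (hdeep : DeepL S n ω v) {k : ℕ}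
    (hk : 1 ≤ k) (hl : ∀ j, level (ω j) (comp (ω j) (v j)) = k) {z : ℂ}
    (hz : z ∈ Ω \ (G k : Set ℂ))
    (hs : ∀ j, surrZ (S.δ (n j)) (S.a (n j)) (ω j) (comp (ω j) (v j)) z) :
    Set.range γ.c = frontier (connectedComponentIn (Ω \ (G k : Set ℂ)) z) :=
  (h.range_sub_frontier hg hv hdeep hk hl hz hs).antisymm (h.sub_range hg hv hk hl hz hs)

end Vale.Agent.P155.Q1
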